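import Mathlib
import Vale.Agent.P254.BM

/-!
# P237: coordinates, projection areas, Brunn–Minkowski on Euclidean space
-/

open MeasureTheory Set Real Submodule
open scoped Pointwise RealInnerProductSpace ENNReal

namespace Vale.Agent.P237

/-- Euclidean `n`-space. -/
abbrev E (n : ℕ) := EuclideanSpace ℝ (Fin n)

/-- The hyperplane orthogonal to `u`. -/
noncomputable def hyper {n : ℕ} (u : E n) : Submodule ℝ (E n) := (ℝ ∙ u)ᗮ

/-- The orthogonal projection onto `hyper u`. -/
noncomputable def projTo {n : ℕ} (u : E n) : E n →L[ℝ] hyper u := (hyper u).orthogonalProjectionOnto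

/-- Volume of the orthogonal projection of `K` onto the hyperplane orthogonal to `u`. -/
noncomputable def projArea {n : ℕ} (K : Set (E n)) (u : E n) : ℝ :=
  volume.real (projTo u '' K)

/-- The projection body: `h_{ΠK}(u) = projArea K u` on unit vectors. -/
def projBody {n : ℕ} (K : Set (E n)) : Set (E n) :=
  {x | ∀ u : E n, ‖u‖ = 1 → ⟪x, u⟫ ≤ projArea K u}

variable {n : ℕ}

/-- The coordinate `0`. -/
noncomputable def hd : E (n + 1) →L[ℝ] ℝ := EuclideanSpace.proj 0

/-- The coordinates other than `0`. -/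
noncomputable def tl : E (n + 1) →L[ℝ] E n :=
  (EuclideanSpace.equiv (Fin n) ℝ).symm.toContinuousLinearMap.comp
    (ContinuousLinearMap.pi fun i => EuclideanSpace.proj i.succ)

/-- Glue the coordinate `0` and the rest. -/
noncomputable def cons (t : ℝ) (y : E n) : E (n + 1) := WithLp.toLp 2 (Fin.cons t y.ofLp)

/-- The first basis vector. -/
noncomputable def e0 : E (n + 1) := EuclideanSpace.single 0 1

@[simp] lemma hd_cons (t : ℝ) (y : E n) : hd (cons t y) = t := by simp [hd, cons]

@[simp] lemma tl_cons (t : ℝ) (y : E n) : tl (cons t y) = y := by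
  ext i; simp [tl, cons]

@[simp] lemma cons_hd_tl (x : E (n + 1)) : cons (hd x) (tl x) = x := by
  ext i
  refine Fin.cases ?_ (fun j => ?_) i <;> simp [hd, tl, cons]

lemma cons_add (s t : ℝ) (x y : E n) : cons s x + cons t y = cons (s + t) (x + y) := by
  ext i
  refine Fin.cases ?_ (fun j => ?_) i <;> simp [cons]

lemma smul_cons (a t : ℝ) (y : E n) : a • cons t y = cons (a * t) (a • y) := by
  ext i
  refine Fin.cases ?_ (fun j => ?_) i <;> simp [cons]

lemma e0_eq : (e0 : E (n + 1)) = cons 1 0 := by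
  ext i
  refine Fin.cases ?_ (fun j => ?_) i <;> simp [cons, e0]

lemma inner_cons (s t : ℝ) (x y : E n) : ⟪cons s x, cons t y⟫ = s * t + ⟪x, y⟫ := by
  simp [cons, PiLp.inner_apply, Fin.sum_univ_succ, mul_comm]

lemma continuous_cons : Continuous fun p : ℝ × E n => cons p.1 p.2 := by
  refine (PiLp.continuous_toLp 2 _).comp (continuous_pi fun i => ?_)
  refine Fin.cases ?_ (fun j => ?_) i <;> simp <;> fun_prop

lemma measurePreserving_split :
    MeasurePreserving (fun x : E (n + 1) => (hd x, tl x)) volume (volume.prod volume) := by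
  have h1 := PiLp.volume_preserving_ofLp (Fin (n + 1))
  have h2 := volume_preserving_piFinSuccAbove (fun _ : Fin (n + 1) => ℝ) 0
  have h3 := (MeasurePreserving.id (volume : Measure ℝ)).prod (PiLp.volume_preserving_toLp (Fin n))
  have := (h3.comp h2).comp h1
  refine (congrArg (fun f => MeasurePreserving f volume (volume.prod volume)) ?_).mp this
  funext x
  refine Prod.ext ?_ ?_
  · simp [hd, MeasurableEquiv.piFinSuccAbove, Fin.insertNthEquiv]
  · ext i; simp [tl, MeasurableEquiv.piFinSuccAbove, Fin.insertNthEquiv, Fin.tail]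

/-- The slice at height `t`. -/
def slice (C : Set (E (n + 1))) (t : ℝ) : Set (E n) := {y | cons t y ∈ C}

/-- The fibre above `y`. -/
def fibre (C : Set (E (n + 1))) (y : E n) : Set ℝ := {t | cons t y ∈ C}

lemma volume_eq_prod {C : Set (E (n + 1))} (hC : MeasurableSet C) :
    volume C = (volume.prod volume) {p : ℝ × E n | cons p.1 p.2 ∈ C} := by
  have := measurePreserving_split.measure_preimage
    (s := {p : ℝ × E n | cons p.1 p.2 ∈ C})
    (hC.preimage continuous_cons.measurable).nullMeasurableSet
  rw [← this]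
  simp

lemma volume_eq_lintegral_slice {C : Set (E (n + 1))} (hC : MeasurableSet C) :
    volume C = ∫⁻ t, volume (slice C t) := by
  rw [volume_eq_prod hC, Measure.prod_apply]
  · rfl
  · exact hC.preimage continuous_cons.measurable

lemma volume_eq_lintegral_fibre {C : Set (E (n + 1))} (hC : MeasurableSet C) :
    volume C = ∫⁻ y, volume (fibre C y) := by
  rw [volume_eq_prod hC, Measure.prod_apply_symm]
  · rfl
  · exact hC.preimage continuous_cons.measurable

lemma fibre_isCompact {C : Set (E (n + 1))} (hC : IsCompact C) (y : E n) :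
    IsCompact (fibre C y) :=
  (hC.image hd.continuous).of_isClosed_subset
    (hC.isClosed.preimage (continuous_cons.comp (continuous_id.prodMk continuous_const)))
    fun _ ht => ⟨_, ht, hd_cons _ _⟩

lemma fibre_convex {C : Set (E (n + 1))} (hC : Convex ℝ C) (y : E n) :
    Convex ℝ (fibre C y) := by
  intro s hs t ht a b ha hb hab
  have := hC hs ht ha hb hab
  rw [smul_cons, smul_cons, cons_add, ← add_smul, hab, one_smul] at this
  exact this

lemma slice_isCompact {C : Set (E (n + 1))} (hC : IsCompact C) (t : ℝ) :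
    IsCompact (slice C t) :=
  (hC.image tl.continuous).of_isClosed_subset
    (hC.isClosed.preimage (continuous_cons.comp (continuous_const.prodMk continuous_id)))
    fun _ hy => ⟨_, hy, tl_cons _ _⟩

lemma slice_convex {C : Set (E (n + 1))} (hC : Convex ℝ C) (t : ℝ) :
    Convex ℝ (slice C t) := by
  intro x hx y hy a b ha hb hab
  have := hC hx hy ha hb hab
  rw [smul_cons, smul_cons, cons_add, ← add_mul, hab, one_mul] at this
  exact this

lemma fibre_nonempty_iff {C : Set (E (n + 1))} {y : E n} :
    (fibre C y).Nonempty ↔ y ∈ tl '' C :=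
  ⟨fun ⟨t, ht⟩ => ⟨_, ht, tl_cons _ _⟩, fun ⟨x, hx, hxy⟩ => ⟨hd x, by
    show cons (hd x) y ∈ C
    rw [← hxy]; simpa using hx⟩⟩

/-- Lengthening every fibre by `δ` raises the volume by `δ` times the shadow. -/
lemma volume_gain {C C' : Set (E (n + 1))} (hC : IsCompact C) (hCc : Convex ℝ C)
    (hC' : MeasurableSet C') {δ : ℝ} (hδ : 0 ≤ δ)
    (h : ∀ x ∈ C, ∀ s : ℝ, |s| ≤ δ / 2 → x + s • e0 ∈ C') :
    volume C + ENNReal.ofReal δ * volume (tl '' C) ≤ volume C' := by
  have hm : MeasurableSet (tl '' C) := (hC.image tl.continuous).measurableSet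
  rw [volume_eq_lintegral_fibre hC.measurableSet, volume_eq_lintegral_fibre hC',
    ← setLIntegral_const (μ := volume) (tl '' C) (ENNReal.ofReal δ), ← lintegral_indicator hm,
    ← lintegral_add_right _ (measurable_const.indicator hm)]
  refine lintegral_mono fun y => ?_
  by_cases hy : y ∈ tl '' C
  · rw [indicator_of_mem hy]
    have hI := eq_Icc_of_connected_compact
      ⟨fibre_nonempty_iff.2 hy, (fibre_convex hCc y).isPreconnected⟩ (fibre_isCompact hC y)
    set a := sInf (fibre C y)
    set b := sSup (fibre C y)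
    have hab : a ≤ b := by
      have := fibre_nonempty_iff.2 hy
      rw [hI] at this
      exact nonempty_Icc.1 this
    have hsub : Icc (a - δ / 2) (b + δ / 2) ⊆ fibre C' y := by
      intro t ht
      have hmem : max a (min b t) ∈ fibre C y := by
        rw [hI]; exact ⟨le_max_left _ _, max_le hab (min_le_left _ _)⟩
      have := h _ hmem (t - max a (min b t)) ?_
      · rw [e0_eq, smul_cons, cons_add] at this
        show cons t y ∈ C'
        simpa using this
      · rw [abs_le]
        constructor <;> rcases max_cases a (min b t) with h1 | h1 <;>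
          rcases min_cases b t with h2 | h2 <;> linarith [ht.1, ht.2]
    calc volume (fibre C y) + ENNReal.ofReal δ
        = ENNReal.ofReal ((b + δ / 2) - (a - δ / 2)) := by
          rw [hI, Real.volume_Icc, ← ENNReal.ofReal_add (by linarith) hδ]; congr 1; ring
      _ = volume (Icc (a - δ / 2) (b + δ / 2)) := Real.volume_Icc.symm
      _ ≤ _ := measure_mono hsub
  · rw [indicator_of_notMem hy, add_zero]
    have : fibre C y = ∅ := not_nonempty_iff_eq_empty.1 fun hne => hy (fibre_nonempty_iff.1 hne)
    simp [this]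

/-- Shortening every fibre by `δ` costs at most `δ` times the shadow. -/
lemma volume_loss {C C' : Set (E (n + 1))} (hC : IsCompact C) (hCc : Convex ℝ C)
    (hC' : MeasurableSet C') {δ : ℝ} (hδ : 0 ≤ δ)
    (h : ∀ x, x + (δ / 2) • e0 ∈ C → x - (δ / 2) • e0 ∈ C → x ∈ C') :
    volume C ≤ volume C' + ENNReal.ofReal δ * volume (tl '' C) := by
  have hm : MeasurableSet (tl '' C) := (hC.image tl.continuous).measurableSet
  rw [volume_eq_lintegral_fibre hC.measurableSet, volume_eq_lintegral_fibre hC',
    ← setLIntegral_const (μ := volume) (tl '' C) (ENNReal.ofReal δ), ← lintegral_indicator hm,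
    ← lintegral_add_right _ (measurable_const.indicator hm)]
  refine lintegral_mono fun y => ?_
  by_cases hy : y ∈ tl '' C
  · rw [indicator_of_mem hy]
    have hI := eq_Icc_of_connected_compact
      ⟨fibre_nonempty_iff.2 hy, (fibre_convex hCc y).isPreconnected⟩ (fibre_isCompact hC y)
    set a := sInf (fibre C y)
    set b := sSup (fibre C y)
    have hsub : Icc (a + δ / 2) (b - δ / 2) ⊆ fibre C' y := by
      intro t ht
      have h1 : t + δ / 2 ∈ fibre C y := by rw [hI]; constructor <;> linarith [ht.1, ht.2]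
      have h2 : t - δ / 2 ∈ fibre C y := by rw [hI]; constructor <;> linarith [ht.1, ht.2]
      refine h (cons t y) ?_ ?_
      · rw [e0_eq, smul_cons, cons_add]; exact (by simpa using (show cons (t + δ / 2) y ∈ C from h1))
      · rw [sub_eq_add_neg, ← neg_smul, e0_eq, smul_cons, cons_add]
        simpa [sub_eq_add_neg] using (show cons (t - δ / 2) y ∈ C from h2)
    calc volume (fibre C y) = ENNReal.ofReal (((b - δ / 2) - (a + δ / 2)) + δ) := by
          rw [hI, Real.volume_Icc]; congr 1; ring
      _ ≤ ENNReal.ofReal ((b - δ / 2) - (a + δ / 2)) + ENNReal.ofReal δ := ENNReal.ofReal_add_le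
      _ = volume (Icc (a + δ / 2) (b - δ / 2)) + ENNReal.ofReal δ := by rw [Real.volume_Icc]
      _ ≤ _ := by gcongr
  · rw [indicator_of_notMem hy, add_zero]
    have : fibre C y = ∅ := not_nonempty_iff_eq_empty.1 fun hne => hy (fibre_nonempty_iff.1 hne)
    simp [this]

/-- Projection areas can be computed in any orthonormal frame of the hyperplane. -/
lemma projArea_eq {v : E (n + 1)} (hv : v ≠ 0) (T : E (n + 1) →ₗ[ℝ] E n) (h0 : T v = 0)
    (hiso : ∀ x, ⟪x, v⟫ = 0 → ‖T x‖ = ‖x‖) (K : Set (E (n + 1))) :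
    projArea K v = volume.real (T '' K) := by
  set W := (ℝ ∙ v)ᗮ with hW
  have hmem : ∀ x : W, ⟪(x : E (n + 1)), v⟫ = 0 := fun x =>
    Submodule.mem_orthogonal_singleton_iff_inner_left.1 x.2
  let i : W →ₗᵢ[ℝ] E n :=
    { toLinearMap := T.comp W.subtype
      norm_map' := fun x => hiso _ (hmem x) }
  have hfin : Module.finrank ℝ W = Module.finrank ℝ (E n) := by
    have : Fact (Module.finrank ℝ (E (n + 1)) = n + 1) := ⟨finrank_euclideanSpace_fin⟩
    rw [hW, finrank_orthogonal_span_singleton (n := n) hv, finrank_euclideanSpace_fin]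
  let e : W ≃ₗᵢ[ℝ] E n := i.toLinearIsometryEquiv hfin
  have himg : T '' K = e '' (W.orthogonalProjectionOnto '' K) := by
    rw [image_image]
    refine image_congr fun x _ => ?_
    have hd' : x - (W.orthogonalProjectionOnto x : E (n + 1)) ∈ ℝ ∙ v := by
      have := W.sub_starProjection_mem_orthogonal x
      exact (Submodule.orthogonal_orthogonal (ℝ ∙ v)).le this
    obtain ⟨c, hc⟩ := Submodule.mem_span_singleton.1 hd'
    have : x = (W.orthogonalProjectionOnto x : E (n + 1)) + c • v := by rw [hc]; abel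
    calc T x = T ((W.orthogonalProjectionOnto x : E (n + 1)) + c • v) := by rw [← this]
      _ = T (W.orthogonalProjectionOnto x : E (n + 1)) := by simp [h0]
      _ = e (W.orthogonalProjectionOnto x) := rfl
  rw [himg]
  show (volume _).toReal = (volume _).toReal
  congr 1
  have h2 := (e.toHomeomorph.toMeasurableEquiv).measurableEmbedding
  have h3 := e.measurePreserving.measure_preimage_emb h2 (e '' (W.orthogonalProjectionOnto '' K))
  rwa [Set.preimage_image_eq _ e.injective] at h3

/-- A rotation taking a given unit vector to `e0`. -/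
lemma exists_frame {v : E (n + 1)} (hv : ‖v‖ = 1) :
    ∃ L : E (n + 1) ≃ₗᵢ[ℝ] E (n + 1), L v = e0 := by
  have h : Orthonormal ℝ (({0} : Set (Fin (n + 1))).domRestrict fun _ => v) := by
    refine ⟨fun _ => hv, fun i j hij => absurd (Subtype.ext (i.2.trans j.2.symm)) hij⟩
  obtain ⟨b, hb⟩ := h.exists_orthonormalBasis_extension_of_card_eq (by simp)
  refine ⟨b.repr, ?_⟩
  rw [← hb 0 rfl, OrthonormalBasis.repr_self]
  rfl

lemma volume_frame_image (L : E n ≃ₗᵢ[ℝ] E n) (K : Set (E n)) :
    volume (L '' K) = volume K := by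
  have h3 := L.measurePreserving.measure_preimage_emb
    L.toHomeomorph.toMeasurableEquiv.measurableEmbedding (L '' K)
  rwa [Set.preimage_image_eq _ L.injective, eq_comm] at h3

lemma projArea_frame {v : E (n + 1)} (hv : ‖v‖ = 1) (L : E (n + 1) ≃ₗᵢ[ℝ] E (n + 1))
    (hL : L v = e0) (K : Set (E (n + 1))) :
    projArea K v = volume.real (tl '' (L '' K)) := by
  rw [image_image]
  refine projArea_eq (by intro h; simp [h] at hv) (tl.toLinearMap.comp L.toLinearEquiv.toLinearMap) ?_
    ?_ K
  · show tl (L v) = 0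
    rw [hL, e0_eq, tl_cons]
  · intro x hx
    have h1 : hd (L x) = 0 := by
      rw [← L.inner_map_map, hL, e0_eq, ← cons_hd_tl (L x), inner_cons] at hx
      simpa using hx
    show ‖tl (L x)‖ = ‖x‖
    rw [← L.norm_map x, norm_eq_sqrt_real_inner, norm_eq_sqrt_real_inner]
    conv_rhs => rw [← cons_hd_tl (L x), inner_cons, h1, mul_zero, zero_add]

/-- Brunn–Minkowski in Euclidean space. -/
theorem bm {n : ℕ} (hn : n ≠ 0) {A B C : Set (E n)} (hA : Convex ℝ A) (hAc : IsCompact A)
    (hAne : A.Nonempty) (hB : Convex ℝ B) (hBc : IsCompact B) (hBne : B.Nonempty) (hC : Convex ℝ C)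
    (hCc : IsCompact C) {a b : ℝ} (ha : 0 ≤ a) (hb : 0 ≤ b) (hab : a + b = 1)
    (h : ∀ x ∈ A, ∀ y ∈ B, a • x + b • y ∈ C) :
    a * volume.real A ^ (n⁻¹ : ℝ) + b * volume.real B ^ (n⁻¹ : ℝ) ≤
      volume.real C ^ (n⁻¹ : ℝ) := by
  let φ := EuclideanSpace.equiv (Fin n) ℝ
  have hvol : ∀ S : Set (E n), P254.vol (φ '' S) = volume.real S := by
    intro S
    have h3 := (PiLp.volume_preserving_ofLp (Fin n)).measure_preimage_emb
      φ.toHomeomorph.toMeasurableEquiv.measurableEmbedding (φ '' S)
    show (volume (φ '' S)).toReal = (volume S).toReal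
    rw [← h3]
    congr 2
    exact Set.preimage_image_eq _ φ.injective
  have := P254.bm_root hn (hA.linear_image φ.toLinearEquiv.toLinearMap) (hAc.image φ.continuous)
    (hAne.image φ) (hB.linear_image φ.toLinearEquiv.toLinearMap) (hBc.image φ.continuous)
    (hBne.image φ) (hC.linear_image φ.toLinearEquiv.toLinearMap) (hCc.image φ.continuous) ha hb hab
    (by
      rintro _ ⟨x, hx, rfl⟩ _ ⟨y, hy, rfl⟩
      exact ⟨_, h x hx y hy, by simp⟩)
  simp only [← hvol]
  exact this

/-- Brunn–Minkowski for a sum of two sets. -/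
theorem bm_add {n : ℕ} (hn : n ≠ 0) {A B : Set (E n)} (hA : Convex ℝ A) (hAc : IsCompact A)
    (hAne : A.Nonempty) (hB : Convex ℝ B) (hBc : IsCompact B) (hBne : B.Nonempty) :
    volume.real A ^ (n⁻¹ : ℝ) + volume.real B ^ (n⁻¹ : ℝ) ≤
      volume.real (A + B) ^ (n⁻¹ : ℝ) := by
  have hs : ∀ (S : Set (E n)) (c : ℝ), 0 ≤ c →
      volume.real (c • S) ^ (n⁻¹ : ℝ) = c * volume.real S ^ (n⁻¹ : ℝ) := by
    intro S c hc
    rw [measureReal_def, Measure.addHaar_smul_of_nonneg volume hc, ENNReal.toReal_mul,
      ENNReal.toReal_ofReal (by positivity), finrank_euclideanSpace_fin,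
      mul_rpow (by positivity) ENNReal.toReal_nonneg, pow_rpow_inv_natCast hc hn]
    rfl
  have := bm hn (hA.smul 2) (hAc.smul 2) (hAne.smul_set) (hB.smul 2) (hBc.smul 2) (hBne.smul_set)
    (hA.add hB) (hAc.add hBc) (a := 1 / 2) (b := 1 / 2) (by norm_num) (by norm_num) (by norm_num)
    (by
      rintro _ ⟨x, hx, rfl⟩ _ ⟨y, hy, rfl⟩
      simp only [smul_smul]
      norm_num
      exact Set.add_mem_add hx hy)
  rw [hs A 2 zero_le_two, hs B 2 zero_le_two] at this
  linarith

end Vale.Agent.P237
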