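import Mathlib
import Vale.Agent.P237.Basic

/-!
# P237: polytopes `{x | ∀ i, ⟪nrm i, x⟫ ≤ h i}`, the Cauchy formula without surface-area measures
-/

open MeasureTheory Set Real Filter Topology
open scoped Pointwise RealInnerProductSpace

namespace Vale.Agent.P237

lemma projArea_nonneg {n : ℕ} (K : Set (E n)) (u : E n) : 0 ≤ projArea K u := measureReal_nonneg

lemma projArea_mono {n : ℕ} {A B : Set (E n)} (hB : IsCompact B) (h : A ⊆ B) (u : E n) :
    projArea A u ≤ projArea B u :=
  measureReal_mono (image_mono h)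
    (hB.image (projTo u).continuous).measure_lt_top.ne

lemma projArea_neg {n : ℕ} (K : Set (E (n + 1))) {u : E (n + 1)} (hu : ‖u‖ = 1) :
    projArea K (-u) = projArea K u := by
  obtain ⟨L, hL⟩ := exists_frame hu
  rw [projArea_frame hu L hL]
  refine projArea_eq (by intro h; rw [neg_eq_zero] at h; simp [h] at hu)
    (tl.toLinearMap.comp L.toLinearEquiv.toLinearMap) ?_ ?_ K |>.trans ?_
  · show tl (L (-u)) = 0
    rw [map_neg, hL, e0_eq, map_neg, tl_cons, neg_zero]
  · intro x hx
    have h1 : hd (L x) = 0 := by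
      rw [inner_neg_right, neg_eq_zero, ← L.inner_map_map, hL, e0_eq, ← cons_hd_tl (L x),
        inner_cons] at hx
      simpa using hx
    show ‖tl (L x)‖ = ‖x‖
    rw [← L.norm_map x, norm_eq_sqrt_real_inner, norm_eq_sqrt_real_inner]
    conv_rhs => rw [← cons_hd_tl (L x), inner_cons, h1, mul_zero, zero_add]
  · rw [image_image]; rfl

lemma zero_mem_projBody {n : ℕ} (K : Set (E n)) : (0 : E n) ∈ projBody K := by
  intro u _; simpa using projArea_nonneg K u

lemma projBody_convex {n : ℕ} (K : Set (E n)) : Convex ℝ (projBody K) := by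
  intro x hx y hy a b ha hb hab u hu
  rw [inner_add_left, real_inner_smul_left, real_inner_smul_left]
  calc a * ⟪x, u⟫ + b * ⟪y, u⟫ ≤ a * projArea K u + b * projArea K u := by
        gcongr <;> first | exact hx u hu | exact hy u hu
    _ = _ := by rw [← add_mul, hab, one_mul]

lemma projBody_isCompact {n : ℕ} (K : Set (E n)) : IsCompact (projBody K) := by
  have hcl : IsClosed (projBody K) := by
    simp only [projBody, Set.ofPred_forall]
    exact isClosed_iInter fun u => isClosed_iInter fun _ =>
      isClosed_le (Continuous.inner continuous_id continuous_const) continuous_const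
  set R := ∑ i : Fin n, (projArea K (EuclideanSpace.single i 1) +
      projArea K (-EuclideanSpace.single i 1)) with hR
  refine (isCompact_closedBall (0 : E n) R).of_isClosed_subset hcl fun x hx => ?_
  rw [mem_closedBall_zero_iff]
  conv_lhs => rw [← (EuclideanSpace.basisFun (Fin n) ℝ).sum_repr x]
  refine (norm_sum_le _ _).trans (Finset.sum_le_sum fun i _ => ?_)
  have h1 := hx (EuclideanSpace.single i 1) (by simp)
  have h2 := hx (-EuclideanSpace.single i 1) (by simp)
  simp only [inner_neg_right, EuclideanSpace.inner_single_right, one_mul,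
    conj_trivial] at h1 h2
  have h3 := projArea_nonneg K (EuclideanSpace.single i (1:ℝ))
  have h4 := projArea_nonneg K (-EuclideanSpace.single i (1:ℝ))
  rw [norm_smul, OrthonormalBasis.norm_eq_one, mul_one, EuclideanSpace.basisFun_repr,
    Real.norm_eq_abs, abs_le]
  constructor <;> linarith

lemma projBody_mono {n : ℕ} {A B : Set (E n)} (hB : IsCompact B) (h : A ⊆ B) :
    projBody A ⊆ projBody B :=
  fun _ hx u hu => (hx u hu).trans (projArea_mono hB h u)

variable {n : ℕ} {ι : Type} [Fintype ι]

/-- A polyhedron with given normals. -/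
def poly (nrm : ι → E (n + 1)) (h : ι → ℝ) : Set (E (n + 1)) := {x | ∀ i, ⟪nrm i, x⟫ ≤ h i}

/-- `vol^(1/(n+1))` of the polyhedron. -/
noncomputable def rootVol (nrm : ι → E (n + 1)) (h : ι → ℝ) : ℝ :=
  volume.real (poly nrm h) ^ ((↑(n + 1) : ℝ)⁻¹)

variable {nrm : ι → E (n + 1)}

omit [Fintype ι] in
lemma poly_convex (h : ι → ℝ) : Convex ℝ (poly nrm h) := by
  intro x hx y hy a b ha hb hab i
  rw [inner_add_right, real_inner_smul_right, real_inner_smul_right]
  calc a * ⟪nrm i, x⟫ + b * ⟪nrm i, y⟫ ≤ a * h i + b * h i := by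
        gcongr <;> first | exact hx i | exact hy i
    _ = h i := by rw [← add_mul, hab, one_mul]

omit [Fintype ι] in
lemma poly_isClosed (h : ι → ℝ) : IsClosed (poly nrm h) := by
  simp only [poly, Set.ofPred_forall]
  exact isClosed_iInter fun i =>
    isClosed_le (Continuous.inner continuous_const continuous_id) continuous_const

omit [Fintype ι] in
lemma poly_isCompact (hb : ∀ h, Bornology.IsBounded (poly nrm h)) (h : ι → ℝ) :
    IsCompact (poly nrm h) :=
  Metric.isCompact_of_isClosed_isBounded (poly_isClosed h) (hb h)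

omit [Fintype ι] in
lemma zero_mem_poly {h : ι → ℝ} (hh : ∀ i, 0 ≤ h i) : (0 : E (n + 1)) ∈ poly nrm h := by
  intro i; simpa using hh i

omit [Fintype ι] in
lemma rootVol_mono (hb : ∀ h, Bornology.IsBounded (poly nrm h)) {g h : ι → ℝ} (hgh : ∀ i, g i ≤ h i) :
    rootVol nrm g ≤ rootVol nrm h :=
  rpow_le_rpow measureReal_nonneg (measureReal_mono (fun _ hx i => (hx i).trans (hgh i))
    (poly_isCompact hb h).measure_lt_top.ne) (by positivity)

omit [Fintype ι] in
lemma rootVol_concave (hb : ∀ h, Bornology.IsBounded (poly nrm h)) :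
    ConcaveOn ℝ {h : ι → ℝ | ∀ i, 0 < h i} (rootVol nrm) := by
  refine ⟨?_, fun g hg h hh a b ha hb' hab => ?_⟩
  · intro g hg h hh a b ha hb' hab i
    exact (convex_Ioi (0:ℝ)) (hg i) (hh i) ha hb' hab
  · refine bm (n := n + 1) (by omega) (poly_convex g) (poly_isCompact hb g)
      ⟨0, zero_mem_poly fun i => (hg i).le⟩ (poly_convex h) (poly_isCompact hb h)
      ⟨0, zero_mem_poly fun i => (hh i).le⟩ (poly_convex _) (poly_isCompact hb _) ha hb' hab ?_
    intro x hx y hy i
    rw [inner_add_right, real_inner_smul_right, real_inner_smul_right]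
    simp only [Pi.add_apply, Pi.smul_apply, smul_eq_mul]
    gcongr
    · exact hx i
    · exact hy i

omit [Fintype ι] in
lemma rootVol_smul {t : ℝ} (ht : 0 < t) (h : ι → ℝ) :
    rootVol nrm (t • h) = t * rootVol nrm h := by
  have : poly nrm (t • h) = t • poly nrm h := by
    ext x
    rw [mem_smul_set_iff_inv_smul_mem₀ ht.ne']
    refine forall_congr' fun i => ?_
    rw [real_inner_smul_right, Pi.smul_apply, smul_eq_mul, inv_mul_le_iff₀ ht]
  rw [rootVol, this, measureReal_def, Measure.addHaar_smul_of_nonneg volume ht.le,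
    ENNReal.toReal_mul, ENNReal.toReal_ofReal (by positivity), finrank_euclideanSpace_fin,
    mul_rpow (by positivity) ENNReal.toReal_nonneg, pow_rpow_inv_natCast ht.le (by omega)]
  rfl

/-- A supergradient of `vol^(1/(n+1))` at the all-one vector. -/
lemma exists_supergradient (hb : ∀ h, Bornology.IsBounded (poly nrm h)) :
    ∃ q : ι → ℝ, (∀ i, 0 ≤ q i) ∧ ∑ i, q i = rootVol nrm (fun _ => 1) ∧
      ∀ h : ι → ℝ, (∀ i, 0 ≤ h i) → rootVol nrm h ≤ ∑ i, q i * h i := by
  classical
  set s : Set (ι → ℝ) := {h | ∀ i, 0 < h i} with hs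
  have hso : IsOpen s := by
    simp only [hs, Set.ofPred_forall]
    exact isOpen_iInter_of_finite fun i => isOpen_lt continuous_const (continuous_apply i)
  have hF := rootVol_concave hb
  have hcont : ContinuousOn (rootVol nrm) s := hF.continuousOn hso
  set one : ι → ℝ := fun _ => 1
  have h1 : one ∈ s := fun _ => zero_lt_one
  set A : Set ((ι → ℝ) × ℝ) := {p | p.1 ∈ s ∧ p.2 < rootVol nrm p.1} with hA
  have hAo : IsOpen A := by
    have hS : IsOpen {p : (ι → ℝ) × ℝ | p.1 ∈ s} := hso.preimage continuous_fst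
    have := (continuousOn_snd (s := {p : (ι → ℝ) × ℝ | p.1 ∈ s})).prodMk
      (hcont.comp continuousOn_fst (fun p hp => hp))
    exact this.isOpen_inter_preimage hS (isOpen_lt continuous_fst continuous_snd)
  have hAc : Convex ℝ A := hF.convex_strict_hypograph
  obtain ⟨f, hf⟩ := geometric_hahn_banach_open_point hAc hAo
    (x := (one, rootVol nrm one)) (by simp [hA])
  set κ := f (0, 1) with hκ
  set l : (ι → ℝ) →L[ℝ] ℝ := f.comp (ContinuousLinearMap.inl ℝ (ι → ℝ) ℝ) with hl
  have hsplit : ∀ h r, f (h, r) = l h + κ * r := by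
    intro h r
    have : (h, r) = ((h, 0) : (ι → ℝ) × ℝ) + r • (0, 1) := by simp
    rw [this, map_add, map_smul, smul_eq_mul, mul_comm r]
    rfl
  have hκ0 : 0 < κ := by
    have := hf (one, rootVol nrm one - 1) ⟨h1, by simp⟩
    rw [hsplit, hsplit] at this
    linarith
  set C := l one + κ * rootVol nrm one with hC
  have hle : ∀ h ∈ s, l h + κ * rootVol nrm h ≤ C := by
    intro h hh
    refine le_of_forall_pos_le_add fun ε hε => ?_
    have := hf (h, rootVol nrm h - ε / κ) ⟨hh, by simp [div_pos hε hκ0]⟩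
    rw [hsplit, hsplit, mul_sub, mul_div_cancel₀ _ hκ0.ne'] at this
    linarith
  have hscale : ∀ t : ℝ, 0 < t → t * C ≤ C := by
    intro t ht
    have := hle (t • one) (fun i => by simp [one, ht])
    rw [map_smul, rootVol_smul ht, smul_eq_mul] at this
    linarith [show t * C = t * l one + κ * (t * rootVol nrm one) by rw [hC]; ring]
  have hC0 : C = 0 := by
    have := hscale 2 two_pos
    have := hscale (1 / 2) (by norm_num)
    linarith
  have hlsum : ∀ h : ι → ℝ, l h = ∑ i, h i * l (Pi.single i 1) := by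
    intro h
    conv_lhs => rw [pi_eq_sum_univ' h]
    simp [map_sum]
  set q : ι → ℝ := fun i => -l (Pi.single i 1) / κ with hq
  have hqh : ∀ h : ι → ℝ, ∑ i, q i * h i = -l h / κ := by
    intro h
    rw [hlsum h, ← Finset.sum_neg_distrib, Finset.sum_div]
    exact Finset.sum_congr rfl fun i _ => by simp [hq]; ring
  have hqs : ∀ h ∈ s, rootVol nrm h ≤ ∑ i, q i * h i := by
    intro h hh
    rw [hqh, le_div_iff₀ hκ0]
    linarith [hle h hh]
  have hq1 : ∑ i, q i = rootVol nrm one := by
    have := hqh one
    simp only [one, mul_one] at this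
    rw [this, eq_comm, eq_div_iff hκ0.ne']
    linarith [hC0, hC]
  refine ⟨q, fun i => ?_, hq1, fun h hh => ?_⟩
  · have hi : (one + Pi.single i 1 : ι → ℝ) ∈ s := fun j => by
      by_cases hj : j = i <;> simp [one, hj]
    have h2 := (rootVol_mono hb (g := one) (h := one + Pi.single i 1) (fun j => by
      by_cases hj : j = i <;> simp [hj])).trans (hqs _ hi)
    simp only [Pi.add_apply, mul_add, Finset.sum_add_distrib, one, mul_one] at h2
    rw [hq1, Finset.sum_eq_single i (fun j _ hj => by simp [hj]) (by simp)] at h2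
    simp only [Pi.single_eq_same, mul_one] at h2
    linarith
  · refine le_of_forall_pos_le_add fun ε hε => ?_
    have hpos : 0 < rootVol nrm one + 1 := by
      have : 0 ≤ rootVol nrm one := rpow_nonneg measureReal_nonneg _
      linarith
    set d := ε / (rootVol nrm one + 1) with hd
    have hd0 : 0 < d := div_pos hε hpos
    have h2 := (rootVol_mono hb (g := h) (h := fun i => h i + d) (fun i => by linarith)).trans
      (hqs _ (fun i => by linarith [hh i]))
    simp only [mul_add, Finset.sum_add_distrib, ← Finset.sum_mul, hq1] at h2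
    have : rootVol nrm one * d ≤ ε := by
      rw [hd, ← mul_div_assoc, div_le_iff₀ hpos]
      nlinarith
    linarith

/-- The atoms of the surrogate surface-area measure. -/
noncomputable def atom (nrm : ι → E (n + 1)) (q : ι → ℝ) (i : ι) : E (n + 1) :=
  (((n : ℝ) + 1) * rootVol nrm (fun _ => 1) ^ n * q i) • nrm i

omit [Fintype ι] in
lemma rootVol_pow (h : ι → ℝ) : rootVol nrm h ^ (n + 1) = volume.real (poly nrm h) :=
  rpow_inv_natCast_pow measureReal_nonneg (by omega)

lemma volume_real_image (L : E n ≃ₗᵢ[ℝ] E n) (K : Set (E n)) :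
    volume.real (L '' K) = volume.real K := by
  rw [measureReal_def, volume_frame_image, ← measureReal_def]

/-- Cauchy's formula. -/
lemma projArea_poly (hb : ∀ h, Bornology.IsBounded (poly nrm h)) {q : ι → ℝ}
    (hq1 : ∑ i, q i = rootVol nrm (fun _ => 1))
    (hq : ∀ h : ι → ℝ, (∀ i, 0 ≤ h i) → rootVol nrm h ≤ ∑ i, q i * h i)
    {u : E (n + 1)} (hu : ‖u‖ = 1) :
    projArea (poly nrm fun _ => 1) u = (∑ i, |⟪u, atom nrm q i⟫|) / 2 := by
  classical
  set X := rootVol nrm (fun _ => 1) with hX
  have hX0 : 0 ≤ X := rpow_nonneg measureReal_nonneg _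
  set P := poly nrm (fun _ => 1)
  set w : ι → ℝ := fun i => |⟪nrm i, u⟫| / 2 with hw
  set t := ∑ i, q i * w i with ht
  obtain ⟨L, hL⟩ := exists_frame hu
  set S := projArea P u with hS
  have hSeq : S = volume.real (tl '' (L '' P)) := projArea_frame hu L hL P
  have hPc : IsCompact (L '' P) := (poly_isCompact hb _).image L.continuous
  have hPv : Convex ℝ (L '' P) := (poly_convex _).linear_image L.toLinearEquiv.toLinearMap
  have hsh : volume (tl '' (L '' P)) ≠ ⊤ := (hPc.image tl.continuous).measure_lt_top.ne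
  set M := ∑ i, w i with hM
  have hw0 : ∀ i, 0 ≤ w i := fun i => by simp only [hw]; positivity
  have hwM : ∀ i, w i ≤ M := fun i =>
    Finset.single_le_sum (f := w) (fun j _ => hw0 j) (Finset.mem_univ i)
  have key : ∀ ε : ℝ, |ε| * M ≤ 1 →
      X ^ (n + 1) + ε * S ≤ (X + ε * t) ^ (n + 1) := by
    intro ε hε
    set h : ι → ℝ := fun i => 1 + ε * w i with hh
    have hh0 : ∀ i, 0 ≤ h i := by
      intro i
      have : |ε * w i| ≤ 1 := by
        rw [abs_mul, abs_of_nonneg (hw0 i)]
        exact le_trans (mul_le_mul_of_nonneg_left (hwM i) (abs_nonneg ε)) hε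
      simp only [hh]
      linarith [(abs_le.1 this).1]
    have hub : volume.real (poly nrm h) ≤ (X + ε * t) ^ (n + 1) := by
      rw [← rootVol_pow]
      refine pow_le_pow_left₀ (rpow_nonneg measureReal_nonneg _) ((hq h hh0).trans_eq ?_) _
      simp only [hh, mul_add, mul_one, Finset.sum_add_distrib, hq1, ht, Finset.mul_sum]
      congr 1
      exact Finset.sum_congr rfl fun i _ => by ring
    refine le_trans ?_ hub
    rw [hX, rootVol_pow, hSeq, ← volume_real_image L (poly nrm fun _ => 1),
      ← volume_real_image L (poly nrm h)]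
    have hC'c : IsCompact (L '' poly nrm h) := (poly_isCompact hb _).image L.continuous
    rcases le_total 0 ε with h0 | h0
    · have := volume_gain hPc hPv hC'c.measurableSet h0 (by
        rintro _ ⟨x, hx, rfl⟩ s hs
        refine ⟨x + s • u, fun i => ?_, by simp [hL]⟩
        rw [inner_add_right, real_inner_smul_right]
        have h3 : |s * ⟪nrm i, u⟫| ≤ ε / 2 * |⟪nrm i, u⟫| := by
          rw [abs_mul]; gcongr
        simp only [hh, hw]
        linarith [hx i, (abs_le.1 h3).2])
      have := ENNReal.toReal_mono hC'c.measure_lt_top.ne this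
      rw [ENNReal.toReal_add hPc.measure_lt_top.ne
        (ENNReal.mul_ne_top ENNReal.ofReal_ne_top hsh), ENNReal.toReal_mul,
        ENNReal.toReal_ofReal h0] at this
      exact this
    · have := volume_loss hPc hPv hC'c.measurableSet (δ := -ε) (by linarith) (by
        rintro x ⟨y, hy, hyx⟩ ⟨z, hz, hzx⟩
        refine ⟨L.symm x, fun i => ?_, by simp⟩
        have e1 : y = L.symm x + (-ε / 2) • u := by
          apply L.injective; simp [hL, hyx]
        have e2 : z = L.symm x - (-ε / 2) • u := by
          apply L.injective; simp [hL, hzx]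
        have a1 := hy i
        have a2 := hz i
        rw [e1, inner_add_right, real_inner_smul_right] at a1
        rw [e2, inner_sub_right, real_inner_smul_right] at a2
        simp only [hh, hw]
        rcases abs_cases ⟪nrm i, u⟫ with ⟨he, -⟩ | ⟨he, -⟩ <;> rw [he] <;> linarith)
      have := ENNReal.toReal_mono (ENNReal.add_ne_top.2 ⟨hC'c.measure_lt_top.ne,
        ENNReal.mul_ne_top ENNReal.ofReal_ne_top hsh⟩) this
      rw [ENNReal.toReal_add hC'c.measure_lt_top.ne
        (ENNReal.mul_ne_top ENNReal.ofReal_ne_top hsh), ENNReal.toReal_mul,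
        ENNReal.toReal_ofReal (by linarith)] at this
      simp only [measureReal_def] at this ⊢
      linarith
  have hmin : IsLocalMin (fun ε => (X + ε * t) ^ (n + 1) - (X ^ (n + 1) + ε * S)) 0 := by
    have hM0 : 0 ≤ M := Finset.sum_nonneg fun i _ => hw0 i
    have : ∀ᶠ ε : ℝ in 𝓝 0, |ε| * M ≤ 1 := by
      have hc : Tendsto (fun ε : ℝ => |ε| * M) (𝓝 0) (𝓝 0) := by
        have h : Continuous fun ε : ℝ => |ε| * M := by fun_prop
        simpa using h.tendsto 0
      exact (hc.eventually (gt_mem_nhds zero_lt_one)).mono fun _ h => h.le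
    filter_upwards [this] with ε hε
    simp only [zero_mul, add_zero, sub_self]
    linarith [key ε hε]
  have hder : HasDerivAt (fun ε => (X + ε * t) ^ (n + 1) - (X ^ (n + 1) + ε * S))
      (((n : ℝ) + 1) * X ^ n * t - S) 0 := by
    have h1 : HasDerivAt (fun ε => (X + ε * t) ^ (n + 1)) (((n : ℝ) + 1) * X ^ n * t) 0 := by
      simpa using (((hasDerivAt_id (0 : ℝ)).mul_const t).const_add X).fun_pow (n + 1)
    have h2 : HasDerivAt (fun ε => X ^ (n + 1) + ε * S) S 0 := by
      simpa using ((hasDerivAt_id (0 : ℝ)).mul_const S).const_add (X ^ (n + 1))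
    exact h1.sub h2
  have hfin := hmin.hasDerivAt_eq_zero hder
  have : (∑ i, |⟪u, atom nrm q i⟫|) / 2 = ((n : ℝ) + 1) * X ^ n * t := by
    rw [ht, Finset.mul_sum, Finset.sum_div]
    refine Finset.sum_congr rfl fun i _ => ?_
    have hqi : 0 ≤ q i := by
      have h3 := hq (fun j => 1 + if j = i then 1 else 0) (fun j => by
        split_ifs <;> norm_num)
      have h4 := rootVol_mono hb (g := fun _ => 1) (h := fun j => 1 + if j = i then (1:ℝ) else 0)
        (fun j => by split_ifs <;> norm_num)
      simp [mul_add, Finset.sum_add_distrib, hq1] at h3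
      linarith
    rw [atom, real_inner_smul_right, abs_mul, ← hX,
      abs_of_nonneg (show 0 ≤ ((n : ℝ) + 1) * X ^ n * q i by positivity)]
    simp only [hw, real_inner_comm u]
    ring
  linarith [this, hS]

/-- `(n+1)|Π P| ≥ Σ |a| · area(proj_{a^⊥} Π P)`. -/
lemma sum_atom_projArea_le {P : Set (E (n + 1))} {a : ι → E (n + 1)}
    (hP : ∀ u : E (n + 1), ‖u‖ = 1 → projArea P u = (∑ i, |⟪u, a i⟫|) / 2) :
    ∑ i, ‖a i‖ * projArea (projBody P) (‖a i‖⁻¹ • a i) ≤
      ((n : ℝ) + 1) * volume.real (projBody P) := by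
  classical
  set Z := projBody P with hZ
  have hZc : IsCompact Z := projBody_isCompact P
  set T := ∑ i, ‖a i‖ * projArea Z (‖a i‖⁻¹ • a i) with hT
  have main : ∀ ε : ℝ, 0 < ε → volume.real Z + ε * T ≤ (1 + ε) ^ (n + 1) * volume.real Z := by
    intro ε hε
    have ind : ∀ s : Finset ι, ∃ C : Set (E (n + 1)), IsCompact C ∧ Convex ℝ C ∧ Z ⊆ C ∧
        (∀ x ∈ C, ∀ u, ‖u‖ = 1 → ⟪x, u⟫ ≤ projArea P u + ε * ((∑ i ∈ s, |⟪u, a i⟫|) / 2)) ∧
        volume.real Z + ε * ∑ i ∈ s, ‖a i‖ * projArea Z (‖a i‖⁻¹ • a i) ≤ volume.real C := by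
      intro s
      induction s using Finset.induction_on with
      | empty =>
        exact ⟨Z, hZc, projBody_convex P, Subset.rfl,
          fun x hx u hu => by simpa using hx u hu, by simp⟩
      | @insert j s hj ih =>
        obtain ⟨C, hCc, hCv, hZC, hCb, hCvol⟩ := ih
        set J := (fun r : ℝ => r • a j) '' Icc (-(ε / 2)) (ε / 2) with hJ
        have hJ0 : (0 : E (n + 1)) ∈ J := ⟨0, ⟨by linarith, by linarith⟩, by simp⟩
        have hsub : C ⊆ C + J := fun x hx => ⟨x, hx, 0, hJ0, add_zero x⟩
        refine ⟨C + J, hCc.add (isCompact_Icc.image (by fun_prop)), hCv.add ?_, hZC.trans hsub,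
          ?_, ?_⟩
        · exact (convex_Icc _ _).linear_image (LinearMap.toSpanSingleton ℝ _ (a j))
        · rintro _ ⟨x, hx, _, ⟨r, hr, rfl⟩, rfl⟩ u hu
          rw [inner_add_left, real_inner_smul_left, Finset.sum_insert hj, real_inner_comm u (a j)]
          have := hCb x hx u hu
          have h3 : |r * ⟪u, a j⟫| ≤ ε / 2 * |⟪u, a j⟫| := by
            rw [abs_mul]; gcongr; exact abs_le.2 hr
          linarith [(abs_le.1 h3).2]
        · rw [Finset.sum_insert hj, mul_add]
          have hCC : volume.real C + ε * (‖a j‖ * projArea Z (‖a j‖⁻¹ • a j)) ≤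
              volume.real (C + J) := by
            have hCJ : IsCompact (C + J) := hCc.add (isCompact_Icc.image (by fun_prop))
            rcases eq_or_ne (a j) 0 with h0 | h0
            · simp only [h0, norm_zero, zero_mul, mul_zero, add_zero]
              exact measureReal_mono hsub hCJ.measure_lt_top.ne
            · set v := ‖a j‖⁻¹ • a j with hv
              have hnv : ‖v‖ = 1 := norm_smul_inv_norm h0
              obtain ⟨L, hL⟩ := exists_frame hnv
              have hav : a j = ‖a j‖ • v := by
                rw [hv, smul_smul, mul_inv_cancel₀ (norm_ne_zero_iff.2 h0), one_smul]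
              have := volume_gain (hCc.image L.continuous)
                (hCv.linear_image L.toLinearEquiv.toLinearMap)
                (hCJ.image L.continuous).measurableSet (δ := ε * ‖a j‖) (by positivity) (by
                  rintro _ ⟨x, hx, rfl⟩ r hr
                  refine ⟨x + r • v, ⟨x, hx, r • v, ⟨r / ‖a j‖, ?_, ?_⟩, rfl⟩, by simp [hL]⟩
                  · have hp : 0 < ‖a j‖ := norm_pos_iff.2 h0
                    have hr' := abs_le.1 hr
                    constructor
                    · rw [le_div_iff₀ hp]; linarith [hr'.1]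
                    · rw [div_le_iff₀ hp]; linarith [hr'.2]
                  · simp only
                    rw [hv, smul_smul]
                    rfl)
              have hfinT : volume (tl '' (L '' C)) ≠ ⊤ :=
                ((hCc.image L.continuous).image tl.continuous).measure_lt_top.ne
              have := ENNReal.toReal_mono (hCJ.image L.continuous).measure_lt_top.ne this
              rw [ENNReal.toReal_add (hCc.image L.continuous).measure_lt_top.ne
                (ENNReal.mul_ne_top ENNReal.ofReal_ne_top hfinT), ENNReal.toReal_mul,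
                ENNReal.toReal_ofReal (by positivity)] at this
              simp only [← measureReal_def, volume_real_image] at this
              rw [← projArea_frame hnv L hL] at this
              have hm := mul_le_mul_of_nonneg_left (projArea_mono hCc hZC v)
                (show 0 ≤ ε * ‖a j‖ by positivity)
              linarith
          linarith
    obtain ⟨C, -, -, -, hCb, hCvol⟩ := ind Finset.univ
    refine hCvol.trans ?_
    have hsub : C ⊆ (1 + ε) • Z := by
      intro x hx
      rw [mem_smul_set_iff_inv_smul_mem₀ (by linarith : (1 + ε) ≠ 0)]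
      intro u hu
      rw [real_inner_smul_left, inv_mul_le_iff₀ (by linarith)]
      have := hCb x hx u hu
      rw [← hP u hu] at this
      linarith
    calc volume.real C ≤ volume.real ((1 + ε) • Z) :=
          measureReal_mono hsub (hZc.smul _).measure_lt_top.ne
      _ = _ := by
          rw [measureReal_def, Measure.addHaar_smul_of_nonneg volume (by linarith),
            ENNReal.toReal_mul, ENNReal.toReal_ofReal (by positivity), finrank_euclideanSpace_fin]
          rfl
  have hder : HasDerivAt (fun ε : ℝ => (1 + ε) ^ (n + 1) * volume.real Z)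
      (((n : ℝ) + 1) * volume.real Z) 0 := by
    simpa using (((hasDerivAt_id (0 : ℝ)).const_add 1).fun_pow (n + 1)).mul_const (volume.real Z)
  have hlim := hder.tendsto_slope_zero_right
  refine ge_of_tendsto hlim ?_
  filter_upwards [self_mem_nhdsWithin] with ε hε
  rw [zero_add, smul_eq_mul, le_inv_mul_iff₀ (hε : 0 < ε)]
  have := main ε hε
  simp only [add_zero, one_pow, one_mul]
  linarith

/-- The projection of a zonotope contains everything below its support function. -/
lemma le_projArea_projBody {P : Set (E (n + 1))} {a : ι → E (n + 1)}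
    (hP : ∀ u : E (n + 1), ‖u‖ = 1 → projArea P u = (∑ i, |⟪u, a i⟫|) / 2)
    {v : E (n + 1)} (hv : ‖v‖ = 1) (L : E (n + 1) ≃ₗᵢ[ℝ] E (n + 1)) (hL : L v = e0) :
    volume.real {y : E n | ∀ u : E n, ‖u‖ = 1 → ⟪y, u⟫ ≤ projArea P (L.symm (cons 0 u))} ≤
      projArea (projBody P) v := by
  classical
  rw [projArea_frame hv L hL]
  refine measureReal_mono ?_ (((projBody_isCompact P).image L.continuous).image
    tl.continuous).measure_lt_top.ne
  let Φ : (ι → ℝ) →ₗ[ℝ] E (n + 1) :=
    ∑ i, (LinearMap.proj i).smulRight (a i)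
  have hΦ : ∀ r, Φ r = ∑ i, r i • a i := fun r => by simp [Φ]
  let T : (ι → ℝ) →ₗ[ℝ] E n :=
    (tl.toLinearMap.comp L.toLinearEquiv.toLinearMap).comp Φ
  set cube : Set (ι → ℝ) := univ.pi fun _ => Icc (-(1/2 : ℝ)) (1/2) with hcube
  have hTc : IsCompact (T '' cube) :=
    (isCompact_univ_pi fun _ => isCompact_Icc).image T.continuous_of_finiteDimensional
  have hTv : Convex ℝ (T '' cube) := (convex_pi fun _ _ => convex_Icc _ _).linear_image T
  intro y hy
  by_contra hne
  have hyT : y ∉ T '' cube := by
    rintro ⟨r, hr, rfl⟩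
    refine hne ⟨L (Φ r), ⟨Φ r, fun u hu => ?_, rfl⟩, rfl⟩
    rw [hΦ, hP u hu, sum_inner, Finset.sum_div]
    refine Finset.sum_le_sum fun i _ => ?_
    rw [real_inner_smul_left, real_inner_comm]
    have h3 : |r i * ⟪u, a i⟫| ≤ 1 / 2 * |⟪u, a i⟫| := by
      rw [abs_mul]; gcongr; exact abs_le.2 (hr i trivial)
    linarith [(abs_le.1 h3).2]
  obtain ⟨f, c, hfc, hcy⟩ := geometric_hahn_banach_closed_point hTv hTc.isClosed hyT
  set w := (InnerProductSpace.toDual ℝ (E n)).symm f with hw
  have hf : ∀ z, f z = ⟪w, z⟫ := fun z => by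
    rw [hw, InnerProductSpace.toDual_symm_apply]
  have hzero : (0 : ι → ℝ) ∈ cube := fun i _ => by norm_num
  have hw0 : w ≠ 0 := by
    intro h0
    have h1 := hfc _ ⟨0, hzero, rfl⟩
    rw [hf, h0, inner_zero_left] at h1 hcy
    linarith
  set u := ‖w‖⁻¹ • w with hu
  have hu1 : ‖u‖ = 1 := norm_smul_inv_norm hw0
  set g : ι → ℝ := fun i => ⟪L.symm (cons 0 u), a i⟫ with hg
  set r : ι → ℝ := fun i => if 0 ≤ g i then 1 / 2 else -(1 / 2) with hr
  have hr' : r ∈ cube := fun i _ => by simp only [hr]; split_ifs <;> norm_num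
  have h1 := hfc _ ⟨r, hr', rfl⟩
  have hTr : ⟪u, T r⟫ = projArea P (L.symm (cons 0 u)) := by
    have hn : ‖L.symm (cons 0 u)‖ = 1 := by
      rw [LinearIsometryEquiv.norm_map, norm_eq_sqrt_real_inner, inner_cons]
      simp [hu1]
    rw [hP _ hn]
    show ⟪u, tl (L (Φ r))⟫ = _
    have : ⟪u, tl (L (Φ r))⟫ = ⟪L.symm (cons 0 u), Φ r⟫ := by
      rw [← L.inner_map_map (L.symm (cons 0 u)), L.apply_symm_apply]
      conv_rhs => rw [← cons_hd_tl (L (Φ r)), inner_cons, zero_mul, zero_add]
    rw [this, hΦ, inner_sum, Finset.sum_div]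
    refine Finset.sum_congr rfl fun i _ => ?_
    rw [real_inner_smul_right]
    simp only [hr, hg]
    split_ifs with h
    · rw [abs_of_nonneg h]; ring
    · rw [abs_of_neg (not_le.1 h)]; ring
  have h2 : ⟪y, u⟫ ≤ ⟪u, T r⟫ := hTr ▸ hy u hu1
  have hwu : w = ‖w‖ • u := by
    rw [hu, smul_smul, mul_inv_cancel₀ (norm_ne_zero_iff.2 hw0), one_smul]
  rw [hf, hwu, real_inner_smul_left] at h1 hcy
  rw [real_inner_comm] at h2
  have := mul_le_mul_of_nonneg_left h2 (norm_nonneg w)
  linarith

end Vale.Agent.P237
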