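import Mathlib
import Vale.Agent.P237.Basic

/-!
# P237: the ellipsoid of second moments
-/

open MeasureTheory Set Real Filter Topology
open scoped Pointwise RealInnerProductSpace

namespace Vale.Agent.P237

/-- Second moment in direction `u`. -/
noncomputable def mom {n : ℕ} (K : Set (E n)) (u : E n) : ℝ := ∫ x in K, ⟪x, u⟫ ^ 2

/-- The body with support function `√(mom K u / |K|)` (an ellipsoid). -/
noncomputable def momBody {n : ℕ} (K : Set (E n)) : Set (E n) :=
  {x | ∀ u, ⟪x, u⟫ ≤ √(mom K u / volume.real K)}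

variable {n : ℕ}

lemma mom_nonneg (K : Set (E n)) (u : E n) : 0 ≤ mom K u :=
  integral_nonneg fun _ => sq_nonneg _

lemma mom_smul (K : Set (E n)) (t : ℝ) (u : E n) : mom K (t • u) = t ^ 2 * mom K u := by
  simp only [mom, real_inner_smul_right, mul_pow]
  rw [integral_const_mul]

lemma mom_pos {K : Set (E n)} (hK : IsCompact K) (hi : (interior K).Nonempty) {u : E n}
    (hu : u ≠ 0) : 0 < mom K u := by
  have hc : Continuous fun x : E n => ⟪x, u⟫ ^ 2 := by fun_prop
  rw [mom, setIntegral_pos_iff_support_of_nonneg_ae (.of_forall fun x => sq_nonneg _)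
    (hc.continuousOn.integrableOn_compact hK)]
  set U := interior K ∩ {x : E n | ⟪x, u⟫ ≠ 0} with hU
  have hUo : IsOpen U := isOpen_interior.inter (isOpen_ne_fun (by fun_prop) continuous_const)
  have hUne : U.Nonempty := by
    obtain ⟨x, hx⟩ := hi
    by_cases hxu : ⟪x, u⟫ = 0
    · have ht : Tendsto (fun t : ℝ => x + t • u) (𝓝[>] 0) (𝓝 x) := by
        have : Continuous fun t : ℝ => x + t • u := by fun_prop
        simpa using this.tendsto 0 |>.mono_left nhdsWithin_le_nhds
      obtain ⟨t, ht1, ht0⟩ := ((ht.eventually (isOpen_interior.mem_nhds hx)).and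
        self_mem_nhdsWithin).exists
      refine ⟨x + t • u, ht1, ?_⟩
      show ⟪x + t • u, u⟫ ≠ 0
      rw [inner_add_left, hxu, zero_add, real_inner_smul_left]
      exact mul_ne_zero (ne_of_gt ht0) (by simpa using hu)
    · exact ⟨x, hx, hxu⟩
  refine (hUo.measure_pos volume hUne).trans_le (measure_mono fun x hx => ?_)
  exact ⟨pow_ne_zero 2 hx.2, interior_subset hx.1⟩

/-- Eigenframe of the second moment form. -/
lemma exists_mom_basis {K : Set (E n)} (hK : IsCompact K) :
    ∃ b : OrthonormalBasis (Fin n) ℝ (E n),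
      ∀ u, mom K u = ∑ i, mom K (b i) * ⟪b i, u⟫ ^ 2 := by
  have hint : ∀ u : E n, Integrable (fun x => ⟪x, u⟫ • x) (volume.restrict K) := fun u =>
    (Continuous.continuousOn (by fun_prop)).integrableOn_compact hK
  let S : E n →ₗ[ℝ] E n :=
    { toFun := fun u => ∫ x in K, ⟪x, u⟫ • x
      map_add' := fun u w => by
        simp only [inner_add_right, add_smul]
        exact integral_add (hint u) (hint w)
      map_smul' := fun c u => by
        simp only [real_inner_smul_right, RingHom.id_apply, mul_smul]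
        exact integral_smul c _ }
  have hS : ∀ u w, ⟪S u, w⟫ = ∫ x in K, ⟪x, u⟫ * ⟪x, w⟫ := by
    intro u w
    rw [real_inner_comm]
    show ⟪w, ∫ x in K, ⟪x, u⟫ • x⟫ = _
    rw [← integral_inner (hint u) w]
    simp only [real_inner_smul_right, real_inner_comm w]
  have hsym : S.IsSymmetric := fun u w => by
    rw [hS, real_inner_comm (S w) u, hS]
    simp only [mul_comm]
  have hd : Module.finrank ℝ (E n) = n := finrank_euclideanSpace_fin
  refine ⟨hsym.eigenvectorBasis hd, fun u => ?_⟩
  set b := hsym.eigenvectorBasis hd with hb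
  have hmom : ∀ w, mom K w = ⟪S w, w⟫ := fun w => by rw [hS]; simp only [mom, sq]
  have hev : ∀ i, S (b i) = hsym.eigenvalues hd i • b i := fun i => by
    exact hsym.apply_eigenvectorBasis hd i
  have hdiag : ∀ i, mom K (b i) = hsym.eigenvalues hd i := fun i => by
    rw [hmom, hev, real_inner_smul_left, real_inner_self_eq_norm_sq, b.norm_eq_one]; ring
  rw [hmom]
  conv_lhs => rw [← b.sum_inner_mul_inner (S u) u]
  refine Finset.sum_congr rfl fun i _ => ?_
  rw [hsym u (b i), hev, real_inner_smul_right, hdiag, real_inner_comm u (b i)]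
  ring

/-- The ellipsoid of second moments is large. -/
theorem momBody_volume {K : Set (E n)} (hn : 1 ≤ n) (hK : IsCompact K)
    (hi : (interior K).Nonempty) :
    IsCompact (momBody K) ∧
      volume.real K ≤ √((n:ℝ) + 2) ^ n * volume.real (momBody K) := by
  obtain ⟨b, hb⟩ := exists_mom_basis hK
  set V := volume.real K with hVdef
  have hV : 0 < V :=
    ENNReal.toReal_pos ((isOpen_interior.measure_pos volume hi).trans_le
      (measure_mono interior_subset)).ne' hK.measure_lt_top.ne
  set lam : Fin n → ℝ := fun i => mom K (b i) / V with hlam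
  have hl : ∀ i, 0 < lam i := fun i => div_pos (mom_pos hK hi (b.orthonormal.ne_zero i)) hV
  set φ : E n → ℝ := fun x => ∑ i, ⟪b i, x⟫ ^ 2 / lam i with hφ
  have hφc : Continuous φ := by simp only [hφ]; fun_prop
  have hφ0 : ∀ x, 0 ≤ φ x := fun x =>
    Finset.sum_nonneg fun i _ => div_nonneg (sq_nonneg _) (hl i).le
  have hφs : ∀ (t : ℝ) x, φ (t • x) = t ^ 2 * φ x := fun t x => by
    simp only [hφ, real_inner_smul_right, mul_pow, Finset.mul_sum, mul_div_assoc]
  have hbd : ∀ R : ℝ, Bornology.IsBounded {x | φ x ≤ R} := by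
    intro R
    refine (Metric.isBounded_closedBall (x := (0 : E n))
      (r := √((∑ i, lam i) * max R 0))).subset fun x hx => ?_
    rw [mem_closedBall_zero_iff, ← Real.sqrt_sq (norm_nonneg x)]
    refine Real.sqrt_le_sqrt ?_
    rw [← b.sum_sq_norm_inner_right x, Finset.sum_mul]
    refine Finset.sum_le_sum fun i _ => ?_
    rw [Real.norm_eq_abs, sq_abs]
    have h1 : ⟪b i, x⟫ ^ 2 / lam i ≤ max R 0 := le_trans (le_trans
      (Finset.single_le_sum (f := fun j => ⟪b j, x⟫ ^ 2 / lam j)
        (fun j _ => div_nonneg (sq_nonneg _) (hl j).le) (Finset.mem_univ i)) hx) (le_max_left _ _)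
    rw [div_le_iff₀ (hl i)] at h1
    linarith
  set B : ℝ → Set (E n) := fun R => {x | φ x ≤ R ^ 2} with hB
  have hBc : ∀ R, IsCompact (B R) := fun R =>
    Metric.isCompact_of_isClosed_isBounded (isClosed_le hφc continuous_const) (hbd _)
  have hBs : ∀ R : ℝ, 0 < R → B R = R • B 1 := by
    intro R hR
    ext x
    rw [mem_smul_set_iff_inv_smul_mem₀ hR.ne']
    simp only [hB, mem_ofPred_eq, hφs, inv_pow, one_pow]
    rw [inv_mul_le_iff₀ (by positivity), mul_one]
  set w := volume.real (B 1) with hw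
  have hw0 : 0 < w := by
    have hsub : {x | φ x < 1} ⊆ B 1 := fun x (hx : φ x < 1) => by simp [hB, hx.le]
    exact ENNReal.toReal_pos (((isOpen_lt hφc continuous_const).measure_pos volume
      ⟨0, by simp [hφ]⟩).trans_le (measure_mono hsub)).ne' (hBc 1).measure_lt_top.ne
  have hvB : ∀ R : ℝ, 0 < R → volume.real (B R) = R ^ n * w := by
    intro R hR
    rw [hBs R hR, measureReal_def, Measure.addHaar_smul_of_nonneg volume hR.le,
      ENNReal.toReal_mul, ENNReal.toReal_ofReal (by positivity), finrank_euclideanSpace_fin]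
    rfl
  have hintB : ∀ R, IntegrableOn φ (B R) := fun R => hφc.continuousOn.integrableOn_compact (hBc R)
  set G := ∫ x in B 1, φ x with hG
  have hGR : ∀ R : ℝ, 0 < R → ∫ x in B R, φ x = R ^ (n + 2) * G := by
    intro R hR
    have := Measure.setIntegral_comp_smul_of_pos volume φ (B 1) hR
    simp only [hφs, integral_const_mul, finrank_euclideanSpace_fin, smul_eq_mul, ← hBs R hR] at this
    rw [eq_inv_mul_iff_mul_eq₀ (by positivity)] at this
    rw [← this, hG]; ring
  -- `G ≥ n/(n+2) w`
  have hGw : (n:ℝ) * w ≤ ((n:ℝ) + 2) * G := by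
    have key : ∀ t : ℝ, t ∈ Ioo (0:ℝ) 1 → t ^ 2 * (w * (1 - t ^ n)) ≤ G * (1 - t ^ (n + 2)) := by
      intro t ht
      have hsub : B t ⊆ B 1 := fun x (hx : φ x ≤ t ^ 2) =>
        show φ x ≤ 1 ^ 2 by nlinarith [ht.1, ht.2]
      have h1 : ∫ x in B 1 \ B t, φ x = G - t ^ (n + 2) * G := by
        rw [setIntegral_sdiff (hBc t).measurableSet (hintB 1) hsub, hGR t ht.1]
      have h2 : t ^ 2 * volume.real (B 1 \ B t) ≤ ∫ x in B 1 \ B t, φ x := by
        refine setIntegral_ge_of_const_le_real ((hBc 1).measurableSet.diff (hBc t).measurableSet)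
          ((measure_mono sdiff_subset).trans_lt (hBc 1).measure_lt_top).ne
          (fun x hx => le_of_lt (not_le.1 (show ¬ φ x ≤ t ^ 2 from hx.2)))
          ((hintB 1).mono_set sdiff_subset)
      rw [measureReal_sdiff hsub (hBc t).measurableSet (hBc 1).measure_lt_top.ne, hvB t ht.1, h1]
        at h2
      linarith
    have hd : HasDerivAt (fun t : ℝ => t ^ 2 * (w * (1 - t ^ n)) - G * (1 - t ^ (n + 2)))
        (-((n:ℝ) * w) + ((n:ℝ) + 2) * G) 1 := by
      refine HasDerivAt.congr_deriv
        (((hasDerivAt_pow 2 (1:ℝ)).mul (((hasDerivAt_pow n (1:ℝ)).const_sub 1).const_mul w)).fun_sub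
          (((hasDerivAt_pow (n + 2) (1:ℝ)).const_sub 1).const_mul G)) ?_
      simp; ring
    have hlim := hd.tendsto_slope_zero_left
    have hev : ∀ᶠ t : ℝ in 𝓝[<] 0, t ∈ Ioo (-1:ℝ) 0 := Ioo_mem_nhdsLT (by norm_num)
    have := ge_of_tendsto hlim (b := 0) (by
      filter_upwards [hev] with t ht
      have hk := key (1 + t) ⟨by linarith [ht.1], by linarith [ht.2]⟩
      rw [smul_eq_mul]
      refine mul_nonneg_of_nonpos_of_nonpos (inv_nonpos.2 ht.2.le) ?_
      simp only [one_pow, sub_self, mul_zero, sub_zero]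
      linarith)
    linarith
  -- bathtub
  set R := (V / w) ^ ((n:ℝ)⁻¹) with hR
  have hR0 : 0 < R := rpow_pos_of_pos (div_pos hV hw0) _
  have hRn : R ^ n = V / w := rpow_inv_natCast_pow (div_pos hV hw0).le (by omega)
  have hvR : volume.real (B R) = V := by rw [hvB R hR0, hRn, div_mul_cancel₀ _ hw0.ne']
  have hφK : ∫ x in K, φ x = (n:ℝ) * V := by
    simp only [hφ]
    rw [integral_finsetSum _ fun i _ =>
      (Continuous.continuousOn (by fun_prop)).integrableOn_compact hK]
    have : ∀ i, ∫ x in K, ⟪b i, x⟫ ^ 2 / lam i = V := by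
      intro i
      rw [integral_div]
      simp only [fun x => real_inner_comm x (b i)]
      show mom K (b i) / lam i = V
      have := (mom_pos hK hi (b.orthonormal.ne_zero i)).ne'
      simp only [hlam]; field_simp
    simp [this]
  have hbath : ∫ x in B R, (φ x - R ^ 2) ≤ ∫ x in K, (φ x - R ^ 2) := by
    rw [← integral_indicator (hBc R).measurableSet, ← integral_indicator hK.measurableSet]
    refine integral_mono ((Continuous.continuousOn (by fun_prop)).integrableOn_compact (hBc R)
      |>.integrable_indicator (hBc R).measurableSet)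
      ((Continuous.continuousOn (by fun_prop)).integrableOn_compact hK
      |>.integrable_indicator hK.measurableSet) fun x => ?_
    by_cases h1 : φ x ≤ R ^ 2 <;> by_cases h2 : x ∈ K
    · rw [indicator_of_mem (show x ∈ B R from h1), indicator_of_mem h2]
    · rw [indicator_of_mem (show x ∈ B R from h1), indicator_of_notMem h2]; linarith
    · rw [indicator_of_notMem (show x ∉ B R from h1), indicator_of_mem h2]; linarith
    · rw [indicator_of_notMem (show x ∉ B R from h1), indicator_of_notMem h2]
  rw [integral_sub (hintB R) (integrableOn_const (hBc R).measure_lt_top.ne),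
    integral_sub (hφc.continuousOn.integrableOn_compact hK) (integrableOn_const hK.measure_lt_top.ne),
    setIntegral_const, setIntegral_const, hGR R hR0, hφK, hvR, ← hVdef] at hbath
  have hR2 : R ^ 2 ≤ (n:ℝ) + 2 := by
    have h1 : R ^ (n + 2) * G = R ^ 2 * (V / w) * G := by rw [pow_add, hRn]; ring
    have h2 : R ^ 2 * (V / w) * G ≤ (n:ℝ) * V := by
      simp only [smul_eq_mul] at hbath; linarith
    have h3 : R ^ 2 * (V / w) * ((n:ℝ) * w) ≤ ((n:ℝ) + 2) * ((n:ℝ) * V) := by
      calc R ^ 2 * (V / w) * ((n:ℝ) * w) ≤ R ^ 2 * (V / w) * (((n:ℝ) + 2) * G) :=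
            mul_le_mul_of_nonneg_left hGw (by positivity)
        _ = ((n:ℝ) + 2) * (R ^ 2 * (V / w) * G) := by ring
        _ ≤ _ := mul_le_mul_of_nonneg_left h2 (by positivity)
    rw [show R ^ 2 * (V / w) * ((n:ℝ) * w) = R ^ 2 * ((n:ℝ) * V) by field_simp] at h3
    exact le_of_mul_le_mul_right h3 (by have : (0:ℝ) < n := by exact_mod_cast hn
                                        positivity)
  have hcomp : IsCompact (momBody K) := by
    refine Metric.isCompact_of_isClosed_isBounded ?_ ?_
    · simp only [momBody, Set.ofPred_forall]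
      exact isClosed_iInter fun u => isClosed_le (by fun_prop) continuous_const
    · refine (Metric.isBounded_closedBall (x := (0 : E n))
        (r := √(∑ i, (√(lam i)) ^ 2))).subset fun x hx => ?_
      rw [mem_closedBall_zero_iff, ← Real.sqrt_sq (norm_nonneg x)]
      refine Real.sqrt_le_sqrt ?_
      rw [← b.sum_sq_norm_inner_left x]
      refine Finset.sum_le_sum fun i _ => ?_
      rw [Real.norm_eq_abs]
      refine pow_le_pow_left₀ (abs_nonneg _) (abs_le.2 ⟨?_, hx (b i)⟩) 2
      have := hx (-(b i))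
      rw [inner_neg_right, show -(b i) = (-1:ℝ) • b i by simp, mom_smul] at this
      rw [show ((-1:ℝ)) ^ 2 = 1 by norm_num, one_mul] at this
      show -√(mom K (b i) / V) ≤ ⟪x, b i⟫
      linarith
  refine ⟨hcomp, ?_⟩
  have hsubB : B 1 ⊆ momBody K := by
    intro x (hx : φ x ≤ 1 ^ 2) u
    rw [show mom K u / V = ∑ i, lam i * ⟪b i, u⟫ ^ 2 by
      rw [hb u, Finset.sum_div]; simp only [hlam]; exact Finset.sum_congr rfl fun i _ => by ring]
    refine Real.le_sqrt_of_sq_le ?_
    have hxu : ⟪x, u⟫ = ∑ i, (⟪b i, x⟫ / √(lam i)) * (√(lam i) * ⟪b i, u⟫) := by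
      rw [← b.sum_inner_mul_inner x u]
      refine Finset.sum_congr rfl fun i _ => ?_
      have := (Real.sqrt_pos.2 (hl i)).ne'
      rw [real_inner_comm x]; field_simp
    rw [hxu]
    refine (Finset.sum_mul_sq_le_sq_mul_sq _ _ _).trans ?_
    simp only [div_pow, mul_pow, Real.sq_sqrt (hl _).le]
    refine mul_le_of_le_one_left (Finset.sum_nonneg fun i _ =>
      mul_nonneg (hl i).le (sq_nonneg _)) ?_
    simpa [hφ] using hx
  have hRle : R ≤ √((n:ℝ) + 2) := Real.le_sqrt_of_sq_le hR2
  calc V = R ^ n * w := by rw [hRn, div_mul_cancel₀ _ hw0.ne']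
    _ ≤ √((n:ℝ) + 2) ^ n * volume.real (momBody K) := by
        gcongr
        exact hw ▸ measureReal_mono hsubB hcomp.measure_lt_top.ne

end Vale.Agent.P237
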