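import Mathlib
import Vale.Agent.P237.Poly
import Vale.Agent.P237.Second

/-!
# P237: slices of symmetric bodies and the recursive lower bound for `area(proj_{v^⊥} ΠP)`
-/

open MeasureTheory Set Real Filter Topology
open scoped Pointwise RealInnerProductSpace

namespace Vale.Agent.P237

/-- Support function. -/
noncomputable def supp {n : ℕ} (K : Set (E n)) (u : E n) : ℝ := sSup ((fun x => ⟪x, u⟫) '' K)

variable {n : ℕ}

lemma le_supp {K : Set (E n)} (hK : IsCompact K) (u : E n) {x : E n} (hx : x ∈ K) :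
    ⟪x, u⟫ ≤ supp K u :=
  le_csSup (hK.image (f := fun x => ⟪x, u⟫) (by fun_prop)).bddAbove ⟨x, hx, rfl⟩

lemma slice_volume_nonneg (C : Set (E (n + 1))) (t : ℝ) : 0 ≤ volume.real (slice C t) :=
  measureReal_nonneg

lemma zero_mem_of_symm {C : Set (E n)} (hC : Convex ℝ C) (hs : ∀ x ∈ C, -x ∈ C)
    (hne : C.Nonempty) : (0 : E n) ∈ C := by
  obtain ⟨x, hx⟩ := hne
  have := hC hx (hs x hx) (a := 1/2) (b := 1/2) (by norm_num) (by norm_num) (by norm_num)
  simpa using this

lemma slice_neg {C : Set (E (n + 1))} (hs : ∀ x ∈ C, -x ∈ C) (t : ℝ) :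
    slice C (-t) = -slice C t := by
  have hneg : ∀ (s : ℝ) (y : E n), -cons s y = cons (-s) (-y) := fun s y => by
    rw [← neg_one_smul ℝ, smul_cons, neg_one_mul, neg_one_smul]
  ext y
  show cons (-t) y ∈ C ↔ cons t (-y) ∈ C
  constructor <;> intro h <;> have := hs _ h <;> rw [hneg] at this <;> simpa using this

/-- Slices at smaller height are larger. -/
lemma slice_volume_anti {C : Set (E (n + 1))} (hC : IsCompact C) (hCv : Convex ℝ C)
    (hs : ∀ x ∈ C, -x ∈ C) {s t : ℝ} (h0 : 0 ≤ s) (hst : s ≤ t) (hne : (slice C t).Nonempty) :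
    volume.real (slice C t) ≤ volume.real (slice C s) := by
  rcases (h0.trans hst).eq_or_lt with ht | ht
  · rw [le_antisymm (hst.trans_eq ht.symm) h0, ← ht]
  set a := (1 + s / t) / 2
  set b := (1 - s / t) / 2
  have hdiv : s / t ≤ 1 := (div_le_one ht).2 hst
  have hd0 : 0 ≤ s / t := div_nonneg h0 ht.le
  have ha : 0 ≤ a := by simp only [a]; linarith
  have hb : 0 ≤ b := by simp only [b]; linarith
  have hab : a + b = 1 := by simp only [a, b]; ring
  have hincl : ∀ x ∈ slice C t, ∀ y ∈ slice C (-t), a • x + b • y ∈ slice C s := by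
    intro x hx y hy
    have := hCv hx hy ha hb hab
    rw [smul_cons, smul_cons, cons_add] at this
    show cons s (a • x + b • y) ∈ C
    rwa [show a * t + b * -t = s by simp only [a, b]; field_simp; ring] at this
  have hneg : (slice C (-t)).Nonempty := by rw [slice_neg hs]; exact hne.neg
  rcases n.eq_zero_or_pos with hn | hn
  · subst hn
    obtain ⟨x, hx⟩ := hne
    obtain ⟨y, hy⟩ := hneg
    rw [Subsingleton.eq_univ_of_nonempty ⟨x, hx⟩, Subsingleton.eq_univ_of_nonempty ⟨_, hincl x hx y hy⟩]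
  have := bm hn.ne' (slice_convex hCv t) (slice_isCompact hC t) hne (slice_convex hCv (-t))
    (slice_isCompact hC (-t)) hneg (slice_convex hCv s) (slice_isCompact hC s) ha hb hab hincl
  rw [slice_neg hs, show volume.real (-slice C t) = volume.real (slice C t) by
    rw [measureReal_def, Measure.measure_neg, ← measureReal_def], ← add_mul, hab, one_mul] at this
  exact (rpow_le_rpow_iff measureReal_nonneg measureReal_nonneg
    (by positivity : (0:ℝ) < ((n:ℝ))⁻¹)).1 this

lemma slice_nonempty_mono {C : Set (E (n + 1))} (hCv : Convex ℝ C) (hs : ∀ x ∈ C, -x ∈ C)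
    {h : ℝ} (hh : (slice C h).Nonempty) {t : ℝ} (ht : t ∈ Icc 0 h) : (slice C t).Nonempty := by
  obtain ⟨y, hy⟩ := hh
  have h0 := zero_mem_of_symm hCv hs ⟨_, hy⟩
  rcases (ht.1.trans ht.2).eq_or_lt with he | hlt
  · exact ⟨y, by rwa [show t = h from le_antisymm ht.2 (he ▸ ht.1)]⟩
  refine ⟨(t / h) • y, ?_⟩
  have := hCv.smul_mem_of_zero_mem h0 hy
    (t := t / h) ⟨div_nonneg ht.1 hlt.le, (div_le_one hlt).2 ht.2⟩
  rwa [smul_cons, div_mul_cancel₀ _ hlt.ne'] at this

/-- Slicing a symmetric body: `∫_C φ(x₀) = 2 ∫_0^h φ A`. -/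
lemma integral_symm {C : Set (E (n + 1))} (hC : IsCompact C) (hCv : Convex ℝ C)
    (hs : ∀ x ∈ C, -x ∈ C) {h : ℝ} (hh : 0 ≤ h) (hb : ∀ x ∈ C, hd x ≤ h)
    (hne : (slice C h).Nonempty) {φ : ℝ → ℝ} (hφ : Continuous φ) (hev : ∀ t, φ (-t) = φ t) :
    IntervalIntegrable (fun t => volume.real (slice C t)) volume 0 h ∧
    ∫ x in C, φ (hd x) = 2 * ∫ t in (0:ℝ)..h, φ t * volume.real (slice C t) := by
  have anti : AntitoneOn (fun t => volume.real (slice C t)) (Icc 0 h) := fun a ha b hb' hab =>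
    slice_volume_anti hC hCv hs ha.1 hab (slice_nonempty_mono hCv hs hne hb')
  have i1 : IntervalIntegrable (fun t => volume.real (slice C t)) volume 0 h :=
    (anti.mono (by rw [uIcc_of_le hh])).intervalIntegrable
  refine ⟨i1, ?_⟩
  set T : Set (ℝ × E n) := {p | cons p.1 p.2 ∈ C} with hT
  have hTm : MeasurableSet T := hC.measurableSet.preimage continuous_cons.measurable
  have hpre : (fun x : E (n + 1) => (hd x, tl x)) ⁻¹' T = C := by
    ext x; simp [hT]
  have hTc : IsCompact T := by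
    have : T = (fun x : E (n + 1) => (hd x, tl x)) '' C := by
      ext p
      exact ⟨fun hp => ⟨_, hp, by simp⟩, by rintro ⟨x, hx, rfl⟩; simpa [hT] using hx⟩
    rw [this]
    exact hC.image (hd.continuous.prodMk tl.continuous)
  have hint : Integrable (T.indicator fun p => φ p.1) (volume.prod volume) :=
    (((hφ.comp continuous_fst).continuousOn).integrableOn_compact hTc).integrable_indicator hTm
  have h1 : ∫ x in C, φ (hd x) = ∫ t, φ t * volume.real (slice C t) := by
    conv_lhs => rw [← hpre]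
    have hemb : MeasurableEmbedding (fun x : E (n + 1) => (hd x, tl x)) :=
      (LinearMap.isClosedEmbedding_of_injective
        (f := LinearMap.prod (hd (n := n)).toLinearMap (tl (n := n)).toLinearMap)
        (LinearMap.ker_eq_bot.2 (fun x y hxy => by
          have h' : (hd x, tl x) = (hd y, tl y) := hxy
          rw [← cons_hd_tl x, ← cons_hd_tl y, (Prod.mk.inj h').1, (Prod.mk.inj h').2]))).measurableEmbedding
    rw [measurePreserving_split.setIntegral_preimage_emb hemb (fun p : ℝ × E n => φ p.1) T,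
      ← integral_indicator hTm, integral_prod _ hint]
    congr 1
    funext t
    rw [show (fun y => T.indicator (fun p => φ p.1) (t, y)) = (slice C t).indicator (fun _ => φ t) from by
      funext y; exact (Set.indicator_comp_right (Prod.mk t) (g := fun p : ℝ × E n => φ p.1) (x := y)).symm,
      integral_indicator (slice_isCompact hC t).measurableSet, setIntegral_const, smul_eq_mul, mul_comm]
  rw [h1]
  set F : ℝ → ℝ := fun t => φ t * volume.real (slice C t) with hF
  have hzero : ∀ t, t ∉ Icc (-h) h → F t = 0 := by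
    intro t ht
    have : slice C t = ∅ := by
      rw [eq_empty_iff_forall_notMem]
      intro y hy
      refine ht ⟨?_, by simpa using hb _ hy⟩
      have := hb _ (hs _ hy)
      rw [map_neg, hd_cons] at this
      linarith
    simp [hF, this]
  have hFe : ∀ t, F (-t) = F t := fun t => by
    simp only [hF, hev, slice_neg hs]
    rw [measureReal_def, Measure.measure_neg, ← measureReal_def]
  have i0 : IntervalIntegrable F volume 0 h := i1.continuousOn_mul hφ.continuousOn
  have i0' : IntervalIntegrable F volume (-h) 0 := by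
    have := (IntervalIntegrable.iff_comp_neg).1 i0
    simp only [neg_zero, hFe] at this
    exact this.symm
  rw [← setIntegral_eq_integral_of_forall_compl_eq_zero hzero,
    integral_Icc_eq_integral_Ioc, ← intervalIntegral.integral_of_le (by linarith),
    ← intervalIntegral.integral_add_adjacent_intervals i0' i0]
  have := intervalIntegral.integral_comp_neg (f := F) (a := 0) (b := h)
  simp only [hFe, neg_zero] at this
  rw [← this]
  ring

lemma exists_isometry_slice {L : E (n + 1) ≃ₗᵢ[ℝ] E (n + 1)} {v : E (n + 1)} (hL : L v = e0)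
    (x : E (n + 1)) : hd (L x) = ⟪x, v⟫ := by
  rw [← L.inner_map_map, hL, e0_eq]
  conv_rhs => rw [← cons_hd_tl (L x), inner_cons]
  simp

/-- Projection areas of a symmetric body dominate integrals of projection areas of slices. -/
lemma sum_projArea_slice_le {C : Set (E (n + 1 + 1))} (hC : IsCompact C) (hCv : Convex ℝ C)
    (hs : ∀ x ∈ C, -x ∈ C) {h : ℝ} (hh : 0 ≤ h) (hb : ∀ x ∈ C, hd x ≤ h)
    (hne : (slice C h).Nonempty) {u : E (n + 1)} (hu : ‖u‖ = 1) (N : ℕ) (hN : 0 < N) :
    ∑ i ∈ Finset.range (N - 1), 2 * (h / N) * projArea (slice C ((i + 1 : ℕ) * (h / N))) u ≤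
      projArea C (cons 0 u) := by
  obtain ⟨L, hL⟩ := exists_frame hu
  let T : E (n + 1 + 1) →ₗ[ℝ] E (n + 1) :=
    { toFun := fun x => cons (hd x) (tl (L (tl x)))
      map_add' := fun x y => by simp only [map_add, cons_add]
      map_smul' := fun c x => by simp only [map_smul, RingHom.id_apply, smul_cons, smul_eq_mul] }
  have hT : ∀ x, T x = cons (hd x) (tl (L (tl x))) := fun _ => rfl
  have hne0 : cons (0:ℝ) u ≠ (0 : E (n + 1 + 1)) := fun h0 => by
    have := congrArg tl h0
    simp only [tl_cons, map_zero] at this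
    simp [this] at hu
  rw [projArea_eq hne0 T (by
      rw [hT, hd_cons, tl_cons, hL, e0_eq, tl_cons, ← zero_smul ℝ (cons (n := n) 1 0), smul_cons]
      simp)
    (fun x hx => by
      rw [← cons_hd_tl x, inner_cons, mul_zero, zero_add] at hx
      have h1 : hd (L (tl x)) = 0 := (exists_isometry_slice hL _).trans hx
      rw [hT, norm_eq_sqrt_real_inner, norm_eq_sqrt_real_inner, inner_cons]
      conv_rhs => rw [← cons_hd_tl x, inner_cons]
      congr 2
      rw [← L.inner_map_map (tl x) (tl x)]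
      conv_rhs => rw [← cons_hd_tl (L (tl x)), inner_cons, h1, mul_zero, zero_add])]
  set M := T '' C with hM
  have hMc : IsCompact M := hC.image T.continuous_of_finiteDimensional
  have hMv : Convex ℝ M := hCv.linear_image T
  have hMs : ∀ x ∈ M, -x ∈ M := by
    rintro _ ⟨x, hx, rfl⟩; exact ⟨-x, hs x hx, map_neg T x⟩
  have hsl : ∀ t, slice M t = tl '' (L '' slice C t) := by
    intro t
    ext z
    constructor
    · rintro ⟨x, hx, hxz⟩
      rw [hT] at hxz
      have h1 := congrArg hd hxz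
      have h2 := congrArg tl hxz
      simp only [hd_cons, tl_cons] at h1 h2
      exact ⟨L (tl x), ⟨tl x, (show cons t (tl x) ∈ C by rw [← h1]; simpa using hx), rfl⟩, h2⟩
    · rintro ⟨_, ⟨y, hy, rfl⟩, rfl⟩
      exact ⟨cons t y, hy, by rw [hT, hd_cons, tl_cons]⟩
  have hA : ∀ t, volume.real (slice M t) = projArea (slice C t) u := fun t => by
    rw [hsl, projArea_frame hu L hL]
  have hMb : ∀ x ∈ M, hd x ≤ h := by
    rintro _ ⟨x, hx, rfl⟩; rw [hT, hd_cons]; exact hb x hx
  have hMne : (slice M h).Nonempty := by rw [hsl]; exact (hne.image _).image _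
  obtain ⟨hi, hvol⟩ := integral_symm hMc hMv hMs hh hMb hMne (φ := fun _ => 1) continuous_const
    (fun _ => rfl)
  simp only [setIntegral_const, smul_eq_mul, mul_one, one_mul] at hvol
  rw [hvol]
  set η := h / (N:ℝ) with hη
  have hN' : (0:ℝ) < N := by exact_mod_cast hN
  have hη0 : 0 ≤ η := div_nonneg hh hN'.le
  set B := fun t => volume.real (slice M t) with hB
  have hmem : ∀ i : ℕ, i ≤ N → (i:ℝ) * η ∈ Icc 0 h := fun i hi =>
    ⟨by positivity, by
      calc (i:ℝ) * η ≤ N * η := mul_le_mul_of_nonneg_right (by exact_mod_cast hi) hη0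
        _ = h := by rw [hη]; field_simp⟩
  have sub : ∀ j < N, IntervalIntegrable B volume ((j:ℝ) * η) (((j + 1 : ℕ):ℝ) * η) := fun j hj => by
    refine hi.mono_set ?_
    rw [uIcc_of_le hh, uIcc_of_le (mul_le_mul_of_nonneg_right (by push_cast; linarith) hη0)]
    exact Icc_subset_Icc (hmem j hj.le).1 (hmem (j + 1) hj).2
  have hsum := intervalIntegral.sum_integral_adjacent_intervals (a := fun j : ℕ => (j:ℝ) * η) sub
  simp only [Nat.cast_zero, zero_mul, show (N:ℝ) * η = h by rw [hη]; field_simp] at hsum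
  rw [← hsum, Finset.mul_sum]
  refine le_trans (Finset.sum_le_sum (g := fun i => 2 * ∫ t in ((i:ℕ):ℝ) * η..((i + 1 : ℕ):ℝ) * η, B t)
    fun i hi' => ?_) ?_
  · rw [Finset.mem_range] at hi'
    have hiN : i + 1 ≤ N := by omega
    have hle : (i:ℝ) * η ≤ ((i + 1 : ℕ):ℝ) * η := mul_le_mul_of_nonneg_right (by push_cast; linarith) hη0
    have := intervalIntegral.integral_mono_on (f := fun _ => B (((i + 1 : ℕ):ℝ) * η)) hle
      intervalIntegrable_const (sub i (by omega)) fun t ht =>
        slice_volume_anti hMc hMv hMs ((hmem i (by omega)).1.trans ht.1) ht.2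
          (slice_nonempty_mono hMv hMs hMne (hmem _ hiN))
    simp only [intervalIntegral.integral_const, smul_eq_mul, hB, hA] at this ⊢
    push_cast at this ⊢
    linarith
  · refine Finset.sum_le_sum_of_subset_of_nonneg (Finset.range_mono (by omega)) fun i hi' _ => ?_
    rw [Finset.mem_range] at hi'
    exact mul_nonneg zero_le_two (intervalIntegral.integral_nonneg
      (mul_le_mul_of_nonneg_right (by push_cast; linarith) hη0) fun t _ => measureReal_nonneg)

/-- Minkowski combinations below a projection body. -/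
lemma combo_projBody (hn : n ≠ 0) {ι : Type} (s : Finset ι) (w : ι → ℝ) (hw : ∀ i ∈ s, 0 ≤ w i)
    (Z : ι → Set (E n)) (hZ : ∀ i ∈ s, IsCompact (Z i) ∧ Convex ℝ (Z i) ∧ (Z i).Nonempty) :
    ∃ Q : Set (E n), IsCompact Q ∧ Convex ℝ Q ∧ Q.Nonempty ∧
      (∑ i ∈ s, w i * volume.real (Z i) ^ ((n:ℝ)⁻¹) ≤ volume.real Q ^ ((n:ℝ)⁻¹)) ∧
      ∀ x ∈ Q, ∀ u : E n, ∀ S : ι → ℝ, (∀ i ∈ s, ∀ z ∈ Z i, ⟪z, u⟫ ≤ S i) →
        ⟪x, u⟫ ≤ ∑ i ∈ s, w i * S i := by
  classical
  induction s using Finset.induction_on with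
  | empty =>
    exact ⟨{0}, isCompact_singleton, convex_singleton 0, singleton_nonempty 0,
      by simp [rpow_nonneg], fun x hx u S _ => by simp [mem_singleton_iff.1 hx]⟩
  | @insert j s hj ih =>
    obtain ⟨Q, hQc, hQv, hQne, hQvol, hQs⟩ := ih (fun i hi => hw i (Finset.mem_insert_of_mem hi))
      (fun i hi => hZ i (Finset.mem_insert_of_mem hi))
    obtain ⟨hjc, hjv, hjne⟩ := hZ j (Finset.mem_insert_self j s)
    have hwj := hw j (Finset.mem_insert_self j s)
    refine ⟨w j • Z j + Q, (hjc.smul _).add hQc, (hjv.smul _).add hQv, hjne.smul_set.add hQne, ?_, ?_⟩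
    · rw [Finset.sum_insert hj]
      refine le_trans (add_le_add ?_ hQvol) (bm_add hn (hjv.smul _) (hjc.smul _) hjne.smul_set hQv hQc hQne)
      refine le_of_eq ?_
      rw [measureReal_def, measureReal_def, Measure.addHaar_smul_of_nonneg volume hwj,
        ENNReal.toReal_mul, ENNReal.toReal_ofReal (by positivity), finrank_euclideanSpace_fin,
        mul_rpow (by positivity) ENNReal.toReal_nonneg, pow_rpow_inv_natCast hwj hn]
    · rintro _ ⟨_, ⟨z, hz, rfl⟩, x, hx, rfl⟩ u S hS
      rw [Finset.sum_insert hj, inner_add_left, real_inner_smul_left]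
      exact add_le_add (mul_le_mul_of_nonneg_left (hS j (Finset.mem_insert_self j s) z hz) hwj)
        (hQs x hx u S fun i hi => hS i (Finset.mem_insert_of_mem hi))

/-- A convex body. -/
structure IsBody (K : Set (E n)) : Prop where
  compact : IsCompact K
  convex : Convex ℝ K
  nonempty : (interior K).Nonempty

lemma isBody_of_pos {K : Set (E n)} (hc : IsCompact K) (hv : Convex ℝ K) (h : 0 < volume.real K) :
    IsBody K := by
  refine ⟨hc, hv, ?_⟩
  by_contra hne
  rw [not_nonempty_iff_eq_empty] at hne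
  have hfr : frontier K = K := by rw [frontier, hne, sdiff_empty, hc.isClosed.closure_eq]
  have h0 := hv.addHaar_frontier volume
  rw [hfr] at h0
  simp [measureReal_def, h0] at h

lemma IsBody.volume_pos {K : Set (E n)} (hK : IsBody K) : 0 < volume.real K :=
  ENNReal.toReal_pos ((isOpen_interior.measure_pos volume hK.nonempty).trans_le
    (measure_mono interior_subset)).ne' hK.compact.measure_lt_top.ne

/-- The one-dimensional inequality needed in dimension `n`. -/
def OneD (n : ℕ) (α β : ℝ) : Prop :=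
  ∀ (f : ℝ → ℝ) (h : ℝ), 0 < h → ConcaveOn ℝ (Icc 0 h) f → AntitoneOn f (Icc 0 h) →
    (∀ t ∈ Icc (0:ℝ) h, 0 ≤ f t) → 0 < ∫ t in (0:ℝ)..h, f t ^ n →
    (2 * ∫ t in (0:ℝ)..h, f t ^ n) ^ (n - 1) *
      (α * h + β * √((∫ t in (0:ℝ)..h, t ^ 2 * f t ^ n) / ∫ t in (0:ℝ)..h, f t ^ n)) ≤
    (2 * ∫ t in (0:ℝ)..h, f t ^ (n - 1)) ^ n

lemma supp_slice {K : Set (E (n + 1))} (hK : IsBody K) (hsym : ∀ x ∈ K, -x ∈ K)
    {v : E (n + 1)} (L : E (n + 1) ≃ₗᵢ[ℝ] E (n + 1)) (hL : L v = e0) :
    IsCompact (L '' K) ∧ Convex ℝ (L '' K) ∧ (∀ x ∈ L '' K, -x ∈ L '' K) ∧ 0 ≤ supp K v ∧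
      (∀ x ∈ L '' K, hd x ≤ supp K v) ∧ (slice (L '' K) (supp K v)).Nonempty := by
  have hKne : K.Nonempty := hK.nonempty.mono interior_subset
  refine ⟨hK.compact.image L.continuous, hK.convex.linear_image L.toLinearEquiv.toLinearMap, ?_, ?_,
    ?_, ?_⟩
  · rintro _ ⟨x, hx, rfl⟩; exact ⟨-x, hsym x hx, map_neg L x⟩
  · simpa using le_supp hK.compact v (zero_mem_of_symm hK.convex hsym hKne)
  · rintro _ ⟨x, hx, rfl⟩; rw [exists_isometry_slice hL]; exact le_supp hK.compact v hx
  · obtain ⟨x0, hx0, hmax⟩ := (hK.compact.image (f := fun x : E (n + 1) => ⟪x, v⟫)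
      (by fun_prop)).sSup_mem (hKne.image _)
    refine ⟨tl (L x0), ?_⟩
    show cons (supp K v) (tl (L x0)) ∈ L '' K
    rw [show supp K v = hd (L x0) by rw [exists_isometry_slice hL]; exact hmax.symm, cons_hd_tl]
    exact ⟨x0, hx0, rfl⟩

/-- The root of the slice volume of a symmetric body. -/
lemma profile {K : Set (E (n + 1 + 1))} (hK : IsBody K) (hsym : ∀ x ∈ K, -x ∈ K)
    {v : E (n + 1 + 1)} (hv : ‖v‖ = 1) (L : E (n + 1 + 1) ≃ₗᵢ[ℝ] E (n + 1 + 1)) (hL : L v = e0) :
    0 < supp K v ∧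
    ConcaveOn ℝ (Icc 0 (supp K v)) (fun t => volume.real (slice (L '' K) t) ^ (((n + 1 : ℕ):ℝ)⁻¹)) ∧
    AntitoneOn (fun t => volume.real (slice (L '' K) t) ^ (((n + 1 : ℕ):ℝ)⁻¹)) (Icc 0 (supp K v)) ∧
    (∀ t ∈ Icc (0:ℝ) (supp K v), 0 ≤ volume.real (slice (L '' K) t) ^ (((n + 1 : ℕ):ℝ)⁻¹)) ∧
    volume.real K = 2 * ∫ t in (0:ℝ)..supp K v, volume.real (slice (L '' K) t) := by
  obtain ⟨hCc, hCv, hCs, h00, hbd, hne⟩ := supp_slice hK hsym L hL
  obtain ⟨-, eV⟩ := integral_symm hCc hCv hCs h00 hbd hne (φ := fun _ => 1) continuous_const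
    fun _ => rfl
  simp only [setIntegral_const, smul_eq_mul, mul_one, one_mul] at eV
  rw [volume_real_image] at eV
  have hsne : ∀ t ∈ Icc 0 (supp K v), (slice (L '' K) t).Nonempty := fun t ht =>
    slice_nonempty_mono hCv hCs hne ht
  refine ⟨?_, ⟨convex_Icc _ _, fun x hx y hy p q hp hq hpq => ?_⟩, fun x hx y hy hxy =>
    rpow_le_rpow measureReal_nonneg (slice_volume_anti hCc hCv hCs hx.1 hxy (hsne y hy))
      (by positivity), fun t _ => rpow_nonneg measureReal_nonneg _, eV⟩
  · rcases h00.eq_or_lt with he | hlt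
    · have := hK.volume_pos
      rw [← he, intervalIntegral.integral_same, mul_zero] at eV; linarith
    · exact hlt
  · refine bm (n := n + 1) (by omega) (slice_convex hCv x) (slice_isCompact hCc x) (hsne x hx)
      (slice_convex hCv y) (slice_isCompact hCc y) (hsne y hy) (slice_convex hCv _)
      (slice_isCompact hCc _) hp hq hpq ?_
    intro z hz z' hz'
    have := hCv hz hz' hp hq hpq
    rw [smul_cons, smul_cons, cons_add] at this
    exact this

lemma profile_moment {K : Set (E (n + 1 + 1))} (hK : IsBody K) (hsym : ∀ x ∈ K, -x ∈ K)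
    {v : E (n + 1 + 1)} (hv : ‖v‖ = 1) (L : E (n + 1 + 1) ≃ₗᵢ[ℝ] E (n + 1 + 1)) (hL : L v = e0) :
    mom K v = 2 * ∫ t in (0:ℝ)..supp K v, t ^ 2 * volume.real (slice (L '' K) t) := by
  obtain ⟨hCc, hCv, hCs, h00, hbd, hne⟩ := supp_slice hK hsym L hL
  obtain ⟨-, eM⟩ := integral_symm hCc hCv hCs h00 hbd hne (φ := fun t => t ^ 2) (continuous_pow 2)
    fun t => by ring
  rw [← eM, (L.measurePreserving).setIntegral_image_emb
    L.toHomeomorph.toMeasurableEquiv.measurableEmbedding]
  simp only [exists_isometry_slice hL]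
  rfl

/-- Lower bound for the shadow of `ΠP` by slices. -/
theorem shadow_core {ι : Type} [Fintype ι] {c : ℝ} (hc : 0 ≤ c)
    (IH : ∀ Q : Set (E (n + 1)), IsBody Q → c * volume.real Q ^ n ≤ volume.real (projBody Q))
    {K P : Set (E (n + 1 + 1))} (hK : IsBody K) (hsym : ∀ x ∈ K, -x ∈ K)
    (hP : IsCompact P) (hKP : K ⊆ P) {a : ι → E (n + 1 + 1)}
    (hPa : ∀ u : E (n + 1 + 1), ‖u‖ = 1 → projArea P u = (∑ i, |⟪u, a i⟫|) / 2)
    {v : E (n + 1 + 1)} (hv : ‖v‖ = 1)
    (L : E (n + 1 + 1) ≃ₗᵢ[ℝ] E (n + 1 + 1)) (hL : L v = e0) :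
    c * (2 * ∫ t in (0:ℝ)..supp K v,
        (volume.real (slice (L '' K) t) ^ (((n + 1 : ℕ):ℝ)⁻¹)) ^ n) ^ (n + 1) ≤
      projArea (projBody P) v := by
  refine le_trans ?_ (le_projArea_projBody hPa hv L hL)
  set Y := {y : E (n + 1) | ∀ u : E (n + 1), ‖u‖ = 1 → ⟪y, u⟫ ≤ projArea P (L.symm (cons 0 u))}
  set C := L '' K with hC
  have hCc : IsCompact C := hK.compact.image L.continuous
  have hCv : Convex ℝ C := hK.convex.linear_image L.toLinearEquiv.toLinearMap
  have hCs : ∀ x ∈ C, -x ∈ C := by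
    rintro _ ⟨x, hx, rfl⟩; exact ⟨-x, hsym x hx, map_neg L x⟩
  have hKne : K.Nonempty := hK.nonempty.mono interior_subset
  set h := supp K v with hhdef
  have hbd : ∀ x ∈ C, hd x ≤ h := by
    rintro _ ⟨x, hx, rfl⟩; rw [exists_isometry_slice hL]; exact le_supp hK.compact v hx
  obtain ⟨x0, hx0, hmax⟩ := (hK.compact.image (f := fun x : E (n + 1 + 1) => ⟪x, v⟫) (by fun_prop)).sSup_mem
    (hKne.image _)
  have hne : (slice C h).Nonempty := by
    refine ⟨tl (L x0), ?_⟩
    show cons h (tl (L x0)) ∈ C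
    rw [show h = hd (L x0) by rw [exists_isometry_slice hL]; exact hmax.symm, cons_hd_tl]
    exact ⟨x0, hx0, rfl⟩
  have h00 : 0 ≤ h := by
    simpa using le_supp hK.compact v (zero_mem_of_symm hK.convex hsym hKne)
  set A := fun t => volume.real (slice C t) with hAdef
  set f := fun t => A t ^ (((n + 1 : ℕ):ℝ)⁻¹) with hf
  have hfp : ∀ t, f t ^ (n + 1) = A t := fun t => rpow_inv_natCast_pow measureReal_nonneg (by omega)
  obtain ⟨-, eV⟩ := integral_symm hCc hCv hCs h00 hbd hne (φ := fun _ => 1) continuous_const fun _ => rfl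
  simp only [setIntegral_const, smul_eq_mul, mul_one, one_mul] at eV
  rw [hC, volume_real_image] at eV
  have hVpos := hK.volume_pos
  have hh0 : 0 < h := by
    rcases h00.eq_or_lt with he | hlt
    · rw [← he, intervalIntegral.integral_same, mul_zero] at eV; linarith
    · exact hlt
  have hsne : ∀ t ∈ Icc 0 h, (slice C t).Nonempty := fun t ht => slice_nonempty_mono hCv hCs hne ht
  have hfconc : ConcaveOn ℝ (Icc 0 h) f := by
    refine ⟨convex_Icc 0 h, fun x hx y hy p q hp hq hpq => ?_⟩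
    refine bm (n := n + 1) (by omega) (slice_convex hCv x) (slice_isCompact hCc x) (hsne x hx)
      (slice_convex hCv y) (slice_isCompact hCc y) (hsne y hy) (slice_convex hCv _)
      (slice_isCompact hCc _) hp hq hpq ?_
    intro z hz z' hz'
    have := hCv hz hz' hp hq hpq
    rw [smul_cons, smul_cons, cons_add] at this
    exact this
  have hAanti : AntitoneOn A (Icc 0 h) := fun x hx y hy hxy =>
    slice_volume_anti hCc hCv hCs hx.1 hxy (hsne y hy)
  have hf0 : ∀ t ∈ Icc (0:ℝ) h, 0 ≤ f t := fun t _ => rpow_nonneg measureReal_nonneg _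
  have hfanti : AntitoneOn f (Icc 0 h) := fun x hx y hy hxy =>
    rpow_le_rpow measureReal_nonneg (hAanti hx hy hxy) (by positivity)
  have hVint : 0 < ∫ t in (0:ℝ)..h, f t ^ (n + 1) := by
    simp only [hfp]; simp only [hAdef]; linarith
  -- the Riemann sums
  set g := fun t => f t ^ n with hg
  have hg0 : ∀ t ∈ Icc (0:ℝ) h, 0 ≤ g t := fun t ht => pow_nonneg (hf0 t ht) n
  have hganti : AntitoneOn g (Icc 0 h) := fun x hx y hy hxy =>
    pow_le_pow_left₀ (hf0 y hy) (hfanti hx hy hxy) n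
  have hA0 : 0 < f 0 := by
    rcases (hf0 0 ⟨le_rfl, h00⟩).eq_or_lt with he | hlt
    · exfalso
      refine hVint.ne' ?_
      rw [intervalIntegral.integral_congr (g := fun _ => (0:ℝ)) fun t ht => ?_]
      · simp
      · rw [uIcc_of_le h00] at ht
        have := le_antisymm ((hfanti ⟨le_rfl, h00⟩ ht ht.1).trans_eq he.symm) (hf0 t ht)
        simp [this]
    · exact hlt
  have hY : IsCompact Y := by
    refine Metric.isCompact_of_isClosed_isBounded ?_ ?_
    · simp only [Y, Set.ofPred_forall]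
      exact isClosed_iInter fun u => isClosed_iInter fun _ => isClosed_le (by fun_prop) continuous_const
    · refine (Metric.isBounded_closedBall (x := (0 : E (n + 1)))
        (r := √(∑ i : Fin (n + 1), (projArea P (L.symm (cons 0 (EuclideanSpace.basisFun _ ℝ i))) +
          projArea P (L.symm (cons 0 (-EuclideanSpace.basisFun _ ℝ i)))) ^ 2))).subset fun x hx => ?_
      rw [mem_closedBall_zero_iff, ← Real.sqrt_sq (norm_nonneg x)]
      refine Real.sqrt_le_sqrt ?_
      rw [← (EuclideanSpace.basisFun _ ℝ).sum_sq_norm_inner_left x]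
      refine Finset.sum_le_sum fun i _ => ?_
      rw [Real.norm_eq_abs]
      have h1 := hx _ ((EuclideanSpace.basisFun (Fin (n + 1)) ℝ).norm_eq_one i)
      have h2 := hx (-EuclideanSpace.basisFun _ ℝ i) (by
        rw [norm_neg]; exact (EuclideanSpace.basisFun (Fin (n + 1)) ℝ).norm_eq_one i)
      rw [inner_neg_right] at h2
      have := projArea_nonneg P (L.symm (cons 0 (EuclideanSpace.basisFun _ ℝ i)))
      have := projArea_nonneg P (L.symm (cons 0 (-EuclideanSpace.basisFun _ ℝ i)))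
      exact pow_le_pow_left₀ (abs_nonneg _) (abs_le.2 ⟨by linarith, by linarith⟩) 2
  set J := ∫ t in (0:ℝ)..h, g t with hJ
  have key : ∀ N : ℕ, 0 < N → c ^ (((n + 1 : ℕ):ℝ)⁻¹) * (2 * J - 4 * (h / N) * g 0) ≤
      volume.real Y ^ (((n + 1 : ℕ):ℝ)⁻¹) := by
    intro N hN
    set η := h / (N:ℝ) with hη
    have hN' : (0:ℝ) < N := by exact_mod_cast hN
    have hη0 : 0 < η := div_pos hh0 hN'
    have hNη : (N:ℝ) * η = h := by rw [hη]; field_simp
    have hmem : ∀ i : ℕ, i ≤ N → (i:ℝ) * η ∈ Icc 0 h := fun i hi =>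
      ⟨by positivity, hNη ▸ mul_le_mul_of_nonneg_right (by exact_mod_cast hi) hη0.le⟩
    have hpos : ∀ i ∈ Finset.range (N - 1), 0 < A (((i + 1 : ℕ):ℝ) * η) := by
      intro i hi
      rw [Finset.mem_range] at hi
      set t := ((i + 1 : ℕ):ℝ) * η
      have ht : t < h := hNη ▸ mul_lt_mul_of_pos_right (by exact_mod_cast (by omega : i + 1 < N)) hη0
      have hf2 := hfconc.2
      have := hf2 (x := 0) ⟨le_rfl, h00⟩ (y := h) ⟨h00, le_rfl⟩ (a := 1 - t / h) (b := t / h)
        (sub_nonneg.2 ((div_le_one hh0).2 ht.le)) (div_nonneg (by positivity) h00) (by ring)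
      simp only [smul_eq_mul, mul_zero, zero_add, div_mul_cancel₀ _ hh0.ne'] at this
      have h1 : 0 < (1 - t / h) * f 0 := mul_pos (sub_pos.2 ((div_lt_one hh0).2 ht)) hA0
      have h2 : 0 ≤ t / h * f h := mul_nonneg (div_nonneg (by positivity) h00) (hf0 h ⟨h00, le_rfl⟩)
      rw [← hfp]
      exact pow_pos (by linarith) _
    set Z := fun i : ℕ => projBody (slice C (((i + 1 : ℕ):ℝ) * η)) with hZ
    obtain ⟨Q, hQc, hQv, -, hQvol, hQs⟩ := combo_projBody (n := n + 1) (by omega)
      (Finset.range (N - 1)) (fun _ => 2 * η) (fun _ _ => by positivity) Z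
      (fun i _ => ⟨projBody_isCompact _, projBody_convex _, ⟨0, zero_mem_projBody _⟩⟩)
    have hQY : Q ⊆ Y := by
      intro x hx u hu
      refine (hQs x hx u (fun i => projArea (slice C (((i + 1 : ℕ):ℝ) * η)) u)
        fun i _ z hz => hz u hu).trans ?_
      refine (sum_projArea_slice_le hCc hCv hCs h00 hbd hne hu N hN).trans ?_
      have hu' : ‖L.symm (cons 0 u)‖ = 1 := by
        rw [LinearIsometryEquiv.norm_map, norm_eq_sqrt_real_inner, inner_cons]; simp [hu]
      refine le_trans (le_of_eq ?_) (projArea_mono hP hKP _)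
      obtain ⟨L', hL'⟩ := exists_frame (show ‖cons (0:ℝ) u‖ = 1 by
        rw [norm_eq_sqrt_real_inner, inner_cons]; simp [hu])
      rw [projArea_frame (by rw [norm_eq_sqrt_real_inner, inner_cons]; simp [hu]) L' hL',
        projArea_frame hu' (L.trans L') (by simp [hL']), hC, image_image, image_image, image_image]
      rfl
    refine le_trans ?_ ((hQvol).trans (rpow_le_rpow measureReal_nonneg
      (measureReal_mono hQY hY.measure_lt_top.ne) (by positivity)))
    have hterm : ∀ i ∈ Finset.range (N - 1),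
        2 * η * (c ^ (((n + 1 : ℕ):ℝ)⁻¹) * g (((i + 1 : ℕ):ℝ) * η)) ≤
        2 * η * volume.real (Z i) ^ (((n + 1 : ℕ):ℝ)⁻¹) := by
      intro i hi
      refine mul_le_mul_of_nonneg_left ?_ (by positivity)
      have hbody := isBody_of_pos (slice_isCompact hCc _) (slice_convex hCv _) (hpos i hi)
      refine le_trans (le_of_eq ?_) (rpow_le_rpow
        (mul_nonneg hc (pow_nonneg measureReal_nonneg n)) (IH _ hbody) (by positivity))
      rw [mul_rpow hc (pow_nonneg measureReal_nonneg n), ← rpow_natCast _ n, ← rpow_mul measureReal_nonneg,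
        mul_comm ((n:ℕ):ℝ), rpow_mul measureReal_nonneg, rpow_natCast]
    refine le_trans ?_ (Finset.sum_le_sum hterm)
    rw [Finset.sum_congr rfl (g := fun i : ℕ => c ^ (((n + 1 : ℕ):ℝ)⁻¹) *
      (2 * η * g (((i + 1 : ℕ):ℝ) * η))) (fun i _ => by ring), ← Finset.mul_sum]
    refine mul_le_mul_of_nonneg_left ?_ (rpow_nonneg hc _)
    rw [← Finset.mul_sum]
    have sub : ∀ j < N, IntervalIntegrable g volume ((j:ℝ) * η) (((j + 1 : ℕ):ℝ) * η) := fun j hj => by
      refine (hganti.mono ?_).intervalIntegrable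
      rw [uIcc_of_le (mul_le_mul_of_nonneg_right (by push_cast; linarith) hη0.le)]
      exact Icc_subset_Icc (hmem j hj.le).1 (hmem (j + 1) hj).2
    have hsum := intervalIntegral.sum_integral_adjacent_intervals (a := fun j : ℕ => (j:ℝ) * η) sub
    simp only [Nat.cast_zero, zero_mul, hNη] at hsum
    have hupper : J ≤ ∑ j ∈ Finset.range N, η * g ((j:ℝ) * η) := by
      rw [hJ, ← hsum]
      refine Finset.sum_le_sum fun j hj => ?_
      rw [Finset.mem_range] at hj
      have hle : (j:ℝ) * η ≤ ((j + 1 : ℕ):ℝ) * η := mul_le_mul_of_nonneg_right (by push_cast; linarith) hη0.le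
      refine (intervalIntegral.integral_mono_on (g := fun _ => g ((j:ℝ) * η)) hle (sub j hj)
        intervalIntegrable_const fun t ht => hganti (hmem j hj.le)
          ⟨(hmem j hj.le).1.trans ht.1, ht.2.trans (hmem (j + 1) hj).2⟩ ht.1).trans_eq ?_
      rw [intervalIntegral.integral_const, smul_eq_mul]; push_cast; ring
    obtain ⟨M, rfl⟩ : ∃ M, N = M + 1 := ⟨N - 1, by omega⟩
    rw [Finset.sum_range_succ', ← Finset.mul_sum] at hupper
    simp only [Nat.cast_zero, zero_mul, Nat.add_sub_cancel] at hupper ⊢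
    have := mul_nonneg hη0.le (hg0 0 ⟨le_rfl, h00⟩)
    linarith
  have hlim : Tendsto (fun N : ℕ => c ^ (((n + 1 : ℕ):ℝ)⁻¹) * (2 * J - 4 * (h / N) * g 0)) atTop
      (𝓝 (c ^ (((n + 1 : ℕ):ℝ)⁻¹) * (2 * J))) := by
    simpa using ((((tendsto_const_div_atTop_nhds_zero_nat h).const_mul 4).mul_const (g 0)).const_sub
      (2 * J)).const_mul (c ^ (((n + 1 : ℕ):ℝ)⁻¹))
  have hfin := le_of_tendsto hlim (eventually_atTop.2 ⟨1, fun N hN => key N hN⟩)
  have hJ0 : 0 ≤ J := intervalIntegral.integral_nonneg h00 hg0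
  have := pow_le_pow_left₀ (by positivity) hfin (n + 1)
  rw [mul_pow, rpow_inv_natCast_pow hc (by omega), rpow_inv_natCast_pow measureReal_nonneg (by omega)]
    at this
  exact this

/-- Lower bound for the shadow of `ΠP`. -/
theorem shadow_bound {ι : Type} [Fintype ι] {c α β : ℝ} (hc : 0 ≤ c)
    (hD : OneD (n + 1) α β)
    (IH : ∀ Q : Set (E (n + 1)), IsBody Q → c * volume.real Q ^ n ≤ volume.real (projBody Q))
    {K P : Set (E (n + 1 + 1))} (hK : IsBody K) (hsym : ∀ x ∈ K, -x ∈ K)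
    (hP : IsCompact P) (hKP : K ⊆ P) {a : ι → E (n + 1 + 1)}
    (hPa : ∀ u : E (n + 1 + 1), ‖u‖ = 1 → projArea P u = (∑ i, |⟪u, a i⟫|) / 2)
    {v : E (n + 1 + 1)} (hv : ‖v‖ = 1) :
    c * volume.real K ^ n * (α * supp K v + β * √(mom K v / volume.real K)) ≤
      projArea (projBody P) v := by
  obtain ⟨L, hL⟩ := exists_frame hv
  refine le_trans ?_ (shadow_core hc IH hK hsym hP hKP hPa hv L hL)
  obtain ⟨hh0, hfconc, hfanti, hf0, eV⟩ := profile hK hsym hv L hL
  set f := fun t => volume.real (slice (L '' K) t) ^ (((n + 1 : ℕ):ℝ)⁻¹) with hf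
  have hfp : ∀ t, f t ^ (n + 1) = volume.real (slice (L '' K) t) := fun t =>
    rpow_inv_natCast_pow measureReal_nonneg (by omega)
  have hVint : 0 < ∫ t in (0:ℝ)..supp K v, f t ^ (n + 1) := by
    simp only [hfp]; linarith [hK.volume_pos]
  have main := hD f (supp K v) hh0 hfconc hfanti hf0 hVint
  simp only [hfp, Nat.add_sub_cancel] at main
  rw [← eV] at main
  have eM : mom K v = 2 * ∫ t in (0:ℝ)..supp K v, t ^ 2 * volume.real (slice (L '' K) t) :=
    profile_moment hK hsym hv L hL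
  rw [show √(mom K v / volume.real K) = √((∫ t in (0:ℝ)..supp K v,
      t ^ 2 * volume.real (slice (L '' K) t)) / ∫ t in (0:ℝ)..supp K v, volume.real (slice (L '' K) t)) by
    rw [eM, eV, mul_div_mul_left _ _ two_ne_zero]]
  rw [mul_assoc]
  exact mul_le_mul_of_nonneg_left main hc

end Vale.Agent.P237
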