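import Mathlib

/-!
# P237: one-dimensional inequality for all exponents

For `f ≥ 0` concave and decreasing on `[0,h]` and `k ≥ 2`:
`(2V)^(k-1) · 3.36 · √(M/V) ≤ (2I)^k` with `I = ∫ f^(k-1)`, `V = ∫ f^k`, `M = ∫ t² f^k`.
-/

open MeasureTheory Set Real Filter Topology

namespace Vale.Agent.P237.AllK

/-- `ψ(y) = (1 + B y) e^{-y}` with `B = 0.8172`. -/
noncomputable def psi (y : ℝ) : ℝ := (1 + 0.8172 * y) * exp (-y)

/-- Primitive of `psi`. -/
noncomputable def prim (a : ℝ) : ℝ := 1.8172 - exp (-a) * (1.8172 + 0.8172 * a)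

/-- `∫₀ᵃ 3 y² e^{-y}`. -/
noncomputable def cub (a : ℝ) : ℝ := 6 - exp (-a) * (3 * a ^ 2 + 6 * a + 6)

lemma hasDerivAt_exp_neg (a : ℝ) : HasDerivAt (fun y => exp (-y)) (-exp (-a)) a := by
  have := (Real.hasDerivAt_exp (-a)).comp a (hasDerivAt_neg a)
  simp only [mul_neg, mul_one] at this
  exact this

lemma hasDerivAt_prim (a : ℝ) : HasDerivAt prim (psi a) a := by
  refine HasDerivAt.congr_deriv
    (((hasDerivAt_exp_neg a).mul (((hasDerivAt_id' a).const_mul 0.8172).const_add 1.8172)).const_sub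
      1.8172) ?_
  unfold psi; ring

lemma hasDerivAt_cub (a : ℝ) : HasDerivAt cub (3 * a ^ 2 * exp (-a)) a := by
  refine HasDerivAt.congr_deriv
    (((hasDerivAt_exp_neg a).mul ((((hasDerivAt_pow 2 a).const_mul 3).add
      ((hasDerivAt_id' a).const_mul 6)).add_const 6)).const_sub 6) ?_
  push_cast
  simp only [Pi.add_apply]
  ring

lemma hasDerivAt_psi (a : ℝ) : HasDerivAt psi ((-0.1828 - 0.8172 * a) * exp (-a)) a := by
  refine HasDerivAt.congr_deriv
    ((((hasDerivAt_id' a).const_mul 0.8172).const_add 1).mul (hasDerivAt_exp_neg a)) ?_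
  ring

lemma psi_antitone : AntitoneOn psi (Ici 0) := by
  refine antitoneOn_of_hasDerivWithinAt_nonpos (convex_Ici 0)
    (fun x _ => (hasDerivAt_psi x).continuousAt.continuousWithinAt)
    (fun x _ => (hasDerivAt_psi x).hasDerivWithinAt) (fun x hx => ?_)
  rw [interior_Ici] at hx
  exact mul_nonpos_of_nonpos_of_nonneg (by linarith [(show (0:ℝ) < x from hx)]) (exp_nonneg _)

lemma psi_nonneg {y : ℝ} (hy : 0 ≤ y) : 0 ≤ psi y := by unfold psi; positivity

lemma psi_shift {y η : ℝ} (hη : 0 ≤ η) (hy : η ≤ y) : psi (y - η) ≤ exp η * psi y := by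
  unfold psi
  rw [show exp η * ((1 + 0.8172 * y) * exp (-y)) = (1 + 0.8172 * y) * (exp η * exp (-y)) by ring,
    ← exp_add, show η + -y = -(y - η) by ring]
  gcongr
  linarith

lemma prim_step {a η : ℝ} (ha : 0 ≤ a) (hη : 0 < η) :
    prim (a + η) - prim a ≤ η * psi a := by
  obtain ⟨c, hc, he⟩ := exists_hasDerivAt_eq_slope prim psi (show a < a + η by linarith)
    (fun x _ => (hasDerivAt_prim x).continuousAt.continuousWithinAt) (fun x _ => hasDerivAt_prim x)
  rw [add_sub_cancel_left] at he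
  have h1 : psi c ≤ psi a :=
    psi_antitone (by exact ha) (by exact ha.trans hc.1.le) hc.1.le
  rw [he, div_le_iff₀ hη] at h1
  linarith

lemma cub_step {a η : ℝ} (ha : 0 ≤ a) (hη : 0 ≤ η) :
    ((a + η) ^ 3 - a ^ 3) * exp (-(a + η)) ≤ cub (a + η) - cub a := by
  set e := exp (-(a + η))
  have hd : ∀ x : ℝ, HasDerivAt (fun x => cub x - e * x ^ 3)
      (3 * x ^ 2 * exp (-x) - e * (3 * x ^ 2)) x := fun x => by
    simpa using (hasDerivAt_cub x).fun_sub ((hasDerivAt_pow 3 x).const_mul e)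
  have := monotoneOn_of_hasDerivWithinAt_nonneg (convex_Icc a (a + η))
    (fun x _ => (hd x).continuousAt.continuousWithinAt) (fun x _ => (hd x).hasDerivWithinAt)
    (fun x hx => by
      rw [interior_Icc] at hx
      have : e ≤ exp (-x) := exp_le_exp.2 (by linarith [hx.2])
      nlinarith [sq_nonneg x]) (left_mem_Icc.2 (by linarith)) (right_mem_Icc.2 (by linarith))
    (by linarith)
  simp only at this
  linarith

lemma exp_bnd {a lo hi : ℝ} (h : lo ≤ exp a) (hlo : 0 < lo) (hh : exp a ≤ hi) :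
    1 / hi ≤ exp (-a) ∧ exp (-a) ≤ 1 / lo := by
  rw [exp_neg, ← one_div]
  exact ⟨one_div_le_one_div_of_le (exp_pos a) hh, one_div_le_one_div_of_le hlo h⟩

lemma exp_small {a : ℝ} (n : ℕ) (r lo hi : ℝ) (hr : a = n + r) (h0 : |r| ≤ 1)
    (hlo : lo ≤ 2.7182818283 ^ n * (1 + r + r ^ 2 / 2 + r ^ 3 / 6 + r ^ 4 / 24 + r ^ 5 / 120 + r ^ 6 / 720 - |r| ^ 7 * (8 / 35280)))
    (hhi : 2.7182818286 ^ n * (1 + r + r ^ 2 / 2 + r ^ 3 / 6 + r ^ 4 / 24 + r ^ 5 / 120 + r ^ 6 / 720 + |r| ^ 7 * (8 / 35280)) ≤ hi) :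
    lo ≤ exp a ∧ exp a ≤ hi := by
  have hb := Real.exp_bound h0 (n := 7) (by norm_num)
  rw [abs_le] at hb
  norm_num [Finset.sum_range_succ, Nat.factorial] at hb
  have e : exp a = exp 1 ^ n * exp r := by rw [hr, exp_add, exp_one_pow]
  have h1 : (2.7182818283 : ℝ) ^ n ≤ exp 1 ^ n := by
    have := exp_one_gt_d9; gcongr
  have h2 : exp 1 ^ n ≤ (2.7182818286 : ℝ) ^ n := by
    have := exp_one_lt_d9; gcongr
  rw [e]
  constructor
  · refine hlo.trans (le_trans ?_ (mul_le_mul_of_nonneg_right h1 (exp_nonneg r)))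
    refine mul_le_mul_of_nonneg_left ?_ (by positivity)
    linarith [hb.1]
  · refine le_trans (le_trans ?_ (mul_le_mul_of_nonneg_right h2 ?_)) hhi
    · exact mul_le_mul_of_nonneg_left (by linarith [hb.2]) (by positivity)
    · linarith [hb.2, exp_pos r]

lemma cub_mono {a b : ℝ} (ha : 0 ≤ a) (hab : a ≤ b) : cub a ≤ cub b :=
  monotoneOn_of_hasDerivWithinAt_nonneg (convex_Ici 0)
    (fun x _ => (hasDerivAt_cub x).continuousAt.continuousWithinAt)
    (fun x _ => (hasDerivAt_cub x).hasDerivWithinAt) (fun x _ => by positivity) ha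
    (ha.trans hab) hab

lemma prim_mono {a b : ℝ} (ha : 0 ≤ a) (hab : a ≤ b) : prim a ≤ prim b :=
  monotoneOn_of_hasDerivWithinAt_nonneg (convex_Ici 0)
    (fun x _ => (hasDerivAt_prim x).continuousAt.continuousWithinAt)
    (fun x _ => (hasDerivAt_prim x).hasDerivWithinAt)
    (fun x hx => psi_nonneg (le_of_lt (by rwa [interior_Ici] at hx))) ha (ha.trans hab) hab

lemma prim_zero : prim 0 = 0 := by unfold prim; norm_num

lemma prim_concave : ConcaveOn ℝ (Ici 0) prim := by
  refine AntitoneOn.concaveOn_of_deriv (convex_Ici 0)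
    (fun x _ => (hasDerivAt_prim x).continuousAt.continuousWithinAt)
    (fun x _ => (hasDerivAt_prim x).differentiableAt.differentiableWithinAt) ?_
  rw [interior_Ici]
  intro x hx y hy hxy
  rw [(hasDerivAt_prim x).deriv, (hasDerivAt_prim y).deriv]
  exact psi_antitone (mem_Ici.2 (le_of_lt hx)) (mem_Ici.2 (le_of_lt hy)) hxy

/-- Chord bound for the concave primitive. -/
lemma prim_chord {a b x : ℝ} (ha : 0 ≤ a) (hax : a ≤ x) (hxb : x ≤ b) (hab : a < b) {A B : ℝ}
    (hA : A ≤ prim a) (hB : B ≤ prim b) :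
    ((b - x) * A + (x - a) * B) / (b - a) ≤ prim x := by
  have hd : 0 < b - a := by linarith
  have h2 := prim_concave.2
  have := h2 (mem_Ici.2 ha) (mem_Ici.2 (by linarith : (0:ℝ) ≤ b)) (a := (b - x) / (b - a))
    (b := (x - a) / (b - a)) (by apply div_nonneg <;> linarith) (by apply div_nonneg <;> linarith)
    (by rw [← add_div, div_eq_one_iff_eq hd.ne']; ring)
  simp only [smul_eq_mul] at this
  rw [show (b - x) / (b - a) * a + (x - a) / (b - a) * b = x by field_simp; ring] at this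
  refine le_trans ?_ this
  rw [div_mul_eq_mul_div, div_mul_eq_mul_div, ← add_div]
  gcongr <;> linarith

lemma hasDerivAt_gap (x : ℝ) : HasDerivAt (fun x => prim x ^ 3 - cub x)
    (3 * exp (-x) * ((1 + 0.8172 * x) * prim x ^ 2 - x ^ 2)) x := by
  refine HasDerivAt.congr_deriv (((hasDerivAt_prim x).pow 3).fun_sub (hasDerivAt_cub x)) ?_
  unfold psi; push_cast; ring

lemma prim_one : 0.848 ≤ prim 1 := by
  obtain ⟨l, u⟩ := exp_small (a := 1) 1 0 2.71828 2.71829 (by norm_num) (by norm_num)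
    (by norm_num) (by norm_num)
  obtain ⟨b1, b2⟩ := exp_bnd l (by norm_num) u
  unfold prim; norm_num at b1 b2 ⊢; linarith

lemma prim_two : 1.35 ≤ prim 2 := by
  obtain ⟨l, u⟩ := exp_small (a := 2) 2 0 7.389 7.3891 (by norm_num) (by norm_num)
    (by norm_num) (by norm_num)
  obtain ⟨b1, b2⟩ := exp_bnd l (by norm_num) u
  unfold prim; norm_num at b1 b2 ⊢; linarith

lemma prim_25 : 1.5003 ≤ prim 2.5 := by
  obtain ⟨l, u⟩ := exp_small (a := 2.5) 2 (1/2) 12.182 12.1827 (by norm_num)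
    (by norm_num [abs_of_pos]) (by norm_num [abs_of_pos]) (by norm_num [abs_of_pos])
  obtain ⟨b1, b2⟩ := exp_bnd l (by norm_num) u
  unfold prim; norm_num at b1 b2 ⊢; linarith

lemma prim_29 : 1.5866 ≤ prim 2.9 := by
  obtain ⟨l, u⟩ := exp_small (a := 2.9) 3 (-1/10) 18.174 18.1742 (by norm_num)
    (by norm_num [abs_of_neg]) (by norm_num [abs_of_neg]) (by norm_num [abs_of_neg])
  obtain ⟨b1, b2⟩ := exp_bnd l (by norm_num) u
  unfold prim; norm_num at b1 b2 ⊢; linarith

lemma exp_33 : 27.112 ≤ exp 3.3 ∧ exp 3.3 ≤ 27.113 :=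
  exp_small 3 (3/10) 27.112 27.113 (by norm_num) (by norm_num [abs_of_pos])
    (by norm_num [abs_of_pos]) (by norm_num [abs_of_pos])

lemma exp_37 : 40.44 ≤ exp 3.7 ∧ exp 3.7 ≤ 40.45 :=
  exp_small 4 (-3/10) 40.44 40.45 (by norm_num) (by norm_num [abs_of_neg])
    (by norm_num [abs_of_neg]) (by norm_num [abs_of_neg])

lemma cub_le_mid {a : ℝ} (h : 2.9 ≤ a) (h4 : a ≤ 4) : cub a ≤ prim a ^ 3 := by
  have ha : 0 ≤ a := le_trans (by norm_num) h
  obtain ⟨a1, a2⟩ := exp_bnd exp_33.1 (by norm_num) exp_33.2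
  obtain ⟨b1, b2⟩ := exp_bnd exp_37.1 (by norm_num) exp_37.2
  obtain ⟨l4, u4⟩ := exp_small (a := 4) 4 0 54.59 54.6 (by norm_num) (by norm_num)
    (by norm_num) (by norm_num)
  obtain ⟨c1, c2⟩ := exp_bnd l4 (by norm_num) u4
  have k1 : cub 3.3 ≤ 1.5866 ^ 3 := by unfold cub; norm_num at a1 a2 ⊢; linarith
  have k2 : cub 3.7 ≤ 1.6497 ^ 3 := by unfold cub; norm_num at b1 b2 ⊢; linarith
  have k3 : cub 4 ≤ 1.697 ^ 3 := by unfold cub; norm_num at c1 c2 ⊢; linarith
  have q2 : 1.6497 ≤ prim 3.3 := by unfold prim; norm_num at a1 a2 ⊢; linarith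
  have q3 : 1.697 ≤ prim 3.7 := by unfold prim; norm_num at b1 b2 ⊢; linarith
  rcases le_total a 3.3 with g | g
  · exact ((cub_mono ha g).trans k1).trans
      (pow_le_pow_left₀ (by norm_num) (prim_29.trans (prim_mono (by norm_num) h)) 3)
  rcases le_total a 3.7 with g2 | g2
  · exact ((cub_mono ha g2).trans k2).trans
      (pow_le_pow_left₀ (by norm_num) (q2.trans (prim_mono (by norm_num) g)) 3)
  · exact ((cub_mono ha h4).trans k3).trans
      (pow_le_pow_left₀ (by norm_num) (q3.trans (prim_mono (by norm_num) g2)) 3)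

lemma rising_small {x : ℝ} (h0 : 0 ≤ x) (h : x ≤ 0.55) :
    x ^ 2 ≤ (1 + 0.8172 * x) * prim x ^ 2 := by
  have hd : ∀ y : ℝ, HasDerivAt (fun y => prim y - (y - 0.1 * y ^ 2 - 0.3 * y ^ 3))
      (psi y - (1 - 0.2 * y - 0.9 * y ^ 2)) y := fun y => by
    refine HasDerivAt.congr_deriv ((hasDerivAt_prim y).fun_sub
      ((((hasDerivAt_id' y)).fun_sub ((hasDerivAt_pow 2 y).const_mul 0.1)).fun_sub
        ((hasDerivAt_pow 3 y).const_mul 0.3))) ?_
    push_cast; ring
  have := monotoneOn_of_hasDerivWithinAt_nonneg (convex_Ici 0)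
    (fun y _ => (hd y).continuousAt.continuousWithinAt) (fun y _ => (hd y).hasDerivWithinAt)
    (fun y hy => by
      rw [interior_Ici] at hy
      have h0 : (0:ℝ) < y := hy
      have := mul_le_mul_of_nonneg_left (add_one_le_exp (-y))
        (show 0 ≤ 1 + 0.8172 * y by positivity)
      unfold psi
      nlinarith) (mem_Ici.2 le_rfl) (mem_Ici.2 h0) h0
  simp only [prim_zero] at this
  set L := x - 0.1 * x ^ 2 - 0.3 * x ^ 3 with hL
  have hL0 : 0 ≤ L := by rw [hL]; nlinarith [mul_nonneg h0 h0]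
  have hLp : L ≤ prim x := by rw [hL]; linarith
  refine le_trans ?_ (mul_le_mul_of_nonneg_left (pow_le_pow_left₀ hL0 hLp 2) (by positivity))
  have hi : 1 ≤ (1 + 0.8172 * x) * (1 - 0.2 * x - 0.6 * x ^ 2) := by
    nlinarith [mul_nonneg h0 (sub_nonneg.2 h), mul_nonneg (mul_nonneg h0 h0) (sub_nonneg.2 h)]
  calc x ^ 2 ≤ x ^ 2 * ((1 + 0.8172 * x) * (1 - 0.2 * x - 0.6 * x ^ 2)) :=
        le_mul_of_one_le_right (sq_nonneg x) hi
    _ ≤ (1 + 0.8172 * x) * L ^ 2 := by
        rw [hL, mul_left_comm]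
        refine mul_le_mul_of_nonneg_left ?_ (by positivity)
        nlinarith [sq_nonneg (0.1 * x ^ 2 + 0.3 * x ^ 3)]

lemma rising {x : ℝ} (h0 : 0 ≤ x) (h29 : x ≤ 2.9) : x ^ 2 ≤ (1 + 0.8172 * x) * prim x ^ 2 := by
  have key : ∀ L : ℝ, 0 ≤ L → L ≤ prim x → x ^ 2 ≤ (1 + 0.8172 * x) * L ^ 2 →
      x ^ 2 ≤ (1 + 0.8172 * x) * prim x ^ 2 := fun L hL hLp h =>
    h.trans (mul_le_mul_of_nonneg_left (pow_le_pow_left₀ hL hLp 2) (by positivity))
  rcases le_total x 0.55 with h | h
  · exact rising_small h0 h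
  rcases le_total x 1 with h1 | h1
  · have hl := prim_chord le_rfl h0 h1 one_pos (le_of_eq prim_zero.symm) prim_one
    simp only [sub_zero, mul_zero, zero_add, div_one] at hl
    exact key _ (by positivity) hl (by norm_num at h ⊢; nlinarith)
  rcases le_total x 2 with h2 | h2
  · have hl := prim_chord zero_le_one h1 h2 one_lt_two prim_one prim_two
    norm_num at hl
    exact key _ (by linarith) hl (by
      nlinarith [mul_nonneg (sub_nonneg.2 h1) (sub_nonneg.2 h2),
        mul_nonneg (mul_nonneg (sub_nonneg.2 h1) (sub_nonneg.2 h2)) h0])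
  rcases le_total x 2.5 with h3 | h3
  · have hl := prim_chord (by norm_num) h2 h3 (by norm_num) prim_two prim_25
    norm_num at hl h3
    exact key _ (by linarith) hl (by
      nlinarith [mul_nonneg (sub_nonneg.2 h2) (sub_nonneg.2 h3),
        mul_nonneg (mul_nonneg (sub_nonneg.2 h2) (sub_nonneg.2 h3)) h0])
  · have hl := prim_chord (by norm_num) h3 h29 (by norm_num) prim_25 prim_29
    norm_num at hl h3 h29
    exact key _ (by linarith) hl (by
      nlinarith [mul_nonneg (sub_nonneg.2 h3) (sub_nonneg.2 h29),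
        mul_nonneg (mul_nonneg (sub_nonneg.2 h3) (sub_nonneg.2 h29)) h0])

lemma cub_le_tail {a : ℝ} (g3 : 4 ≤ a) : cub a ≤ prim a ^ 3 := by
  have hle : ∀ x : ℝ, 0 ≤ x → prim x ≤ 1.8172 := fun x hx => by
    have : 0 ≤ exp (-x) * (1.8172 + 0.8172 * x) := by positivity
    unfold prim; linarith
  have hanti : AntitoneOn (fun x => prim x ^ 3 - cub x) (Ici 4) := by
    refine antitoneOn_of_hasDerivWithinAt_nonpos (convex_Ici 4)
      (fun x _ => (hasDerivAt_gap x).continuousAt.continuousWithinAt)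
      (fun x _ => (hasDerivAt_gap x).hasDerivWithinAt) (fun x hx => ?_)
    rw [interior_Ici] at hx
    have hx4 : (4:ℝ) < x := hx
    refine mul_nonpos_of_nonneg_of_nonpos (by positivity) (sub_nonpos.2 ?_)
    have h0 : 0 ≤ prim x := prim_zero ▸ prim_mono le_rfl (by linarith)
    have := pow_le_pow_left₀ h0 (hle x (by linarith)) 2
    nlinarith
  have hlim : Tendsto (fun x => prim x ^ 3 - cub x) atTop (𝓝 ((1.8172:ℝ) ^ 3 - 6)) := by
    have e0 := tendsto_pow_mul_exp_neg_atTop_nhds_zero 0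
    have e1 := tendsto_pow_mul_exp_neg_atTop_nhds_zero 1
    have e2 := tendsto_pow_mul_exp_neg_atTop_nhds_zero 2
    have hp : Tendsto prim atTop (𝓝 1.8172) := by
      have := ((e0.const_mul 1.8172).add (e1.const_mul 0.8172)).const_sub 1.8172
      simp only [mul_zero, add_zero, sub_zero] at this
      exact this.congr fun x => by unfold prim; ring
    have hc : Tendsto cub atTop (𝓝 6) := by
      have := (((e2.const_mul 3).add (e1.const_mul 6)).add (e0.const_mul 6)).const_sub 6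
      simp only [mul_zero, add_zero, sub_zero] at this
      exact this.congr fun x => by unfold cub; ring
    exact (hp.pow 3).sub hc
  have := le_of_tendsto hlim (eventually_atTop.2
    ⟨a, fun b hb => hanti (mem_Ici.2 g3) (mem_Ici.2 (g3.trans hb)) hb⟩)
  simp only at this
  norm_num at this
  linarith

/-- `∫₀ᵃ 3y²e^{-y} ≤ (∫₀ᵃ ψ)³`. -/
lemma cub_le_prim_cube {a : ℝ} (ha : 0 ≤ a) : cub a ≤ prim a ^ 3 := by
  rcases le_total a 2.9 with h | h
  · have := monotoneOn_of_hasDerivWithinAt_nonneg (convex_Icc 0 2.9)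
      (fun x _ => (hasDerivAt_gap x).continuousAt.continuousWithinAt)
      (fun x _ => (hasDerivAt_gap x).hasDerivWithinAt)
      (fun x hx => by
        rw [interior_Icc] at hx
        exact mul_nonneg (by positivity) (sub_nonneg.2 (rising hx.1.le hx.2.le)))
      (left_mem_Icc.2 (by norm_num)) ⟨ha, h⟩ ha
    simp only [prim_zero, cub] at this
    norm_num at this
    unfold cub
    linarith
  rcases le_total a 4 with g | g
  · exact cub_le_mid h g
  · exact cub_le_tail g

/-- Weights `e^{-y_i} - e^{-y_{i+1}}`, last one `e^{-y_N}`, of a decreasing function. -/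
noncomputable def wt (φ : ℝ → ℝ) (N : ℕ) (η : ℝ) (i : ℕ) : ℝ :=
  φ (i * η) - if i < N then φ ((i + 1 : ℕ) * η) else 0

lemma wt_nonneg {φ : ℝ → ℝ} (hφ : AntitoneOn φ (Ici 0)) (h0 : ∀ y, 0 ≤ y → 0 ≤ φ y) (N : ℕ)
    {η : ℝ} (hη : 0 ≤ η) (i : ℕ) : 0 ≤ wt φ N η i := by
  unfold wt; split_ifs
  · exact sub_nonneg.2 (hφ (mem_Ici.2 (by positivity)) (mem_Ici.2 (by positivity))
      (mul_le_mul_of_nonneg_right (by exact_mod_cast i.le_succ) hη))
  · rw [sub_zero]; exact h0 _ (by positivity)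

lemma wt_tail (φ : ℝ → ℝ) (N : ℕ) (η : ℝ) {l : ℕ} (hl : l ≤ N) :
    ∑ i ∈ Finset.range (N + 1), (if l ≤ i then wt φ N η i else 0) = φ (l * η) := by
  induction hm : N - l generalizing l with
  | zero =>
    rw [Finset.sum_eq_single N]
    · rw [if_pos hl]; simp [wt, show l = N by omega]
    · intro i hi hne; rw [Finset.mem_range] at hi; rw [if_neg (by omega)]
    · simp
  | succ m ih =>
    have hlN : l < N := by omega
    rw [← Finset.add_sum_erase _ _ (Finset.mem_range.2 (by omega : l < N + 1)), if_pos le_rfl]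
    rw [Finset.sum_congr rfl (g := fun i => if l + 1 ≤ i then wt φ N η i else 0) (fun i hi => by
      have := (Finset.mem_erase.1 hi).1
      by_cases h : l ≤ i
      · rw [if_pos h, if_pos (by omega)]
      · rw [if_neg h, if_neg (by omega)])]
    rw [Finset.sum_erase (a := l) _ (by simp), ih (by omega) (by omega)]
    simp [wt, hlN]

lemma min_sum (φ : ℝ → ℝ) (N : ℕ) (η : ℝ) (g : ℕ → ℝ) (hg : g 0 = 0) {m : ℕ} (hm : m ≤ N) :
    ∑ i ∈ Finset.range (N + 1), wt φ N η i * g (min i m) =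
      ∑ l ∈ Finset.range m, (g (l + 1) - g l) * φ (((l + 1 : ℕ) : ℝ) * η) := by
  induction m with
  | zero => simp [hg]
  | succ m ih =>
    rw [Finset.sum_range_succ (n := m), ← ih (by omega), ← wt_tail φ N η hm, Finset.mul_sum,
      ← Finset.sum_add_distrib]
    refine Finset.sum_congr rfl fun i _ => ?_
    split_ifs with h
    · rw [min_eq_right h, min_eq_right (by omega : m ≤ i)]; ring
    · rw [min_eq_left (by omega : i ≤ m + 1), min_eq_left (by omega : i ≤ m)]; ring

/-- Weighted `ℓ³` inequality for concave increasing sequences. -/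
lemma seq_ineq (N : ℕ) {η : ℝ} (hη : 0 < η) (s : ℕ → ℝ) (m : ℕ) (hm : m ≤ N) (h0 : 0 ≤ s 0)
    (hmono : ∀ i < m, s i ≤ s (i + 1))
    (hconc : ∀ i, i + 1 < m → s (i + 2) + s i ≤ 2 * s (i + 1)) (hconst : ∀ i, m ≤ i → s i = s m) :
    (∑ i ∈ Finset.range (N + 1), wt (fun y => exp (-y)) N η i * s i ^ 3) ^ ((1:ℝ) / 3) ≤
      exp η * ∑ i ∈ Finset.range (N + 1), wt psi N η i * s i := by
  have wA : ∀ i, 0 ≤ wt (fun y => exp (-y)) N η i := fun i =>
    wt_nonneg (fun x _ y _ h => exp_le_exp.2 (by linarith)) (fun y _ => (exp_pos _).le) N hη.le i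
  induction m generalizing s with
  | zero =>
    have he : ∀ i, s i = s 0 := fun i => hconst i (by omega)
    simp only [he, ← Finset.sum_mul]
    rw [show ∑ i ∈ Finset.range (N + 1), wt (fun y => exp (-y)) N η i = 1 by
        simpa using wt_tail (fun y => exp (-y)) N η (Nat.zero_le N),
      show ∑ i ∈ Finset.range (N + 1), wt psi N η i = 1 by
        simpa [psi] using wt_tail psi N η (Nat.zero_le N)]
    rw [one_mul, one_mul, one_div, show ((3:ℝ)⁻¹) = ((3:ℕ):ℝ)⁻¹ by norm_num,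
      pow_rpow_inv_natCast h0 (by norm_num)]
    exact le_mul_of_one_le_left h0 (one_le_exp hη.le)
  | succ m ih =>
    set δ := s (m + 1) - s m with hδ
    have hδ0 : 0 ≤ δ := sub_nonneg.2 (hmono m (by omega))
    have hinc : ∀ i, i ≤ m → δ ≤ s (i + 1) - s i := by
      intro i hi
      induction hk : m - i generalizing i with
      | zero => rw [show i = m by omega]
      | succ k ihk =>
        have h1 := ihk (i + 1) (by omega) (by omega)
        have h2 := hconc i (by omega)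
        rw [show i + 2 = i + 1 + 1 from rfl] at h2
        linarith
    set r : ℕ → ℝ := fun i => s i - δ * (min i (m + 1) : ℕ) with hr
    have hrm : ∀ i, i ≤ m + 1 → r i = s i - δ * i := fun i hi => by
      simp only [hr, min_eq_left hi]
    have hr0 : 0 ≤ r 0 := by rw [hrm 0 (by omega)]; simpa using h0
    have hrmono : ∀ i < m, r i ≤ r (i + 1) := fun i hi => by
      rw [hrm i (by omega), hrm (i + 1) (by omega)]; push_cast
      linarith [hinc i hi.le]
    have hrnn : ∀ i, i ≤ m → 0 ≤ r i := by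
      intro i hi
      induction i with
      | zero => exact hr0
      | succ i ihi => exact (ihi (by omega)).trans (hrmono i (by omega))
    have hrc : ∀ i, m ≤ i → r i = r m := by
      intro i hi
      rcases hi.eq_or_lt with rfl | hlt
      · rfl
      · simp only [hr, min_eq_right (show m + 1 ≤ i by omega), hconst i (by omega),
          min_eq_left m.le_succ]
        push_cast; rw [hδ]; ring
    have hrall : ∀ i, 0 ≤ r i := fun i => by
      rcases le_total i m with h | h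
      · exact hrnn i h
      · rw [hrc i h]; exact hrnn m le_rfl
    have IH := ih r (by omega) hr0 hrmono (fun i hi => by
      rw [hrm i (by omega), hrm (i + 1) (by omega), hrm (i + 2) (by omega)]; push_cast
      linarith [hconc i (by omega)]) hrc
    -- the ray
    set q : ℕ → ℝ := fun i => δ / η * (((min i (m + 1) : ℕ) : ℝ) * η) with hq
    have hsq : ∀ i, s i = r i + q i := fun i => by simp only [hr, hq]; field_simp; ring
    have hq0 : ∀ i, 0 ≤ q i := fun i => by simp only [hq]; positivity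
    set A := fun f : ℕ → ℝ => (∑ i ∈ Finset.range (N + 1),
      wt (fun y => exp (-y)) N η i * f i ^ 3) ^ ((1:ℝ) / 3) with hA
    have hAdd : A s ≤ A r + A q := by
      have h3 := Real.Lp_add_le_of_nonneg (p := 3) (s := Finset.range (N + 1))
        (f := fun i => wt (fun y => exp (-y)) N η i ^ ((1:ℝ) / 3) * r i)
        (g := fun i => wt (fun y => exp (-y)) N η i ^ ((1:ℝ) / 3) * q i) (by norm_num)
        (fun i _ => mul_nonneg (rpow_nonneg (wA i) _) (hrall i))
        (fun i _ => mul_nonneg (rpow_nonneg (wA i) _) (hq0 i))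
      have e : ∀ i x, (wt (fun y => exp (-y)) N η i ^ ((1:ℝ) / 3) * x) ^ (3:ℝ) =
          wt (fun y => exp (-y)) N η i * x ^ 3 := by
        intro i x
        rw [show ((3:ℝ)) = ((3:ℕ):ℝ) by norm_num, rpow_natCast, mul_pow, one_div,
          rpow_inv_natCast_pow (wA i) (by norm_num)]
      simp only [← mul_add, ← hsq, e] at h3
      exact h3
    have hAq : A q ≤ exp η * ∑ i ∈ Finset.range (N + 1), wt psi N η i * q i := by
      set c := δ / η with hc
      have hc0 : 0 ≤ c := by positivity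
      have e1 : ∑ i ∈ Finset.range (N + 1), wt (fun y => exp (-y)) N η i * q i ^ 3 ≤
          c ^ 3 * cub ((m + 1 : ℕ) * η) := by
        have := min_sum (fun y => exp (-y)) N η (fun i => ((i:ℝ) * η) ^ 3) (by simp) hm
        simp only [hq, mul_pow c, mul_left_comm _ (c ^ 3), ← Finset.mul_sum]
        refine mul_le_mul_of_nonneg_left ?_ (by positivity)
        rw [this]
        have tel : ∀ l : ℕ, l ≤ m + 1 → ∑ j ∈ Finset.range l,
            ((((j + 1 : ℕ) : ℝ) * η) ^ 3 - ((j:ℝ) * η) ^ 3) * exp (-(((j + 1 : ℕ) : ℝ) * η)) ≤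
            cub (l * η) := by
          intro l hl
          induction l with
          | zero => simp [cub]
          | succ l ihl =>
            rw [Finset.sum_range_succ]
            have := cub_step (a := (l:ℝ) * η) (by positivity) hη.le
            push_cast at ihl this ⊢
            rw [add_one_mul (l:ℝ) η] at *
            linarith [ihl (by omega)]
        exact tel (m + 1) le_rfl
      have e2 : c * prim ((m + 1 : ℕ) * η) ≤
          exp η * ∑ i ∈ Finset.range (N + 1), wt psi N η i * q i := by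
        have := min_sum psi N η (fun i => (i:ℝ) * η) (by simp) hm
        simp only [hq, mul_left_comm _ c, ← Finset.mul_sum, this]
        refine mul_le_mul_of_nonneg_left ?_ hc0
        have tel : ∀ l : ℕ, prim (l * η) ≤ exp η * ∑ j ∈ Finset.range l,
            ((((j + 1 : ℕ) : ℝ) * η) - ((j:ℝ) * η)) * psi (((j + 1 : ℕ) : ℝ) * η) := by
          intro l
          induction l with
          | zero => simp [prim_zero]
          | succ l ihl =>
            rw [Finset.sum_range_succ, mul_add]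
            have h1 := prim_step (a := (l:ℝ) * η) (by positivity) hη
            have h2 := psi_shift (y := (l:ℝ) * η + η) hη.le (le_add_of_nonneg_left (by positivity))
            rw [add_sub_cancel_right] at h2
            push_cast at ihl ⊢
            rw [add_one_mul (l:ℝ) η, add_sub_cancel_left]
            have h3 := mul_le_mul_of_nonneg_left h2 hη.le
            linarith
        exact tel (m + 1)
      refine le_trans ?_ e2
      have hp : 0 ≤ ((m + 1 : ℕ) : ℝ) * η := by positivity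
      have hp0 : 0 ≤ prim (((m + 1 : ℕ) : ℝ) * η) := prim_zero ▸ prim_mono le_rfl hp
      calc A q ≤ (c ^ 3 * prim ((m + 1 : ℕ) * η) ^ 3) ^ ((1:ℝ) / 3) :=
            rpow_le_rpow (Finset.sum_nonneg fun i _ => mul_nonneg (wA i) (pow_nonneg (hq0 i) _))
              (e1.trans (mul_le_mul_of_nonneg_left (cub_le_prim_cube hp) (by positivity)))
              (by norm_num)
        _ = c * prim ((m + 1 : ℕ) * η) := by
            rw [← mul_pow, one_div, show ((3:ℝ)⁻¹) = ((3:ℕ):ℝ)⁻¹ by norm_num,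
              pow_rpow_inv_natCast (mul_nonneg hc0 hp0) (by norm_num)]
    calc A s ≤ A r + A q := hAdd
      _ ≤ exp η * ∑ i ∈ Finset.range (N + 1), wt psi N η i * r i +
          exp η * ∑ i ∈ Finset.range (N + 1), wt psi N η i * q i := add_le_add IH hAq
      _ = _ := by
          rw [← mul_add, ← Finset.sum_add_distrib]
          simp only [← mul_add, ← hsq]

lemma gain_mono : MonotoneOn (fun g => g + 0.8172 * negMulLog g) (Icc 0 1) := by
  refine monotoneOn_of_hasDerivWithinAt_nonneg (convex_Icc 0 1)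
    (continuous_id.add (continuous_const.mul continuous_negMulLog)).continuousOn
    (f' := fun x => 1 + 0.8172 * (-log x - 1)) (fun x hx => ?_) (fun x hx => ?_)
  · rw [interior_Icc] at hx
    exact ((hasDerivAt_id' x).fun_add ((hasDerivAt_negMulLog hx.1.ne').const_mul 0.8172)).hasDerivWithinAt
  · rw [interior_Icc] at hx
    have := log_nonpos hx.1.le hx.2.le
    linarith

lemma first_index (P : ℕ → Prop) (N : ℕ) (hP : ∀ i, P i → P (i + 1)) (he : ∃ i ≤ N, P i) :
    ∃ l ≤ N, P l ∧ ∀ i ≤ N, (P i ↔ l ≤ i) := by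
  classical
  refine ⟨Nat.find he, (Nat.find_spec he).1, (Nat.find_spec he).2, fun i hi => ⟨fun h2 => ?_, ?_⟩⟩
  · exact Nat.find_min' he ⟨hi, h2⟩
  · intro h2
    induction i, h2 using Nat.le_induction with
    | base => exact (Nat.find_spec he).2
    | succ i _ ihi => exact hP i (ihi (by omega))

lemma lower_side {g : ℝ → ℝ} {h : ℝ} (hh : 0 < h) (hg : AntitoneOn g (Icc 0 h))
    (hmem : ∀ t ∈ Icc 0 h, g t ∈ Icc (0:ℝ) 1) {N : ℕ} {η : ℝ} (hη : 0 < η) (σ : ℕ → ℝ)
    (hσh : ∀ i, σ i ∈ Icc 0 h) (hσmono : ∀ i, σ i ≤ σ (i + 1))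
    (hlow : ∀ (i : ℕ) (t : ℝ), 0 ≤ t → t < σ i → t ∈ Icc 0 h ∧ exp (-((i:ℝ) * η)) ≤ g t) :
    ∑ i ∈ Finset.range (N + 1), wt psi N η i * σ i ≤
      ∫ t in (0:ℝ)..h, (g t + 0.8172 * negMulLog (g t)) := by
  set ω := wt psi N η
  have iG : IntervalIntegrable (fun t => g t + 0.8172 * negMulLog (g t)) volume 0 h := by
    refine AntitoneOn.intervalIntegrable fun a ha b hb hab => ?_
    rw [uIcc_of_le hh.le] at ha hb
    exact gain_mono (hmem b hb) (hmem a ha) (hg ha hb hab)
  have iI : ∀ i : ℕ, IntervalIntegrable ((Ioo 0 (σ i)).indicator fun _ => ω i) volume 0 h := by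
    intro i
    rw [intervalIntegrable_iff_integrableOn_Ioc_of_le hh.le]
    exact (continuous_const.integrableOn_Ioc).indicator measurableSet_Ioo
  have e : ∑ i ∈ Finset.range (N + 1), ω i * σ i =
      ∫ t in (0:ℝ)..h, ∑ i ∈ Finset.range (N + 1), (Ioo 0 (σ i)).indicator (fun _ => ω i) t := by
    rw [intervalIntegral.integral_finsetSum fun i _ => iI i]
    refine Finset.sum_congr rfl fun i _ => ?_
    rw [intervalIntegral.integral_of_le hh.le, setIntegral_indicator measurableSet_Ioo,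
      inter_eq_right.2 (show Ioo 0 (σ i) ⊆ Ioc 0 h from fun t ht => ⟨ht.1, ht.2.le.trans (hσh i).2⟩), setIntegral_const]
    simp [(hσh i).1, mul_comm]
  rw [e]
  refine intervalIntegral.integral_mono_on hh.le ?_ iG fun t ht => ?_
  · simpa only [Finset.sum_fn] using IntervalIntegrable.sum (Finset.range (N + 1)) fun i _ => iI i
  have hnn : 0 ≤ g t + 0.8172 * negMulLog (g t) :=
    add_nonneg (hmem t ht).1 (mul_nonneg (by norm_num) (negMulLog_nonneg (hmem t ht).1 (hmem t ht).2))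
  by_cases he : ∃ i ≤ N, t ∈ Ioo 0 (σ i)
  · obtain ⟨l, hlN, hl, hiff⟩ := first_index (fun i : ℕ => t ∈ Ioo 0 (σ i)) N
      (fun i hi => ⟨hi.1, hi.2.trans_le (hσmono i)⟩) he
    have : ∑ i ∈ Finset.range (N + 1), (Ioo 0 (σ i)).indicator (fun _ => ω i) t = psi (l * η) := by
      rw [← wt_tail psi N η hlN]
      refine Finset.sum_congr rfl fun i hi => ?_
      have hiN : i ≤ N := Nat.lt_succ_iff.1 (Finset.mem_range.1 hi)
      by_cases h2 : l ≤ i
      · rw [if_pos h2, indicator_of_mem ((hiff i hiN).2 h2)]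
      · rw [if_neg h2, indicator_of_notMem (fun hm => h2 ((hiff i hiN).1 hm))]
    rw [this]
    have hge := (hlow l t hl.1.le hl.2).2
    have := gain_mono ⟨(exp_pos _).le, exp_le_one_iff.2 (neg_nonpos.2 (by positivity))⟩ (hmem t ht) hge
    refine le_of_eq_of_le ?_ this
    simp only [negMulLog, log_exp, psi]; ring
  · push Not at he
    rw [Finset.sum_eq_zero fun i hi => indicator_of_notMem
      (he i (Nat.lt_succ_iff.1 (Finset.mem_range.1 hi))) _]
    exact hnn

lemma upper_side {g : ℝ → ℝ} {h : ℝ} (hh : 0 < h) (hg : AntitoneOn g (Icc 0 h))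
    (hmem : ∀ t ∈ Icc 0 h, g t ∈ Icc (0:ℝ) 1) {N : ℕ} {η : ℝ} (hη : 0 < η) (σ : ℕ → ℝ)
    (hσh : ∀ i, σ i ∈ Icc 0 h) (hσmono : ∀ i, σ i ≤ σ (i + 1))
    (hup : ∀ (i : ℕ) (t : ℝ), t ∈ Icc 0 h → exp (-((i:ℝ) * η)) ≤ g t → t ≤ σ i) :
    3 * ∫ t in (0:ℝ)..h, t ^ 2 * g t ≤
      exp η * ∑ i ∈ Finset.range (N + 1), wt (fun y => exp (-y)) N η i * σ i ^ 3 +
        h ^ 3 * exp (-((N:ℝ) * η)) := by
  set w := wt (fun y => exp (-y)) N η
  set δ := exp (-((N:ℝ) * η))
  have w0 : ∀ i, 0 ≤ w i := fun i =>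
    wt_nonneg (fun x _ y _ h => exp_le_exp.2 (by linarith)) (fun y _ => (exp_pos _).le) N hη.le i
  have iI : ∀ i : ℕ,
      IntervalIntegrable ((Icc 0 (σ i)).indicator fun t => w i * t ^ 2) volume 0 h := by
    intro i
    rw [intervalIntegrable_iff_integrableOn_Ioc_of_le hh.le]
    exact ((continuous_const.mul (continuous_pow 2)).integrableOn_Ioc).indicator measurableSet_Icc
  have iS : IntervalIntegrable (fun t => exp η *
      ∑ i ∈ Finset.range (N + 1), (Icc 0 (σ i)).indicator (fun t => w i * t ^ 2) t + δ * t ^ 2)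
      volume 0 h := by
    refine IntervalIntegrable.add (IntervalIntegrable.const_mul ?_ _)
      (Continuous.intervalIntegrable (by fun_prop) _ _)
    simpa only [Finset.sum_fn] using IntervalIntegrable.sum (Finset.range (N + 1)) fun i _ => iI i
  have ig : IntervalIntegrable (fun t => t ^ 2 * g t) volume 0 h := by
    refine IntervalIntegrable.continuousOn_mul ?_ (continuous_pow 2).continuousOn
    exact (hg.mono (by rw [uIcc_of_le hh.le])).intervalIntegrable
  have hle : ∀ t ∈ Icc 0 h, t ^ 2 * g t ≤ exp η *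
      ∑ i ∈ Finset.range (N + 1), (Icc 0 (σ i)).indicator (fun t => w i * t ^ 2) t + δ * t ^ 2 := by
    intro t ht
    have hsum0 : 0 ≤ ∑ i ∈ Finset.range (N + 1), (Icc 0 (σ i)).indicator (fun t => w i * t ^ 2) t :=
      Finset.sum_nonneg fun i _ => indicator_nonneg (fun x _ => mul_nonneg (w0 i) (sq_nonneg x)) _
    have hδ : 0 ≤ δ * t ^ 2 := mul_nonneg (exp_pos _).le (sq_nonneg t)
    by_cases he : ∃ i ≤ N, exp (-((i:ℝ) * η)) ≤ g t
    · obtain ⟨l, hlN, hl, hiff⟩ := first_index (fun i : ℕ => exp (-((i:ℝ) * η)) ≤ g t) N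
        (fun i hi => le_trans (exp_le_exp.2 (by push_cast; linarith)) hi) he
      have hsum : exp (-((l:ℝ) * η)) * t ^ 2 ≤
          ∑ i ∈ Finset.range (N + 1), (Icc 0 (σ i)).indicator (fun t => w i * t ^ 2) t := by
        rw [← wt_tail (fun y => exp (-y)) N η hlN, Finset.sum_mul]
        refine Finset.sum_le_sum fun i hi => ?_
        have hiN : i ≤ N := Nat.lt_succ_iff.1 (Finset.mem_range.1 hi)
        by_cases h2 : l ≤ i
        · rw [if_pos h2, indicator_of_mem (show t ∈ Icc 0 (σ i) from ⟨ht.1, hup i t ht ((hiff i hiN).2 h2)⟩)]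
        · rw [if_neg h2, zero_mul]
          exact indicator_nonneg (fun x _ => mul_nonneg (w0 i) (sq_nonneg x)) _
      have hgle : g t ≤ exp η * exp (-((l:ℝ) * η)) := by
        rcases l.eq_zero_or_pos with rfl | hpos
        · simpa using (hmem t ht).2.trans (one_le_exp hη.le)
        · have := not_le.1 fun h2 => absurd ((hiff (l - 1) (by omega)).1 h2) (by omega)
          refine this.le.trans (le_of_eq ?_)
          rw [← exp_add]; congr 1
          have : ((l - 1 : ℕ) : ℝ) = (l:ℝ) - 1 := by rw [Nat.cast_sub hpos]; simp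
          rw [this]; ring
      nlinarith [mul_le_mul_of_nonneg_left hgle (sq_nonneg t),
        mul_le_mul_of_nonneg_left hsum (exp_pos η).le]
    · push Not at he
      nlinarith [mul_le_mul_of_nonneg_right (he N le_rfl).le (sq_nonneg t),
        mul_nonneg (exp_pos η).le hsum0]
  refine (mul_le_mul_of_nonneg_left (intervalIntegral.integral_mono_on hh.le ig iS hle)
    (by norm_num)).trans_eq ?_
  rw [intervalIntegral.integral_add (IntervalIntegrable.const_mul (by
      simpa only [Finset.sum_fn] using IntervalIntegrable.sum (Finset.range (N + 1)) fun i _ => iI i) _)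
    (Continuous.intervalIntegrable (by fun_prop) _ _), intervalIntegral.integral_const_mul,
    intervalIntegral.integral_const_mul, intervalIntegral.integral_finsetSum fun i _ => iI i,
    mul_add, mul_left_comm, Finset.mul_sum]
  congr 1
  · congr 1
    refine Finset.sum_congr rfl fun i _ => ?_
    rw [intervalIntegral.integral_of_le hh.le, setIntegral_indicator measurableSet_Icc,
      show Ioc 0 h ∩ Icc 0 (σ i) = Ioc 0 (σ i) by
        ext t
        exact ⟨fun ⟨a, b⟩ => ⟨a.1, b.2⟩,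
          fun a => ⟨⟨a.1, a.2.trans (hσh i).2⟩, a.1.le, a.2⟩⟩,
      ← intervalIntegral.integral_of_le (hσh i).1, intervalIntegral.integral_const_mul, integral_pow]
    norm_num; ring
  · rw [integral_pow]; norm_num; ring

lemma level_bound {g : ℝ → ℝ} {h : ℝ} (hh : 0 < h) (hg0 : g 0 = 1)
    (hg : AntitoneOn g (Icc 0 h)) (hnn : ∀ t ∈ Icc 0 h, 0 ≤ g t) {j : ℕ} (hj : 0 < j)
    (σ : ℕ → ℝ) (hσh : ∀ i, σ i ∈ Icc 0 h) (hσmono : ∀ i, σ i ≤ σ (i + 1))
    (hσconc : ∀ i, σ (i + 2) + σ i ≤ 2 * σ (i + 1))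
    (hlow : ∀ (i : ℕ) (t : ℝ), 0 ≤ t → t < σ i → t ∈ Icc 0 h ∧ exp (-((i:ℝ) * (1 / j))) ≤ g t)
    (hup : ∀ (i : ℕ) (t : ℝ), t ∈ Icc 0 h → exp (-((i:ℝ) * (1 / j))) ≤ g t → t ≤ σ i) :
    3 * ∫ t in (0:ℝ)..h, t ^ 2 * g t ≤
      exp (4 / j) * (∫ t in (0:ℝ)..h, (g t + 0.8172 * negMulLog (g t))) ^ 3 +
        h ^ 3 * exp (-(j : ℝ)) := by
  set η : ℝ := 1 / j with hη
  set N := j * j with hN
  set R := ∫ t in (0:ℝ)..h, (g t + 0.8172 * negMulLog (g t))
  have hj' : (0:ℝ) < j := by exact_mod_cast hj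
  have hη0 : 0 < η := by positivity
  have hNη : (N:ℝ) * η = j := by rw [hη, hN]; push_cast; field_simp
  have hmem : ∀ t ∈ Icc 0 h, g t ∈ Icc (0:ℝ) 1 := fun t ht =>
    ⟨hnn t ht, hg0 ▸ hg (by simp [hh.le]) ht ht.1⟩
  set s : ℕ → ℝ := fun i => σ (min i N) with hs
  have hseq := seq_ineq N hη0 s N le_rfl (by simpa [hs] using (hσh 0).1)
    (fun i hi => by
      simp only [hs, min_eq_left hi.le, min_eq_left (show i + 1 ≤ N from hi)]; exact hσmono i)
    (fun i hi => by
      simp only [hs, min_eq_left (show i ≤ N by omega), min_eq_left (show i + 1 ≤ N by omega),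
        min_eq_left (show i + 2 ≤ N by omega)]
      exact hσconc i)
    (fun i hi => by simp [hs, min_eq_right hi])
  have hsN : ∀ i ∈ Finset.range (N + 1), s i = σ i := fun i hi => by
    simp [hs, min_eq_left (Nat.lt_succ_iff.1 (Finset.mem_range.1 hi))]
  have c1 : ∑ i ∈ Finset.range (N + 1), wt (fun y => exp (-y)) N η i * s i ^ 3 =
      ∑ i ∈ Finset.range (N + 1), wt (fun y => exp (-y)) N η i * σ i ^ 3 :=
    Finset.sum_congr rfl fun i hi => by rw [hsN i hi]
  have c2 : ∑ i ∈ Finset.range (N + 1), wt psi N η i * s i =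
      ∑ i ∈ Finset.range (N + 1), wt psi N η i * σ i :=
    Finset.sum_congr rfl fun i hi => by rw [hsN i hi]
  rw [c1, c2] at hseq
  have hlo := lower_side (N := N) hh hg hmem hη0 σ hσh hσmono hlow
  have hhi := upper_side (N := N) hh hg hmem hη0 σ hσh hσmono hup
  rw [hNη] at hhi
  set T := ∑ i ∈ Finset.range (N + 1), wt (fun y => exp (-y)) N η i * σ i ^ 3
  have hT : 0 ≤ T := Finset.sum_nonneg fun i _ => mul_nonneg
    (wt_nonneg (fun x _ y _ h => exp_le_exp.2 (by linarith)) (fun y _ => (exp_pos _).le) N hη0.le i)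
    (pow_nonneg (hσh i).1 _)
  have h3 := pow_le_pow_left₀ (rpow_nonneg hT _)
    (hseq.trans (mul_le_mul_of_nonneg_left hlo (exp_pos η).le)) 3
  rw [one_div (3:ℝ), show ((3:ℝ)⁻¹) = ((3:ℕ):ℝ)⁻¹ by norm_num,
    rpow_inv_natCast_pow hT (by norm_num), mul_pow] at h3
  refine hhi.trans (add_le_add ?_ le_rfl)
  refine (mul_le_mul_of_nonneg_left h3 (exp_pos η).le).trans_eq ?_
  rw [← mul_assoc, ← exp_nat_mul, ← exp_add, hη]
  congr 2
  push_cast; ring

/-- `3 ∫ t² g ≤ (∫ g + B ∫ negMulLog g)³` for log-concave decreasing `g` with `g 0 = 1`. -/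
lemma cube_ineq {g : ℝ → ℝ} {h : ℝ} (hh : 0 < h) (hg0 : g 0 = 1)
    (hg : AntitoneOn g (Icc 0 h)) (hnn : ∀ t ∈ Icc 0 h, 0 ≤ g t)
    (hlc : ∀ a ∈ Icc 0 h, ∀ b ∈ Icc 0 h, g a * g b ≤ g ((a + b) / 2) ^ 2) :
    3 * ∫ t in (0:ℝ)..h, t ^ 2 * g t ≤
      (∫ t in (0:ℝ)..h, (g t + 0.8172 * negMulLog (g t))) ^ 3 := by
  set R := ∫ t in (0:ℝ)..h, (g t + 0.8172 * negMulLog (g t)) with hR
  have hg1 : ∀ t ∈ Icc 0 h, g t ≤ 1 := fun t ht => hg0 ▸ hg (by simp [hh.le]) ht ht.1
  have hmem : ∀ t ∈ Icc 0 h, g t ∈ Icc (0:ℝ) 1 := fun t ht => ⟨hnn t ht, hg1 t ht⟩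
  suffices H : ∀ j : ℕ, 0 < j → 3 * ∫ t in (0:ℝ)..h, t ^ 2 * g t ≤
      exp (4 / j) * R ^ 3 + h ^ 3 * exp (-(j : ℝ)) by
    have hl : Tendsto (fun j : ℕ => exp (4 / j) * R ^ 3 + h ^ 3 * exp (-(j : ℝ))) atTop
        (𝓝 (R ^ 3)) := by
      have h1 := (continuous_exp.tendsto (0:ℝ)).comp (tendsto_const_div_atTop_nhds_zero_nat 4)
      have h2 := tendsto_exp_atBot.comp (tendsto_neg_atTop_atBot.comp tendsto_natCast_atTop_atTop)
      simpa using (h1.mul_const (R ^ 3)).add (h2.const_mul (h ^ 3))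
    exact ge_of_tendsto hl (eventually_atTop.2 ⟨1, fun j hj => H j hj⟩)
  intro j hj
  set η : ℝ := 1 / j with hη
  set N := j * j with hN
  have hj' : (0:ℝ) < j := by exact_mod_cast hj
  have hη0 : 0 < η := by positivity
  have hNη : (N:ℝ) * η = j := by rw [hη, hN]; push_cast; field_simp
  set S : ℕ → Set ℝ := fun i => {t | t ∈ Icc 0 h ∧ exp (-((i:ℝ) * η)) ≤ g t} with hS
  set σ : ℕ → ℝ := fun i => sSup (S i) with hσ
  have hSne : ∀ i, (S i).Nonempty := fun i =>
    ⟨0, by simp [hh.le], by rw [hg0]; exact exp_le_one_iff.2 (neg_nonpos.2 (by positivity))⟩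
  have hSb : ∀ i, BddAbove (S i) := fun i => ⟨h, fun t ht => ht.1.2⟩
  have hσh : ∀ i, σ i ∈ Icc 0 h := fun i => by
    refine ⟨?_, csSup_le (hSne i) fun t ht => ht.1.2⟩
    obtain ⟨t, ht⟩ := hSne i
    exact ht.1.1.trans (le_csSup (hSb i) ht)
  have hlow : ∀ i t, 0 ≤ t → t < σ i → t ∈ S i := by
    intro i t ht hts
    obtain ⟨u, hu, htu⟩ := exists_lt_of_lt_csSup (hSne i) hts
    exact ⟨⟨ht, htu.le.trans hu.1.2⟩, hu.2.trans (hg ⟨ht, htu.le.trans hu.1.2⟩ hu.1 htu.le)⟩
  have hσmono : ∀ i, σ i ≤ σ (i + 1) := fun i =>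
    csSup_le_csSup (hSb _) (hSne i) fun t ht => ⟨ht.1, le_trans (exp_le_exp.2 (by
      push_cast; nlinarith)) ht.2⟩
  have hσconc : ∀ i, σ (i + 2) + σ i ≤ 2 * σ (i + 1) := by
    intro i
    have key : ∀ a ∈ S (i + 2), ∀ b ∈ S i, a + b ≤ 2 * σ (i + 1) := by
      intro a ha b hb
      have hm : (a + b) / 2 ∈ Icc 0 h :=
        ⟨by linarith [ha.1.1, hb.1.1], by linarith [ha.1.2, hb.1.2]⟩
      have : (a + b) / 2 ∈ S (i + 1) := by
        refine ⟨hm, ?_⟩
        have h1 := (mul_le_mul ha.2 hb.2 (exp_pos _).le (hnn a ha.1)).trans (hlc a ha.1 b hb.1)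
        rw [← exp_add, show -(((i + 2 : ℕ):ℝ) * η) + -((i:ℝ) * η) =
          ((2:ℕ):ℝ) * (-(((i + 1 : ℕ):ℝ) * η)) by push_cast; ring, exp_nat_mul] at h1
        exact (pow_le_pow_iff_left₀ (exp_pos _).le (hnn _ hm) two_ne_zero).1 h1
      linarith [le_csSup (hSb _) this]
    have : ∀ b ∈ S i, σ (i + 2) ≤ 2 * σ (i + 1) - b := fun b hb =>
      csSup_le (hSne _) fun a ha => by linarith [key a ha b hb]
    have : σ i ≤ 2 * σ (i + 1) - σ (i + 2) :=
      csSup_le (hSne _) fun b hb => by linarith [this b hb]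
    linarith
  exact level_bound hh hg0 hg hnn hj σ hσh hσmono hσconc hlow (fun i t ht hge =>
    le_csSup (hSb i) ⟨ht, hge⟩)

/-- The inequality for exponent `k ≥ 2`. -/
theorem allk {f : ℝ → ℝ} {h : ℝ} (hh : 0 < h) {k : ℕ} (hk : 2 ≤ k)
    (hf : ConcaveOn ℝ (Icc 0 h) f) (hmono : AntitoneOn f (Icc 0 h))
    (h0 : ∀ t ∈ Icc (0:ℝ) h, 0 ≤ f t) (hpos : 0 < ∫ t in (0:ℝ)..h, f t ^ k) :
    (2 * ∫ t in (0:ℝ)..h, f t ^ k) ^ (k - 1) *
        (3.36 * √((∫ t in (0:ℝ)..h, t ^ 2 * f t ^ k) / ∫ t in (0:ℝ)..h, f t ^ k)) ≤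
      (2 * ∫ t in (0:ℝ)..h, f t ^ (k - 1)) ^ k := by
  have hm0 : (0:ℝ) ∈ Icc 0 h := by simp [hh.le]
  have hc : 0 < f 0 := by
    rcases (h0 0 hm0).eq_or_lt with he | hlt
    · exfalso
      refine hpos.ne' ?_
      rw [intervalIntegral.integral_congr (g := fun _ => (0:ℝ)) fun t ht => ?_]
      · simp
      · rw [uIcc_of_le hh.le] at ht
        have := le_antisymm ((hmono hm0 ht ht.1).trans_eq he.symm) (h0 t ht)
        simp [this, zero_pow (by omega : k ≠ 0)]
    · exact hlt
  set c := f 0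
  set u : ℝ → ℝ := fun t => f t / c with hu
  have hu0 : ∀ t ∈ Icc 0 h, 0 ≤ u t := fun t ht => div_nonneg (h0 t ht) hc.le
  have humono : AntitoneOn u (Icc 0 h) := fun a ha b hb hab =>
    div_le_div_of_nonneg_right (hmono ha hb hab) hc.le
  set g : ℝ → ℝ := fun t => u t ^ k with hg
  have hganti : AntitoneOn g (Icc 0 h) := fun a ha b hb hab =>
    pow_le_pow_left₀ (hu0 b hb) (humono ha hb hab) k
  have hg0 : g 0 = 1 := by simp only [hg, hu]; rw [div_self hc.ne', one_pow]
  have hgnn : ∀ t ∈ Icc 0 h, 0 ≤ g t := fun t ht => pow_nonneg (hu0 t ht) k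
  have hgmem : ∀ t ∈ Icc 0 h, g t ∈ Icc (0:ℝ) 1 := fun t ht =>
    ⟨hgnn t ht, hg0 ▸ hganti hm0 ht ht.1⟩
  have hlc : ∀ a ∈ Icc 0 h, ∀ b ∈ Icc 0 h, g a * g b ≤ g ((a + b) / 2) ^ 2 := by
    intro a ha b hb
    simp only [hg]
    rw [← mul_pow, ← pow_mul, mul_comm k 2, pow_mul]
    refine pow_le_pow_left₀ (mul_nonneg (hu0 a ha) (hu0 b hb)) ?_ k
    have hf2 := hf.2
    have hmid := hf2 ha hb (a := 1/2) (b := 1/2) (by norm_num) (by norm_num) (by norm_num)
    simp only [smul_eq_mul] at hmid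
    rw [show (1/2:ℝ) * a + 1/2 * b = (a + b) / 2 by ring] at hmid
    have h2 : (u a + u b) / 2 ≤ u ((a + b) / 2) := by
      simp only [hu]; rw [← add_div, div_div, le_div_iff₀ hc, div_mul_eq_mul_div,
        div_le_iff₀ (by positivity)]
      nlinarith
    calc u a * u b ≤ ((u a + u b) / 2) ^ 2 := by nlinarith [sq_nonneg (u a - u b)]
      _ ≤ _ := pow_le_pow_left₀ (by linarith [hu0 a ha, hu0 b hb]) h2 2
  have ig : IntervalIntegrable g volume 0 h :=
    (hganti.mono (by rw [uIcc_of_le hh.le])).intervalIntegrable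
  have iG : IntervalIntegrable (fun t => g t + 0.8172 * negMulLog (g t)) volume 0 h := by
    refine AntitoneOn.intervalIntegrable fun a ha b hb hab => ?_
    rw [uIcc_of_le hh.le] at ha hb
    exact gain_mono (hgmem b hb) (hgmem a ha) (hganti ha hb hab)
  have iH : IntervalIntegrable (fun t => negMulLog (g t)) volume 0 h := by
    have := (iG.sub ig).const_mul (1 / 0.8172)
    convert this using 1
    funext t; ring
  have ij : IntervalIntegrable (fun t => u t ^ (k - 1)) volume 0 h := by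
    refine AntitoneOn.intervalIntegrable fun a ha b hb hab => ?_
    rw [uIcc_of_le hh.le] at ha hb
    exact pow_le_pow_left₀ (hu0 b hb) (humono ha hb hab) _
  set V := ∫ t in (0:ℝ)..h, g t
  set H := ∫ t in (0:ℝ)..h, negMulLog (g t)
  set J := ∫ t in (0:ℝ)..h, u t ^ (k - 1)
  set M := ∫ t in (0:ℝ)..h, t ^ 2 * g t
  have eV : ∫ t in (0:ℝ)..h, f t ^ k = c ^ k * V := by
    rw [← intervalIntegral.integral_const_mul]
    exact intervalIntegral.integral_congr fun t _ => by
      simp only [hg, hu, div_pow]; field_simp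
  have eM : ∫ t in (0:ℝ)..h, t ^ 2 * f t ^ k = c ^ k * M := by
    rw [← intervalIntegral.integral_const_mul]
    exact intervalIntegral.integral_congr fun t _ => by
      simp only [hg, hu, div_pow]; field_simp
  have eJ : ∫ t in (0:ℝ)..h, f t ^ (k - 1) = c ^ (k - 1) * J := by
    rw [← intervalIntegral.integral_const_mul]
    exact intervalIntegral.integral_congr fun t _ => by
      simp only [hu, div_pow]; field_simp
  have hV : 0 < V := by
    rw [eV] at hpos
    exact (mul_pos_iff_of_pos_left (pow_pos hc k)).1 hpos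
  have hH : 0 ≤ H := intervalIntegral.integral_nonneg hh.le fun t ht =>
    negMulLog_nonneg (hgmem t ht).1 (hgmem t ht).2
  set r := H / V with hr
  have hr0 : 0 ≤ r := div_nonneg hH hV.le
  have hHr : H = r * V := (div_mul_cancel₀ H hV.ne').symm
  have hk0 : (0:ℝ) < k := by exact_mod_cast (by omega : 0 < k)
  -- `J^k ≥ e^r V^k`
  have hJ : exp (r / k) * V ≤ J := by
    have hpt : ∀ t ∈ Icc 0 h,
        exp (r / k) * ((1 - r / k) * g t + negMulLog (g t) / k) ≤ u t ^ (k - 1) := by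
      intro t ht
      rcases (hu0 t ht).eq_or_lt with he | hlt
      · simp [hg, ← he, zero_pow (by omega : k ≠ 0), zero_pow (by omega : k - 1 ≠ 0)]
      · have hx := mul_le_mul_of_nonneg_left (add_one_le_exp (-log (u t) - r / k)) (exp_pos (r / k)).le
        rw [← exp_add, show r / k + (-log (u t) - r / k) = -log (u t) by ring, exp_neg,
          exp_log hlt] at hx
        have := mul_le_mul_of_nonneg_left hx (pow_nonneg hlt.le k)
        calc exp (r / k) * ((1 - r / k) * g t + negMulLog (g t) / k)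
            = u t ^ k * (exp (r / k) * (-log (u t) - r / k + 1)) := by
              simp only [hg, negMulLog, log_pow]; field_simp; ring
          _ ≤ u t ^ k * (u t)⁻¹ := this
          _ = u t ^ (k - 1) := by
              rw [← div_eq_mul_inv, div_eq_iff hlt.ne', ← pow_succ, show k - 1 + 1 = k by omega]
    have := intervalIntegral.integral_mono_on hh.le
      (((ig.const_mul (1 - r / k)).add (iH.div_const (k:ℝ))).const_mul (exp (r / k))) ij hpt
    rw [intervalIntegral.integral_const_mul,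
      intervalIntegral.integral_add (ig.const_mul _) (iH.div_const _),
      intervalIntegral.integral_const_mul, intervalIntegral.integral_div] at this
    rwa [show (1 - r / k) * V + H / k = V by rw [hHr]; field_simp; ring] at this
  have hJk : exp r * V ^ k ≤ J ^ k := by
    have := pow_le_pow_left₀ (by positivity) hJ k
    rwa [mul_pow, ← exp_nat_mul, mul_div_cancel₀ _ hk0.ne'] at this
  -- `3M ≤ K³ V³ e^{2r}`
  have hcube := cube_ineq hh hg0 hganti hgnn hlc
  rw [intervalIntegral.integral_add ig (iH.const_mul _), intervalIntegral.integral_const_mul] at hcube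
  have hline : 1 + 0.8172 * r ≤ 1.0197 * exp (2 * r / 3) := by
    have hu1 : 1.2022 ≤ exp 0.1842 := by
      have := Real.sum_le_exp_of_nonneg (show (0:ℝ) ≤ 0.1842 by norm_num) 4
      norm_num [Finset.sum_range_succ, Nat.factorial] at this ⊢
      linarith
    have hx := mul_le_mul_of_nonneg_left (add_one_le_exp (2 * r / 3 - 0.1842)) (exp_pos 0.1842).le
    rw [← exp_add, add_sub_cancel] at hx
    have h3 : 1.2022 * (2 * r / 3 - 0.1842 + 1) ≤ exp (2 * r / 3) := by
      refine le_trans (mul_le_mul_of_nonneg_right hu1 ?_) hx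
      norm_num; linarith
    norm_num at h3 ⊢
    linarith
  have hM : 3 * M ≤ 1.0197 ^ 3 * V ^ 3 * exp r ^ 2 := by
    refine hcube.trans ((pow_le_pow_left₀ (by positivity) (show V + 0.8172 * H ≤
      1.0197 * exp (2 * r / 3) * V by rw [hHr]; nlinarith) 3).trans_eq ?_)
    rw [mul_pow, mul_pow, ← exp_nat_mul, ← exp_nat_mul]
    rw [show ((3:ℕ):ℝ) * (2 * r / 3) = ((2:ℕ):ℝ) * r by push_cast; ring]
    ring
  have hsq : 3.36 * √(M / V) ≤ 2 * V * exp r := by
    have h1 : √(M / V) ≤ (2 * V * exp r) / 3.36 := by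
      rw [Real.sqrt_le_iff]
      refine ⟨by positivity, ?_⟩
      rw [div_le_iff₀ hV, div_pow]
      have : 0 ≤ V ^ 3 * exp r ^ 2 := by positivity
      norm_num at hM ⊢
      nlinarith
    calc 3.36 * √(M / V) ≤ 3.36 * ((2 * V * exp r) / 3.36) :=
          mul_le_mul_of_nonneg_left h1 (by norm_num)
      _ = _ := mul_div_cancel₀ _ (by norm_num)
  rw [eV, eM, eJ, mul_div_mul_left _ _ (pow_ne_zero k hc.ne')]
  calc (2 * (c ^ k * V)) ^ (k - 1) * (3.36 * √(M / V))
      ≤ (2 * (c ^ k * V)) ^ (k - 1) * (2 * V * exp r) :=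
        mul_le_mul_of_nonneg_left hsq (by positivity)
    _ = (c ^ (k - 1)) ^ k * (2 ^ k * (exp r * V ^ k)) := by
        rw [mul_pow, mul_pow, ← pow_mul, ← pow_mul, mul_comm (k - 1) k]
        obtain ⟨m, rfl⟩ : ∃ m, k = m + 1 := ⟨k - 1, by omega⟩
        rw [Nat.add_sub_cancel, pow_succ 2 m, pow_succ V m]
        ring
    _ ≤ (c ^ (k - 1)) ^ k * (2 ^ k * J ^ k) := by gcongr
    _ = _ := by rw [mul_pow, mul_pow]; ring

end Vale.Agent.P237.AllK
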