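import Mathlib

/-!
# P237: one-dimensional inequality for exponent 2

For `f ≥ 0` concave and decreasing on `[0,h]`:
`0.879 h ∫ f² + 1.94 √(∫ f² ∫ t² f²) ≤ 2 (∫ f)²`.
-/

open MeasureTheory Set Real Filter Topology intervalIntegral

namespace Vale.Agent.P237.Two

noncomputable def U (p : ℝ) := 0.57736 + 0.42264 * p + 0.1545 * (p * (1 - p))
noncomputable def W (p : ℝ) := 0.18258 + 0.39478 * p - 0.1824 * (p * (1 - p))
noncomputable def cA (a : ℝ) : ℝ := (293/2000)*a^0 + (-226004859/2500000000)*a^1 + (-1952880339/50000000000)*a^2 + (1708461/31250000)*a^3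
noncomputable def dA (a : ℝ) : ℝ := (-189594443/62500000000)*a^0 + (-2368990639/125000000000)*a^1 + (5858641017/50000000000)*a^2 + (-1708461/15625000)*a^3
noncomputable def sA (a : ℝ) : ℝ := (72/78125)*a^0 + (189594443/31250000000)*a^1 + (2368990639/125000000000)*a^2 + (-1952880339/25000000000)*a^3 + (1708461/31250000)*a^4
lemma cpos (a : ℝ) (h0 : 0 ≤ a) (h1 : a ≤ 1) : 0.07 ≤ cA a := by
  unfold cA
  nlinarith [mul_nonneg h0 (sub_nonneg.2 h1), mul_nonneg (mul_nonneg h0 (sub_nonneg.2 h1)) h0, sq_nonneg (a - 1/2), mul_nonneg (sq_nonneg (a-1)) h0]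
lemma spos (a : ℝ) (h0 : 0 ≤ a) (h1 : a ≤ 1) : 0.00028 ≤ sA a := by
  unfold sA
  nlinarith [sq_nonneg (a - 0.815), mul_nonneg (sq_nonneg (a-0.815)) h0, mul_nonneg (sq_nonneg (a-0.815)) (sq_nonneg a), mul_nonneg (sq_nonneg (a-0.815)) (sub_nonneg.2 h1)]
lemma dsmall (a : ℝ) (h0 : 0 ≤ a) (h1 : a ≤ 0.85) : |dA a| ≤ 0.0045 := by
  rw [abs_le]; unfold dA
  constructor <;> nlinarith [sq_nonneg (a - 0.1), sq_nonneg (a-0.65), mul_nonneg (sq_nonneg (a-0.1)) h0, mul_nonneg (sq_nonneg (a-0.65)) h0, mul_nonneg h0 (sub_nonneg.2 h1), mul_nonneg (sq_nonneg (a-0.1)) (sub_nonneg.2 h1),mul_nonneg (sq_nonneg (a-0.65)) (sub_nonneg.2 h1)]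
lemma dmid (a : ℝ) (h0 : 0.85 ≤ a) (h1 : a ≤ 0.95) : |dA a| ≤ 0.0092 ∧ (0.9 ≤ a → 0.00063 ≤ sA a) ∧ (a ≤ 0.9 → |dA a| ≤ 0.005) := by
  rw [abs_le, abs_le]; unfold dA sA
  refine ⟨⟨?_,?_⟩,fun h => ?_,fun h => ⟨?_,?_⟩⟩ <;> nlinarith [mul_nonneg (sub_nonneg.2 h0) (sub_nonneg.2 h1), sq_nonneg (a-0.9), mul_nonneg (sq_nonneg (a-0.9)) (sub_nonneg.2 h1)]
lemma dhigh (a : ℝ) (h0 : 0.95 ≤ a) (h1 : a ≤ 1) : |dA a| ≤ 0.0143 ∧ 0.0013 ≤ sA a := by
  rw [abs_le]; unfold dA sA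
  refine ⟨⟨?_,?_⟩,?_⟩ <;> nlinarith [mul_nonneg (sub_nonneg.2 h0) (sub_nonneg.2 h1), sq_nonneg (a-0.95), mul_nonneg (sq_nonneg (a-0.95)) (sub_nonneg.2 h1)]
lemma disc (a : ℝ) (h0 : 0 ≤ a) (h1 : a ≤ 1) : a * dA a ^ 2 ≤ 4 * cA a * sA a := by
  have hc := cpos a h0 h1
  have hs := spos a h0 h1
  have hb : ∀ B A S : ℝ, |dA a| ≤ B → a ≤ A → S ≤ sA a → 0 ≤ S → A * B ^ 2 ≤ 4 * 0.07 * S → a * dA a ^ 2 ≤ 4 * cA a * sA a := by
    intro B A S hB hA hS hS0 h
    calc a * dA a ^ 2 = a * |dA a| ^ 2 := by rw [sq_abs]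
      _ ≤ A * B ^ 2 := by gcongr; linarith
      _ ≤ 4 * 0.07 * S := h
      _ ≤ _ := by gcongr
  rcases le_total a 0.85 with h | h
  · exact hb _ _ _ (dsmall a h0 h) h hs (by norm_num) (by norm_num)
  rcases le_total a 0.95 with g | g
  · obtain ⟨e1, e2, e3⟩ := dmid a h g
    rcases le_total a 0.9 with k | k
    · exact hb _ _ _ (e3 k) k hs (by norm_num) (by norm_num)
    · exact hb _ _ _ e1 g (e2 k) (by norm_num) (by norm_num)
  · obtain ⟨e1, e2⟩ := dhigh a g h1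
    exact hb _ _ _ e1 h1 e2 (by norm_num) (by norm_num)
lemma pair (a s : ℝ) (ha : 0 ≤ a) (ha1 : a ≤ 1) :
    0.97 * (U (1-a) * W (1-s*a) + U (1-s*a) * W (1-a)) + 0.879 * (1 - a/2 - s^2*a/6) ≤ (2-a)*(2-s*a)/2 := by
  have h1 := cpos a ha ha1
  have h2 := disc a ha ha1
  have key : (2-a)*(2-s*a)/2 - (0.97 * (U (1-a) * W (1-s*a) + U (1-s*a) * W (1-a)) + 0.879 * (1 - a/2 - s^2*a/6)) = sA a + a*dA a*(1-s) + a*cA a*(1-s)^2 := by
    unfold U W sA dA cA; ring
  have : 0 ≤ 4*cA a*(sA a + a*dA a*(1-s) + a*cA a*(1-s)^2) := by nlinarith [mul_nonneg ha (sq_nonneg (2*cA a*(1-s)+dA a))]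
  nlinarith


lemma le_U (p : ℝ) (h0 : 0 ≤ p) (h1 : p ≤ 1) : (1 + 2 * p) / 3 ≤ U p ^ 2 := by
  unfold U; nlinarith [mul_nonneg h0 (sub_nonneg.2 h1),
    mul_nonneg (mul_nonneg h0 (sub_nonneg.2 h1)) (mul_nonneg h0 (sub_nonneg.2 h1)),
    sq_nonneg p, sq_nonneg (p-1)]

lemma le_W (p : ℝ) (h0 : 0 ≤ p) (h1 : p ≤ 1) :
    1/30 + p/15 + p^2/10 + 2*p^3/15 ≤ W p ^ 2 := by
  unfold W; nlinarith [mul_nonneg h0 (sub_nonneg.2 h1),
    mul_nonneg (mul_nonneg h0 (sub_nonneg.2 h1)) (mul_nonneg h0 (sub_nonneg.2 h1)),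
    sq_nonneg p, sq_nonneg (p-1)]

lemma U_nonneg (p : ℝ) (h0 : 0 ≤ p) (h1 : p ≤ 1) : 0 ≤ U p := by
  unfold U; nlinarith [mul_nonneg h0 (sub_nonneg.2 h1)]

lemma W_nonneg (p : ℝ) (h0 : 0 ≤ p) (h1 : p ≤ 1) : 0 ≤ W p := by
  unfold W; nlinarith [mul_nonneg h0 (sub_nonneg.2 h1)]

/-- Truncated cone profile. -/
noncomputable def ray (p t : ℝ) : ℝ := 1 - max t p

lemma continuous_ray (p : ℝ) : Continuous (ray p) := by unfold ray; fun_prop

lemma integral_quartic (a b c0 c1 c2 c3 c4 : ℝ) :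
    ∫ t in a..b, (c0 + c1 * t + c2 * t ^ 2 + c3 * t ^ 3 + c4 * t ^ 4) =
      (c0 * b + c1 * b ^ 2 / 2 + c2 * b ^ 3 / 3 + c3 * b ^ 4 / 4 + c4 * b ^ 5 / 5) -
      (c0 * a + c1 * a ^ 2 / 2 + c2 * a ^ 3 / 3 + c3 * a ^ 4 / 4 + c4 * a ^ 5 / 5) := by
  refine integral_eq_sub_of_hasDerivAt
    (f := fun t => c0 * t + c1 * t ^ 2 / 2 + c2 * t ^ 3 / 3 + c3 * t ^ 4 / 4 + c4 * t ^ 5 / 5)
    (fun t _ => ?_) (Continuous.intervalIntegrable (by fun_prop) _ _)
  refine HasDerivAt.congr_deriv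
    ((((((hasDerivAt_id' t).const_mul c0).add (((hasDerivAt_pow 2 t).const_mul c1).div_const 2)).add
      (((hasDerivAt_pow 3 t).const_mul c2).div_const 3)).add
      (((hasDerivAt_pow 4 t).const_mul c3).div_const 4)).add
      (((hasDerivAt_pow 5 t).const_mul c4).div_const 5)) ?_
  push_cast; ring

lemma integral_ray {p : ℝ} (h0 : 0 ≤ p) (h1 : p ≤ 1) :
    ∫ t in (0:ℝ)..1, ray p t = (1 - p) * (1 + p) / 2 := by
  have hi : ∀ a b : ℝ, IntervalIntegrable (ray p) volume a b := fun a b =>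
    (continuous_ray p).intervalIntegrable a b
  rw [← integral_add_adjacent_intervals (hi 0 p) (hi p 1)]
  rw [integral_congr (g := fun _ => 1 - p) (a := 0) (b := p) (fun t ht => by
      rw [uIcc_of_le h0] at ht; simp [ray, max_eq_right ht.2]),
    integral_congr (g := fun t => 1 + (-1) * t + 0 * t ^ 2 + 0 * t ^ 3 + 0 * t ^ 4) (a := p) (b := 1)
      (fun t ht => by rw [uIcc_of_le h1] at ht; simp [ray, max_eq_left ht.1]; ring), integral_quartic]
  simp
  ring

lemma integral_ray_mul {p r : ℝ} (h0 : 0 ≤ p) (h : p ≤ r) (h1 : r ≤ 1) :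
    ∫ t in (0:ℝ)..1, ray p t * ray r t =
      (1 - r) * ((1 - p) - (1 - p) ^ 2 / 2 - (1 - r) ^ 2 / 6) := by
  have hi : ∀ a b : ℝ, IntervalIntegrable (fun t => ray p t * ray r t) volume a b := fun a b =>
    ((continuous_ray p).mul (continuous_ray r)).intervalIntegrable a b
  rw [← integral_add_adjacent_intervals (hi 0 r) (hi r 1),
    ← integral_add_adjacent_intervals (hi 0 p) (hi p r)]
  rw [integral_congr (g := fun _ => (1 - p) * (1 - r)) (a := 0) (b := p) (fun t ht => by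
      rw [uIcc_of_le h0] at ht; simp [ray, max_eq_right ht.2, max_eq_right (ht.2.trans h)]),
    integral_congr (g := fun t => (1 - r) + (r - 1) * t + 0 * t ^ 2 + 0 * t ^ 3 + 0 * t ^ 4) (a := p) (b := r)
      (fun t ht => by rw [uIcc_of_le h] at ht; simp [ray, max_eq_left ht.1, max_eq_right ht.2]; ring),
    integral_congr (g := fun t => 1 + (-2) * t + 1 * t ^ 2 + 0 * t ^ 3 + 0 * t ^ 4) (a := r) (b := 1)
      (fun t ht => by
        rw [uIcc_of_le h1] at ht; simp [ray, max_eq_left ht.1, max_eq_left (h.trans ht.1)]; ring),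
    integral_quartic, integral_quartic]
  simp
  ring

lemma integral_sq_ray {p : ℝ} (h0 : 0 ≤ p) (h1 : p ≤ 1) :
    ∫ t in (0:ℝ)..1, t ^ 2 * ray p t ^ 2 =
      (1 - p) ^ 2 * (1/30 + p/15 + p^2/10 + 2*p^3/15) := by
  have hi : ∀ a b : ℝ, IntervalIntegrable (fun t => t ^ 2 * ray p t ^ 2) volume a b := fun a b =>
    ((continuous_pow 2).mul ((continuous_ray p).pow 2)).intervalIntegrable a b
  rw [← integral_add_adjacent_intervals (hi 0 p) (hi p 1)]
  rw [integral_congr (g := fun t => (1 - p) ^ 2 * t ^ 2) (a := 0) (b := p) (fun t ht => by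
      rw [uIcc_of_le h0] at ht; simp [ray, max_eq_right ht.2]; ring),
    integral_congr (g := fun t => 0 + 0 * t + 1 * t ^ 2 + (-2) * t ^ 3 + 1 * t ^ 4) (a := p) (b := 1) (fun t ht => by
      rw [uIcc_of_le h1] at ht; simp [ray, max_eq_left ht.1]; ring), integral_quartic]
  simp
  ring

/-- Cauchy–Schwarz on an interval. -/
lemma cs {f g : ℝ → ℝ} (hf : Continuous f) (hg : Continuous g) {A B : ℝ} (hA : 0 ≤ A)
    (hB : 0 ≤ B) (h1 : ∫ t in (0:ℝ)..1, f t ^ 2 ≤ A ^ 2)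
    (h2 : ∫ t in (0:ℝ)..1, g t ^ 2 ≤ B ^ 2) : ∫ t in (0:ℝ)..1, f t * g t ≤ A * B := by
  refine le_of_forall_pos_le_add fun ε hε => ?_
  set d := min 1 (ε / (A + B + 1)) with hd
  have hd0 : 0 < d := lt_min one_pos (by positivity)
  have hA' : 0 < A + d := by linarith
  have hB' : 0 < B + d := by linarith
  have hpt : ∀ t ∈ Icc (0:ℝ) 1, f t * g t ≤
      (B + d) / (2 * (A + d)) * f t ^ 2 + (A + d) / (2 * (B + d)) * g t ^ 2 := by
    intro t _
    have : 0 ≤ ((B + d) * f t - (A + d) * g t) ^ 2 := sq_nonneg _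
    rw [div_mul_eq_mul_div, div_mul_eq_mul_div, div_add_div _ _ (by positivity) (by positivity),
      le_div_iff₀ (by positivity)]
    nlinarith
  refine (integral_mono_on zero_le_one ((hf.mul hg).intervalIntegrable _ _)
    (by exact Continuous.intervalIntegrable (by fun_prop) _ _) hpt).trans ?_
  rw [intervalIntegral.integral_add (Continuous.intervalIntegrable (by fun_prop) _ _)
    (Continuous.intervalIntegrable (by fun_prop) _ _), intervalIntegral.integral_const_mul,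
    intervalIntegral.integral_const_mul]
  have e1 : (B + d) / (2 * (A + d)) * ∫ t in (0:ℝ)..1, f t ^ 2 ≤ (B + d) * (A + d) / 2 := by
    calc _ ≤ (B + d) / (2 * (A + d)) * (A + d) ^ 2 :=
          mul_le_mul_of_nonneg_left (h1.trans (by gcongr; linarith)) (by positivity)
      _ = _ := by field_simp
  have e2 : (A + d) / (2 * (B + d)) * ∫ t in (0:ℝ)..1, g t ^ 2 ≤ (B + d) * (A + d) / 2 := by
    calc _ ≤ (A + d) / (2 * (B + d)) * (B + d) ^ 2 :=
          mul_le_mul_of_nonneg_left (h2.trans (by gcongr; linarith)) (by positivity)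
      _ = _ := by field_simp
  have e3 : d * (A + B + 1) ≤ ε := by
    calc d * (A + B + 1) ≤ ε / (A + B + 1) * (A + B + 1) := by gcongr; exact min_le_right _ _
      _ = ε := div_mul_cancel₀ _ (by positivity)
  nlinarith [min_le_left (1:ℝ) (ε / (A + B + 1))]

lemma bilinear {p r : ℝ} (h0 : 0 ≤ p) (hp : p < 1) (h : p ≤ r) (h1 : r ≤ 1) :
    0.879 * ∫ t in (0:ℝ)..1, ray p t * ray r t ≤
      2 * (∫ t in (0:ℝ)..1, ray p t) * (∫ t in (0:ℝ)..1, ray r t) -
      0.97 * ((1 - p) * U p * ((1 - r) * W r) + (1 - r) * U r * ((1 - p) * W p)) := by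
  rw [integral_ray_mul h0 h h1, integral_ray h0 hp.le, integral_ray (h0.trans h) h1]
  have ha : 0 < 1 - p := by linarith
  have := pair (1 - p) ((1 - r) / (1 - p)) ha.le (by linarith)
  rw [div_mul_cancel₀ _ ha.ne', sub_sub_cancel, sub_sub_cancel] at this
  have e : ((1 - r) / (1 - p)) ^ 2 * (1 - p) = (1 - r) ^ 2 / (1 - p) := by
    field_simp
  rw [e] at this
  have h2 := mul_le_mul_of_nonneg_left this (mul_nonneg (sub_nonneg.2 h1) ha.le)
  have e2 : (1 - p) * ((1 - r) ^ 2 / (1 - p)) = (1 - r) ^ 2 := by field_simp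
  nlinarith [h2, e2]

/-- The inequality for nonnegative combinations of rays. -/
lemma mixture {ι : Type} (s : Finset ι) (μ : ι → ℝ) (x : ι → ℝ) (hμ : ∀ i ∈ s, 0 ≤ μ i)
    (hx : ∀ i ∈ s, x i ∈ Ico (0:ℝ) 1) :
    0.879 * (∫ t in (0:ℝ)..1, (∑ i ∈ s, μ i * ray (x i) t) ^ 2) +
      1.94 * √((∫ t in (0:ℝ)..1, (∑ i ∈ s, μ i * ray (x i) t) ^ 2) *
        (∫ t in (0:ℝ)..1, t ^ 2 * (∑ i ∈ s, μ i * ray (x i) t) ^ 2)) ≤
      2 * (∫ t in (0:ℝ)..1, ∑ i ∈ s, μ i * ray (x i) t) ^ 2 := by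
  set u : ι → ℝ := fun i => (1 - x i) * U (x i) with hu
  set w : ι → ℝ := fun i => (1 - x i) * W (x i) with hw
  have hu0 : ∀ i ∈ s, 0 ≤ u i := fun i hi =>
    mul_nonneg (by linarith [(hx i hi).2]) (U_nonneg _ (hx i hi).1 (hx i hi).2.le)
  have hw0 : ∀ i ∈ s, 0 ≤ w i := fun i hi =>
    mul_nonneg (by linarith [(hx i hi).2]) (W_nonneg _ (hx i hi).1 (hx i hi).2.le)
  have expand : ∀ (φ : ℝ → ℝ), Continuous φ →
      ∫ t in (0:ℝ)..1, φ t * (∑ i ∈ s, μ i * ray (x i) t) ^ 2 =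
        ∑ i ∈ s, ∑ j ∈ s, μ i * μ j * ∫ t in (0:ℝ)..1, φ t * (ray (x i) t * ray (x j) t) := by
    intro φ hφ
    rw [integral_congr (g := fun t => ∑ i ∈ s, ∑ j ∈ s,
      φ t * (μ i * ray (x i) t * (μ j * ray (x j) t)))
      (fun t _ => by rw [sq, Finset.sum_mul_sum, Finset.mul_sum]; simp only [Finset.mul_sum])]
    have hc : ∀ i j, Continuous fun t => φ t * (μ i * ray (x i) t * (μ j * ray (x j) t)) :=
      fun i j => hφ.mul ((continuous_const.mul (continuous_ray _)).mul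
        (continuous_const.mul (continuous_ray _)))
    rw [intervalIntegral.integral_finsetSum fun i _ =>
      (continuous_finsetSum s fun j _ => hc i j).intervalIntegrable _ _]
    refine Finset.sum_congr rfl fun i _ => ?_
    rw [intervalIntegral.integral_finsetSum fun j _ => (hc i j).intervalIntegrable _ _]
    refine Finset.sum_congr rfl fun j _ => ?_
    rw [← intervalIntegral.integral_const_mul]
    exact integral_congr fun t _ => by ring
  have hQ : ∫ t in (0:ℝ)..1, (∑ i ∈ s, μ i * ray (x i) t) ^ 2 =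
      ∑ i ∈ s, ∑ j ∈ s, μ i * μ j * ∫ t in (0:ℝ)..1, ray (x i) t * ray (x j) t := by
    simpa using expand (fun _ => 1) continuous_const
  have hM := expand (fun t => t ^ 2) (continuous_pow 2)
  have hI : ∫ t in (0:ℝ)..1, ∑ i ∈ s, μ i * ray (x i) t =
      ∑ i ∈ s, μ i * ∫ t in (0:ℝ)..1, ray (x i) t := by
    rw [intervalIntegral.integral_finsetSum (f := fun i t => μ i * ray (x i) t) fun i _ =>
      (continuous_const.mul (continuous_ray _)).intervalIntegrable _ _]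
    simp only [intervalIntegral.integral_const_mul]
  have huu : ∀ i ∈ s, ∫ t in (0:ℝ)..1, ray (x i) t ^ 2 ≤ u i ^ 2 := by
    intro i hi
    simp only [sq (ray (x i) _), integral_ray_mul (hx i hi).1 le_rfl (hx i hi).2.le]
    have := mul_le_mul_of_nonneg_left (le_U _ (hx i hi).1 (hx i hi).2.le) (sq_nonneg (1 - x i))
    simp only [hu, mul_pow]
    nlinarith
  have hww : ∀ i ∈ s, ∫ t in (0:ℝ)..1, (t * ray (x i) t) ^ 2 ≤ w i ^ 2 := by
    intro i hi
    simp only [mul_pow, integral_sq_ray (hx i hi).1 (hx i hi).2.le, hw]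
    exact mul_le_mul_of_nonneg_left (le_W _ (hx i hi).1 (hx i hi).2.le) (sq_nonneg _)
  have bQ : ∫ t in (0:ℝ)..1, (∑ i ∈ s, μ i * ray (x i) t) ^ 2 ≤ (∑ i ∈ s, μ i * u i) ^ 2 := by
    rw [hQ, sq, Finset.sum_mul_sum]
    refine Finset.sum_le_sum fun i hi => Finset.sum_le_sum fun j hj => ?_
    rw [show μ i * u i * (μ j * u j) = μ i * μ j * (u i * u j) by ring]
    exact mul_le_mul_of_nonneg_left (cs (continuous_ray _) (continuous_ray _) (hu0 i hi) (hu0 j hj)
      (huu i hi) (huu j hj)) (mul_nonneg (hμ i hi) (hμ j hj))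
  have bM : ∫ t in (0:ℝ)..1, t ^ 2 * (∑ i ∈ s, μ i * ray (x i) t) ^ 2 ≤
      (∑ i ∈ s, μ i * w i) ^ 2 := by
    rw [hM, sq, Finset.sum_mul_sum]
    refine Finset.sum_le_sum fun i hi => Finset.sum_le_sum fun j hj => ?_
    rw [show μ i * w i * (μ j * w j) = μ i * μ j * (w i * w j) by ring]
    refine mul_le_mul_of_nonneg_left ?_ (mul_nonneg (hμ i hi) (hμ j hj))
    refine le_of_eq_of_le (integral_congr fun t _ => by ring)
      (cs (f := fun t => t * ray (x i) t) (g := fun t => t * ray (x j) t)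
        (continuous_id.mul (continuous_ray _)) (continuous_id.mul (continuous_ray _))
        (hw0 i hi) (hw0 j hj) (hww i hi) (hww j hj))
  have key : 0.879 * (∫ t in (0:ℝ)..1, (∑ i ∈ s, μ i * ray (x i) t) ^ 2) +
      1.94 * ((∑ i ∈ s, μ i * u i) * (∑ i ∈ s, μ i * w i)) ≤
      2 * (∫ t in (0:ℝ)..1, ∑ i ∈ s, μ i * ray (x i) t) ^ 2 := by
    rw [hQ, hI, sq, Finset.sum_mul_sum, Finset.sum_mul_sum]
    have sym : ∑ i ∈ s, ∑ j ∈ s, μ i * u i * (μ j * w j) =
        ∑ i ∈ s, ∑ j ∈ s, μ i * μ j * ((u i * w j + u j * w i) / 2) := by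
      have : ∑ i ∈ s, ∑ j ∈ s, μ i * u i * (μ j * w j) =
          ∑ i ∈ s, ∑ j ∈ s, μ j * u j * (μ i * w i) := Finset.sum_comm
      have h2 : ∑ i ∈ s, ∑ j ∈ s, μ i * μ j * ((u i * w j + u j * w i) / 2) =
          (∑ i ∈ s, ∑ j ∈ s, μ i * u i * (μ j * w j) +
            ∑ i ∈ s, ∑ j ∈ s, μ j * u j * (μ i * w i)) / 2 := by
        rw [← Finset.sum_add_distrib, Finset.sum_div]
        refine Finset.sum_congr rfl fun i _ => ?_
        rw [← Finset.sum_add_distrib, Finset.sum_div]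
        exact Finset.sum_congr rfl fun j _ => by ring
      linarith
    rw [sym, Finset.mul_sum, Finset.mul_sum, Finset.mul_sum, ← Finset.sum_add_distrib]
    refine Finset.sum_le_sum fun i hi => ?_
    rw [Finset.mul_sum, Finset.mul_sum, Finset.mul_sum, ← Finset.sum_add_distrib]
    refine Finset.sum_le_sum fun j hj => ?_
    have hb : 0.879 * ∫ t in (0:ℝ)..1, ray (x i) t * ray (x j) t ≤
        2 * (∫ t in (0:ℝ)..1, ray (x i) t) * (∫ t in (0:ℝ)..1, ray (x j) t) -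
        0.97 * (u i * w j + u j * w i) := by
      rcases le_total (x i) (x j) with h | h
      · exact bilinear (hx i hi).1 (hx i hi).2 h (hx j hj).2.le
      · have := bilinear (hx j hj).1 (hx j hj).2 h (hx i hi).2.le
        rw [integral_congr (g := fun t => ray (x i) t * ray (x j) t)
          (fun t _ => mul_comm _ _)] at this
        linarith
    nlinarith [mul_le_mul_of_nonneg_left hb (mul_nonneg (hμ i hi) (hμ j hj))]
  refine le_trans ?_ key
  gcongr
  rw [Real.sqrt_le_iff]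
  refine ⟨mul_nonneg (Finset.sum_nonneg fun i hi => mul_nonneg (hμ i hi) (hu0 i hi))
    (Finset.sum_nonneg fun i hi => mul_nonneg (hμ i hi) (hw0 i hi)), ?_⟩
  rw [mul_pow]
  gcongr
  exact intervalIntegral.integral_nonneg zero_le_one fun t _ => by positivity

lemma two_unit {f : ℝ → ℝ} (hf : ConcaveOn ℝ (Icc 0 1) f) (hmono : AntitoneOn f (Icc 0 1))
    (h0 : ∀ t ∈ Icc (0:ℝ) 1, 0 ≤ f t) :
    0.879 * (∫ t in (0:ℝ)..1, f t ^ 2) +
      1.94 * √((∫ t in (0:ℝ)..1, f t ^ 2) * ∫ t in (0:ℝ)..1, t ^ 2 * f t ^ 2) ≤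
      2 * (∫ t in (0:ℝ)..1, f t) ^ 2 := by
  set c := f 0 with hc
  have hc0 : 0 ≤ c := h0 0 (by simp)
  have hfc : ∀ t ∈ Icc (0:ℝ) 1, f t ≤ c := fun t ht => hmono (by simp) ht ht.1
  suffices H : ∀ N : ℕ, 0 < N → 0.879 * (∫ t in (0:ℝ)..1, f t ^ 2) +
      1.94 * √((∫ t in (0:ℝ)..1, f t ^ 2) * ∫ t in (0:ℝ)..1, t ^ 2 * f t ^ 2) ≤
      2 * (∫ t in (0:ℝ)..1, f t) ^ 2 +
        (2.819 * (2 * c ^ 2 / N) + 3.88 * c * √(2 * c ^ 2 / N)) by
    have hlim : Tendsto (fun N : ℕ => 2 * (∫ t in (0:ℝ)..1, f t) ^ 2 +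
        (2.819 * (2 * c ^ 2 / N) + 3.88 * c * √(2 * c ^ 2 / N))) atTop
        (𝓝 (2 * (∫ t in (0:ℝ)..1, f t) ^ 2)) := by
      have h := tendsto_const_div_atTop_nhds_zero_nat (2 * c ^ 2)
      have h2 := h.sqrt
      rw [Real.sqrt_zero] at h2
      have := ((h.const_mul 2.819).add (h2.const_mul (3.88 * c))).const_add
        (2 * (∫ t in (0:ℝ)..1, f t) ^ 2)
      simpa using this
    exact ge_of_tendsto hlim (eventually_atTop.2 ⟨1, fun N hN => H N hN⟩)
  intro N hN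
  set η : ℝ := 1 / N with hη
  have hN' : (0:ℝ) < N := by exact_mod_cast hN
  have hη0 : 0 < η := by positivity
  have hηN : (N:ℝ) * η = 1 := by rw [hη]; field_simp
  have hx : ∀ j : ℕ, j ≤ N → (j:ℝ) * η ∈ Icc (0:ℝ) 1 := fun j hj =>
    ⟨by positivity, hηN ▸ mul_le_mul_of_nonneg_right (by exact_mod_cast hj) hη0.le⟩
  set F : ℕ → ℝ := fun j => if j < N then f (j * η) else 0 with hF
  set d : ℕ → ℝ := fun j => F j - F (j + 1) with hd
  have hFle : ∀ j ≤ N, F j ≤ f (j * η) := by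
    intro j hj
    simp only [hF]; split_ifs with h
    · exact le_rfl
    · exact h0 _ (hx j hj)
  have hd0 : ∀ j < N, 0 ≤ d j := by
    intro j hj
    simp only [hd, hF, if_pos hj]
    split_ifs with h
    · exact sub_nonneg.2 (hmono (hx j hj.le) (hx (j + 1) (by omega)) (by push_cast; nlinarith))
    · simpa using h0 _ (hx j hj.le)
  have hdm : ∀ j, j + 1 < N → d j ≤ d (j + 1) := by
    intro j hj
    have e1 : f (((j:ℕ):ℝ) * η) + f (((j + 2 : ℕ):ℝ) * η) ≤ 2 * f (((j + 1 : ℕ):ℝ) * η) := by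
      have hc2 := hf.2
      have := hc2 (hx j (by omega)) (hx (j + 2) (by omega)) (a := 1/2) (b := 1/2)
        (by norm_num) (by norm_num) (by norm_num)
      simp only [smul_eq_mul] at this
      rw [show (1/2:ℝ) * ((j:ℝ) * η) + 1/2 * (((j + 2 : ℕ):ℝ) * η) = ((j + 1 : ℕ):ℝ) * η by
        push_cast; ring] at this
      linarith
    have e2 := hFle (j + 2) (by omega)
    simp only [hd]
    have e3 : F j = f ((j:ℕ) * η) := by simp [hF, show j < N by omega]
    have e4 : F (j + 1) = f (((j + 1 : ℕ):ℝ) * η) := by simp [hF, hj]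
    rw [e3, e4]
    linarith
  set μ : ℕ → ℝ := fun i => (d i - if i = 0 then 0 else d (i - 1)) / η with hμdef
  have hμ : ∀ i ∈ Finset.range N, 0 ≤ μ i := by
    intro i hi
    rw [Finset.mem_range] at hi
    refine div_nonneg ?_ hη0.le
    rcases i with _ | i
    · simpa using hd0 0 hi
    · simpa using hdm i hi
  have hμsum : ∀ j, η * ∑ i ∈ Finset.range (j + 1), μ i = d j := by
    intro j
    induction j with
    | zero => simp [hμdef]; field_simp
    | succ j ih =>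
      rw [Finset.sum_range_succ, mul_add, ih]
      simp [hμdef]
      field_simp
      ring
  set G : ℝ → ℝ := fun t => ∑ i ∈ Finset.range N, μ i * ray ((i:ℝ) * η) t with hG
  have hGc : Continuous G := continuous_finsetSum _ fun i _ => continuous_const.mul (continuous_ray _)
  have hGN : G ((N:ℝ) * η) = 0 := by
    refine Finset.sum_eq_zero fun i hi => ?_
    rw [Finset.mem_range] at hi
    rw [ray, max_eq_left (mul_le_mul_of_nonneg_right (by exact_mod_cast hi.le) hη0.le), hηN,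
      sub_self, mul_zero]
  have hGaff : ∀ j < N, ∀ t ∈ Icc ((j:ℝ) * η) (((j + 1 : ℕ):ℝ) * η),
      G t = G (((j + 1 : ℕ):ℝ) * η) + ((((j + 1 : ℕ):ℝ) * η - t) / η) * d j := by
    intro j hj t ht
    rw [← hμsum j, ← mul_assoc, div_mul_cancel₀ _ hη0.ne', Finset.mul_sum,
      show Finset.range (j + 1) = (Finset.range N).filter (fun i => i ≤ j) by
        ext i; simp; omega,
      Finset.sum_filter, hG]
    simp only []
    rw [← Finset.sum_add_distrib]
    refine Finset.sum_congr rfl fun i _ => ?_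
    split_ifs with hij
    · have e1 : (i:ℝ) * η ≤ j * η := mul_le_mul_of_nonneg_right (by exact_mod_cast hij) hη0.le
      rw [ray, ray, max_eq_left (e1.trans ht.1), max_eq_left (e1.trans (ht.1.trans ht.2))]
      ring
    · have e1 : ((j + 1 : ℕ):ℝ) * η ≤ i * η :=
        mul_le_mul_of_nonneg_right (by exact_mod_cast (by omega : j + 1 ≤ i)) hη0.le
      rw [ray, ray, max_eq_right (ht.2.trans e1), max_eq_right e1, add_zero]
  have hGF : ∀ j ≤ N, G ((j:ℝ) * η) = F j := by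
    suffices h : ∀ l ≤ N, G (((N - l : ℕ):ℝ) * η) = F (N - l) by
      intro j hj
      have := h (N - j) (by omega)
      rwa [Nat.sub_sub_self hj] at this
    intro l hl
    induction l with
    | zero => simpa [hF] using hGN
    | succ l ih =>
      have e : N - (l + 1) + 1 = N - l := by omega
      rw [hGaff (N - (l + 1)) (by omega) _ ⟨le_rfl, by push_cast; nlinarith⟩, e, ih (by omega)]
      rw [show (((N - l : ℕ):ℝ) * η - ((N - (l + 1) : ℕ):ℝ) * η) / η = 1 by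
        rw [← sub_mul, mul_div_assoc, div_self hη0.ne', mul_one, ← e]; push_cast; ring]
      simp only [hd, e]
      ring
  have piece : ∀ j < N, ∀ t ∈ Icc ((j:ℝ) * η) (((j + 1 : ℕ):ℝ) * η),
      0 ≤ G t ∧ G t ≤ f t ∧ f t - G t ≤ d j := by
    intro j hj t ht
    have hg := hGaff j hj t ht
    rw [hGF (j + 1) (by omega)] at hg
    set θ := ((((j + 1 : ℕ):ℝ) * η - t) / η) with hθ
    have hθ0 : 0 ≤ θ := div_nonneg (by linarith [ht.2]) hη0.le
    have hθ1 : θ ≤ 1 := by rw [hθ, div_le_one hη0]; push_cast; linarith [ht.1]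
    have hF1 : 0 ≤ F (j + 1) := by
      simp only [hF]; split_ifs with h
      · exact h0 _ (hx _ h.le)
      · exact le_rfl
    refine ⟨?_, ?_, ?_⟩
    · rw [hg]; nlinarith [hd0 j hj]
    · have hc2 := hf.2
      have := hc2 (hx j hj.le) (hx (j + 1) (by omega)) (a := θ) (b := 1 - θ) hθ0
        (by linarith) (by ring)
      simp only [smul_eq_mul] at this
      have et : θ * ((j:ℝ) * η) + (1 - θ) * (((j + 1 : ℕ):ℝ) * η) = t := by
        have : θ * η = ((j + 1 : ℕ):ℝ) * η - t := div_mul_cancel₀ _ hη0.ne'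
        push_cast at this ⊢
        linarith
      rw [et] at this
      have e3 : F j = f ((j:ℕ) * η) := by simp [hF, hj]
      have := mul_le_mul_of_nonneg_left (hFle (j + 1) (by omega)) (sub_nonneg.2 hθ1)
      rw [hg]; simp only [hd] at *; rw [e3]; linarith
    · have e3 : F j = f ((j:ℕ) * η) := by simp [hF, hj]
      have := hmono (hx j hj.le) ⟨(hx j hj.le).1.trans ht.1, ht.2.trans (hx (j+1) (by omega)).2⟩ ht.1
      have hp := mul_nonneg hθ0 (hd0 j hj)
      rw [hg]; simp only [hd] at hp ⊢; rw [e3] at hp ⊢; linarith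
  have cover : ∀ t ∈ Icc (0:ℝ) 1, ∃ j < N, t ∈ Icc ((j:ℝ) * η) (((j + 1 : ℕ):ℝ) * η) := by
    intro t ht
    rcases lt_or_ge t 1 with h | h
    · refine ⟨⌊t * N⌋₊, ?_, ?_, ?_⟩
      · rw [Nat.floor_lt (by nlinarith [ht.1])]; nlinarith
      · rw [hη, mul_one_div, div_le_iff₀ hN']; exact Nat.floor_le (by nlinarith [ht.1])
      · rw [hη, mul_one_div, le_div_iff₀ hN']; push_cast; exact (Nat.lt_floor_add_one _).le
    · have : t = 1 := le_antisymm ht.2 h
      refine ⟨N - 1, by omega, ?_⟩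
      rw [show N - 1 + 1 = N by omega, this, hηN]
      exact ⟨(hx (N - 1) (by omega)).2, le_rfl⟩
  have hG0 : ∀ t ∈ Icc (0:ℝ) 1, 0 ≤ G t ∧ G t ≤ f t := fun t ht => by
    obtain ⟨j, hj, htj⟩ := cover t ht; exact ⟨(piece j hj t htj).1, (piece j hj t htj).2.1⟩
  have if1 : IntervalIntegrable f volume 0 1 :=
    (hmono.mono (by rw [uIcc_of_le zero_le_one])).intervalIntegrable
  have iG : IntervalIntegrable G volume 0 1 := hGc.intervalIntegrable _ _
  have ifG : IntervalIntegrable (fun t => f t - G t) volume 0 1 := if1.sub iG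
  have L1 : ∫ t in (0:ℝ)..1, (f t - G t) ≤ c * η := by
    have sub : ∀ j < N, IntervalIntegrable (fun t => f t - G t) volume ((j:ℝ) * η)
        (((j + 1 : ℕ):ℝ) * η) := by
      intro j hj
      refine ifG.mono_set ?_
      rw [uIcc_of_le zero_le_one, uIcc_of_le (by push_cast; nlinarith)]
      exact Icc_subset_Icc (hx j hj.le).1 (hx (j + 1) (by omega)).2
    have := intervalIntegral.sum_integral_adjacent_intervals (a := fun j : ℕ => (j:ℝ) * η) sub
    simp only [Nat.cast_zero, zero_mul, hηN] at this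
    rw [← this]
    calc _ ≤ ∑ j ∈ Finset.range N, d j * η := by
          refine Finset.sum_le_sum fun j hj => ?_
          rw [Finset.mem_range] at hj
          refine (intervalIntegral.integral_mono_on (g := fun _ => d j) (by push_cast; nlinarith)
            (sub j hj) intervalIntegrable_const fun t ht => (piece j hj t ht).2.2).trans_eq ?_
          simp; ring
      _ = c * η := by
          rw [← Finset.sum_mul, Finset.sum_range_sub']
          simp [hF, hN, hc]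
  have i2 : IntervalIntegrable (fun t => f t ^ 2) volume 0 1 := by
    refine AntitoneOn.intervalIntegrable fun a ha b hb hab => ?_
    rw [uIcc_of_le zero_le_one] at ha hb
    exact pow_le_pow_left₀ (h0 b hb) (hmono ha hb hab) 2
  have i3 : IntervalIntegrable (fun t => t ^ 2 * f t ^ 2) volume 0 1 :=
    i2.continuousOn_mul (continuous_pow 2).continuousOn
  set ε := 2 * c ^ 2 / N with hε
  have hε0 : 0 ≤ ε := by positivity
  have bnd : ∫ t in (0:ℝ)..1, 2 * c * (f t - G t) ≤ ε := by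
    rw [intervalIntegral.integral_const_mul]
    calc 2 * c * _ ≤ 2 * c * (c * η) := mul_le_mul_of_nonneg_left L1 (by positivity)
      _ = ε := by rw [hε, hη]; ring
  have dif : ∀ t ∈ Icc (0:ℝ) 1, f t ^ 2 - G t ^ 2 ≤ 2 * c * (f t - G t) := by
    intro t ht
    have := hfc t ht
    nlinarith [(hG0 t ht).1, (hG0 t ht).2, mul_nonneg (sub_nonneg.2 (hG0 t ht).2)
      (show 0 ≤ 2 * c - f t - G t by linarith [(hG0 t ht).2])]
  have eQ : ∫ t in (0:ℝ)..1, f t ^ 2 ≤ (∫ t in (0:ℝ)..1, G t ^ 2) + ε := by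
    have hcq : Continuous fun t => G t ^ 2 := hGc.pow 2
    have := intervalIntegral.integral_mono_on zero_le_one
      (i2.sub (hcq.intervalIntegrable 0 1)) (ifG.const_mul (2 * c)) dif
    rw [intervalIntegral.integral_sub i2 (hcq.intervalIntegrable 0 1)] at this
    linarith
  have eM : ∫ t in (0:ℝ)..1, t ^ 2 * f t ^ 2 ≤
      (∫ t in (0:ℝ)..1, t ^ 2 * G t ^ 2) + ε := by
    have hcm : Continuous fun t => t ^ 2 * G t ^ 2 := (continuous_pow 2).mul (hGc.pow 2)
    have := intervalIntegral.integral_mono_on zero_le_one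
      (i3.sub (hcm.intervalIntegrable 0 1)) (ifG.const_mul (2 * c)) (fun t ht => by
        rw [← mul_sub]
        refine le_trans ?_ (dif t ht)
        exact mul_le_of_le_one_left (sub_nonneg.2 (pow_le_pow_left₀ (hG0 t ht).1 (hG0 t ht).2 2))
          (pow_le_one₀ ht.1 ht.2))
    rw [intervalIntegral.integral_sub i3 (hcm.intervalIntegrable 0 1)] at this
    linarith
  have eI : ∫ t in (0:ℝ)..1, G t ≤ ∫ t in (0:ℝ)..1, f t :=
    intervalIntegral.integral_mono_on zero_le_one iG if1 fun t ht => (hG0 t ht).2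
  have main := mixture (Finset.range N) μ (fun i : ℕ => (i:ℝ) * η) hμ (fun i hi => by
    rw [Finset.mem_range] at hi
    exact ⟨by positivity, hηN ▸ mul_lt_mul_of_pos_right (by exact_mod_cast hi) hη0⟩)
  rw [hG] at eI eQ eM
  set Qf := ∫ t in (0:ℝ)..1, f t ^ 2
  set Mf := ∫ t in (0:ℝ)..1, t ^ 2 * f t ^ 2
  set Qg := ∫ t in (0:ℝ)..1, (∑ i ∈ Finset.range N, μ i * ray ((i:ℝ) * η) t) ^ 2 with hQg
  set Mg := ∫ t in (0:ℝ)..1, t ^ 2 * (∑ i ∈ Finset.range N, μ i * ray ((i:ℝ) * η) t) ^ 2 with hMg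
  have nQ : 0 ≤ Qg := intervalIntegral.integral_nonneg zero_le_one fun t _ => by positivity
  have nM : 0 ≤ Mg := intervalIntegral.integral_nonneg zero_le_one fun t _ => by positivity
  have nQf : 0 ≤ Qf := intervalIntegral.integral_nonneg zero_le_one fun t _ => by positivity
  have cQ : ∀ (φ : ℝ → ℝ), Continuous φ → (∀ t ∈ Icc (0:ℝ) 1, 0 ≤ φ t ∧ φ t ≤ 1) →
      ∫ t in (0:ℝ)..1, φ t * G t ^ 2 ≤ c ^ 2 := by
    intro φ hφ hφb
    refine (intervalIntegral.integral_mono_on (g := fun _ => c ^ 2) zero_le_one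
      ((hφ.mul (hGc.pow 2)).intervalIntegrable _ _) intervalIntegrable_const fun t ht => ?_).trans_eq
      (by simp)
    calc φ t * G t ^ 2 ≤ 1 * c ^ 2 := mul_le_mul (hφb t ht).2
          (pow_le_pow_left₀ (hG0 t ht).1 ((hG0 t ht).2.trans (hfc t ht)) 2) (sq_nonneg _) zero_le_one
      _ = c ^ 2 := one_mul _
  have sQ : √Qg ≤ c := by
    rw [Real.sqrt_le_iff]
    exact ⟨hc0, by simpa [hQg] using cQ (fun _ => 1) continuous_const (fun t _ => by simp)⟩
  have sM : √Mg ≤ c := by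
    rw [Real.sqrt_le_iff]
    exact ⟨hc0, cQ (fun t => t ^ 2) (continuous_pow 2)
      (fun t ht => ⟨sq_nonneg t, pow_le_one₀ ht.1 ht.2⟩)⟩
  have add_le : ∀ a : ℝ, 0 ≤ a → √(a + ε) ≤ √a + √ε := fun a ha => by
    rw [Real.sqrt_le_iff]
    refine ⟨by positivity, ?_⟩
    nlinarith [Real.mul_self_sqrt ha, Real.mul_self_sqrt hε0,
      mul_nonneg (Real.sqrt_nonneg a) (Real.sqrt_nonneg ε)]
  have hsq : √(Qf * Mf) ≤ √(Qg * Mg) + 2 * c * √ε + ε := by
    rw [Real.sqrt_mul nQf, Real.sqrt_mul nQ]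
    calc √Qf * √Mf ≤ (√Qg + √ε) * (√Mg + √ε) := by
          gcongr
          · exact (Real.sqrt_le_sqrt eQ).trans (add_le _ nQ)
          · exact (Real.sqrt_le_sqrt eM).trans (add_le _ nM)
      _ ≤ _ := by
          nlinarith [mul_le_mul_of_nonneg_right sQ (Real.sqrt_nonneg ε),
            mul_le_mul_of_nonneg_right sM (Real.sqrt_nonneg ε), Real.mul_self_sqrt hε0]
  have hGI0 : 0 ≤ ∫ t in (0:ℝ)..1, ∑ i ∈ Finset.range N, μ i * ray ((i:ℝ) * η) t :=
    intervalIntegral.integral_nonneg zero_le_one fun t ht => (hG0 t ht).1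
  have := pow_le_pow_left₀ hGI0 eI 2
  linarith

/-- The inequality on `[0,h]`. -/
theorem two {f : ℝ → ℝ} {h : ℝ} (hh : 0 < h) (hf : ConcaveOn ℝ (Icc 0 h) f)
    (hmono : AntitoneOn f (Icc 0 h)) (h0 : ∀ t ∈ Icc (0:ℝ) h, 0 ≤ f t) :
    0.879 * h * (∫ t in (0:ℝ)..h, f t ^ 2) +
      1.94 * √((∫ t in (0:ℝ)..h, f t ^ 2) * ∫ t in (0:ℝ)..h, t ^ 2 * f t ^ 2) ≤
      2 * (∫ t in (0:ℝ)..h, f t) ^ 2 := by
  have hm : ∀ t ∈ Icc (0:ℝ) 1, h * t ∈ Icc (0:ℝ) h := fun t ht =>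
    ⟨mul_nonneg hh.le ht.1, mul_le_of_le_one_right hh.le ht.2⟩
  have := two_unit (f := fun t => f (h * t)) ⟨convex_Icc 0 1, fun x hx y hy a b ha hb hab => by
      have := hf.2 (hm x hx) (hm y hy) ha hb hab
      simp only [smul_eq_mul] at this ⊢
      rwa [show h * (a * x + b * y) = a * (h * x) + b * (h * y) by ring]⟩
    (fun x hx y hy hxy => hmono (hm x hx) (hm y hy) (mul_le_mul_of_nonneg_left hxy hh.le))
    (fun t ht => h0 _ (hm t ht))
  have s : ∀ φ : ℝ → ℝ, ∫ t in (0:ℝ)..h, φ t = h * ∫ t in (0:ℝ)..1, φ (h * t) := by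
    intro φ
    have := intervalIntegral.mul_integral_comp_mul_left (f := φ) (a := 0) (b := 1) h
    simpa using this.symm
  rw [s, s, s]
  have e : ∫ t in (0:ℝ)..1, (h * t) ^ 2 * f (h * t) ^ 2 =
      h ^ 2 * ∫ t in (0:ℝ)..1, t ^ 2 * f (h * t) ^ 2 := by
    rw [← intervalIntegral.integral_const_mul]
    exact integral_congr fun t _ => by ring
  rw [e]
  set Q := ∫ t in (0:ℝ)..1, f (h * t) ^ 2
  set M := ∫ t in (0:ℝ)..1, t ^ 2 * f (h * t) ^ 2
  rw [show h * Q * (h * (h ^ 2 * M)) = (h ^ 2) ^ 2 * (Q * M) by ring,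
    Real.sqrt_mul (by positivity), Real.sqrt_sq (by positivity)]
  have := mul_le_mul_of_nonneg_left this (sq_nonneg h)
  linarith

end Vale.Agent.P237.Two
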