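import Mathlib
import Vale.Agent.P237.Slices
import Vale.Agent.P237.Two
import Vale.Agent.P237.OneDimK

/-!
# P237: the recursive bound `|ΠK| ≥ cst n · |K|^(n-1)`
-/

open MeasureTheory Set Real Filter Topology
open scoped Pointwise RealInnerProductSpace

namespace Vale.Agent.P237

variable {n : ℕ}

/-- A finite family of half spaces between `K` and `(1+δ)K`. -/
lemma exists_poly {K : Set (E (n + 1))} (hK : IsCompact K) (hKv : Convex ℝ K)
    (h0 : (0 : E (n + 1)) ∈ interior K) {δ : ℝ} (hδ : 0 < δ) :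
    ∃ (ι : Type) (_ : Fintype ι) (nrm : ι → E (n + 1)),
      (∀ h, Bornology.IsBounded (poly nrm h)) ∧ K ⊆ poly nrm (fun _ => 1) ∧
        poly nrm (fun _ => 1) ⊆ (1 + δ) • K := by
  classical
  set K' := (1 + δ) • K with hK'
  have hK'c : IsCompact K' := hK.smul _
  have hne : (1 + δ : ℝ) ≠ 0 := by linarith
  have h0' : (0 : E (n + 1)) ∈ interior K' := by
    rw [hK', interior_smul₀ hne]
    exact ⟨0, h0, smul_zero _⟩
  have hout : ∀ x ∈ frontier K', x ∉ K := by
    intro x hx hxK
    refine hx.2 ?_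
    rw [hK', interior_smul₀ hne, mem_smul_set_iff_inv_smul_mem₀ hne]
    refine hKv.openSegment_interior_self_subset_interior h0 hxK
      ⟨1 - (1 + δ)⁻¹, (1 + δ)⁻¹, sub_pos.2 (inv_lt_one_of_one_lt₀ (by linarith)), by positivity,
        by ring, by simp⟩
  have hsep : ∀ x ∈ frontier K', ∃ w : E (n + 1),
      (∀ y ∈ K, ⟪w, y⟫ ≤ 1) ∧ 1 < ⟪w, x⟫ := by
    intro x hx
    obtain ⟨f, c, hc, hcx⟩ := geometric_hahn_banach_closed_point hKv hK.isClosed (hout x hx)
    have hc0 : 0 < c := by simpa using hc 0 (interior_subset h0)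
    refine ⟨c⁻¹ • (InnerProductSpace.toDual ℝ (E (n + 1))).symm f, fun y hy => ?_, ?_⟩
    · rw [real_inner_smul_left, InnerProductSpace.toDual_symm_apply, inv_mul_le_iff₀ hc0, mul_one]
      exact (hc y hy).le
    · rw [real_inner_smul_left, InnerProductSpace.toDual_symm_apply, lt_inv_mul_iff₀ hc0, mul_one]
      exact hcx
  choose w hw1 hw2 using hsep
  have hfr : IsCompact (frontier K') :=
    hK'c.of_isClosed_subset isClosed_frontier hK'c.isClosed.frontier_subset
  obtain ⟨t, ht⟩ := hfr.elim_finite_subcover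
    (fun x : frontier K' => {y | 1 < ⟪w x x.2, y⟫})
    (fun x => isOpen_lt continuous_const (by fun_prop))
    (fun x hx => mem_iUnion.2 ⟨⟨x, hx⟩, hw2 x hx⟩)
  obtain ⟨R, hR0, hR⟩ := hK.isBounded.exists_pos_norm_le
  refine ⟨{x // x ∈ t} ⊕ (Fin (n + 1) × Bool), inferInstance,
    Sum.elim (fun x => w x.1 x.1.2)
      (fun p => (if p.2 then R⁻¹ else -R⁻¹) • EuclideanSpace.single p.1 1), fun h => ?_, ?_, ?_⟩
  · refine (Metric.isBounded_closedBall (x := (0 : E (n + 1)))
      (r := ∑ i, (|h (Sum.inr (i, true))| + |h (Sum.inr (i, false))|) * R)).subset fun x hx => ?_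
    rw [mem_closedBall_zero_iff]
    conv_lhs => rw [← (EuclideanSpace.basisFun (Fin (n + 1)) ℝ).sum_repr x]
    refine (norm_sum_le _ _).trans (Finset.sum_le_sum fun i _ => ?_)
    have h1 := hx (Sum.inr (i, true))
    have h2 := hx (Sum.inr (i, false))
    simp only [Sum.elim_inr, ↓reduceIte, Bool.false_eq_true, real_inner_smul_left,
      EuclideanSpace.inner_single_left, one_mul, conj_trivial, neg_mul] at h1 h2
    rw [inv_mul_le_iff₀ hR0] at h1
    rw [← mul_neg, inv_mul_le_iff₀ hR0] at h2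
    rw [norm_smul, OrthonormalBasis.norm_eq_one, mul_one, EuclideanSpace.basisFun_repr,
      Real.norm_eq_abs, abs_le]
    have := mul_le_mul_of_nonneg_left (le_abs_self (h (Sum.inr (i, true)))) hR0.le
    have := mul_le_mul_of_nonneg_left (le_abs_self (h (Sum.inr (i, false)))) hR0.le
    have := mul_nonneg (abs_nonneg (h (Sum.inr (i, true)))) hR0.le
    have := mul_nonneg (abs_nonneg (h (Sum.inr (i, false)))) hR0.le
    constructor <;> linarith
  · rintro y hy (x | ⟨i, b⟩)
    · exact hw1 _ _ y hy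
    · have := hR y hy
      have hi : |y i| ≤ R := (PiLp.norm_apply_le y i).trans this
      rw [abs_le] at hi
      simp only [Sum.elim_inr, real_inner_smul_left, EuclideanSpace.inner_single_left, one_mul,
        conj_trivial]
      cases b <;> simp only [↓reduceIte, Bool.false_eq_true, neg_mul, ← mul_neg] <;>
        rw [inv_mul_le_iff₀ hR0] <;> linarith
  · intro y hy
    by_contra hyK
    have hpre : IsPreconnected (segment ℝ (0 : E (n + 1)) y) := (convex_segment 0 y).isPreconnected
    obtain ⟨z, hz1, hz2⟩ : ∃ z, z ∈ segment ℝ (0 : E (n + 1)) y ∧ z ∈ frontier K' := by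
      by_contra hno
      push Not at hno
      obtain ⟨z, -, hzi, hzo⟩ := hpre (interior K') K'ᶜ isOpen_interior hK'c.isClosed.isOpen_compl
        (fun z hz => by
          by_cases hzK : z ∈ K'
          · refine Or.inl (by_contra fun hni => hno z hz ?_)
            rw [hK'c.isClosed.frontier_eq]
            exact ⟨hzK, hni⟩
          · exact Or.inr hzK)
        ⟨0, left_mem_segment ℝ 0 y, h0'⟩ ⟨y, right_mem_segment ℝ 0 y, hyK⟩
      exact hzo (interior_subset hzi)
    obtain ⟨i, hi, hzi⟩ : ∃ x ∈ t, 1 < ⟪w x x.2, z⟫ := by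
      simpa only [mem_iUnion, exists_prop, mem_ofPred_eq] using ht hz2
    have hzP := (poly_convex (nrm := _) (fun _ => 1)).segment_subset (zero_mem_poly fun _ => zero_le_one)
      hy hz1 (Sum.inl ⟨i, hi⟩)
    exact absurd hzP (not_le.2 hzi)

/-- Scaling of projection areas. -/
lemma projArea_smul (K : Set (E (n + 1))) {u : E (n + 1)} (hu : ‖u‖ = 1) {r : ℝ} (hr : 0 ≤ r) :
    projArea (r • K) u = r ^ n * projArea K u := by
  obtain ⟨L, hL⟩ := exists_frame hu
  rw [projArea_frame hu L hL, projArea_frame hu L hL]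
  have : tl '' (L '' (r • K)) = r • (tl '' (L '' K)) := by
    simp only [← image_smul, image_image]
    exact image_congr fun x _ => by simp
  rw [this, measureReal_def, Measure.addHaar_smul_of_nonneg volume hr, ENNReal.toReal_mul,
    ENNReal.toReal_ofReal (by positivity), finrank_euclideanSpace_fin]
  rfl

/-- Translation invariance. -/
lemma projArea_vadd (K : Set (E (n + 1))) {u : E (n + 1)} (hu : ‖u‖ = 1) (z : E (n + 1)) :
    projArea ((fun x => z + x) '' K) u = projArea K u := by
  obtain ⟨L, hL⟩ := exists_frame hu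
  rw [projArea_frame hu L hL, projArea_frame hu L hL]
  have : tl '' (L '' ((fun x => z + x) '' K)) = (fun y => tl (L z) + y) '' (tl '' (L '' K)) := by
    simp only [image_image, map_add]
  rw [this, measureReal_def, image_add_left, measure_preimage_add, ← measureReal_def]

/-- A projection body of a body has interior. -/
lemma projBody_isBody {P : Set (E (n + 1))} (hP : IsBody P) :
    IsBody (projBody P) ∧ ∀ x ∈ projBody P, -x ∈ projBody P := by
  refine ⟨⟨projBody_isCompact P, projBody_convex P, ?_⟩, fun x hx u hu => ?_⟩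
  · obtain ⟨z, hz⟩ := hP.nonempty
    obtain ⟨r, hr, hball⟩ := Metric.isOpen_iff.1 isOpen_interior z hz
    have hlow : ∀ u : E (n + 1), ‖u‖ = 1 →
        (r / 2) ^ n * volume.real (Metric.closedBall (0 : E n) 1) ≤ projArea P u := by
      intro u hu
      obtain ⟨L, hL⟩ := exists_frame hu
      refine le_trans ?_ (projArea_mono hP.compact
        ((Metric.closedBall_subset_ball (by linarith : r / 2 < r)).trans
          (hball.trans interior_subset)) u)
      rw [projArea_frame hu L hL, LinearIsometryEquiv.image_closedBall]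
      have hsub : Metric.closedBall (tl (L z)) (r / 2) ⊆ tl '' Metric.closedBall (L z) (r / 2) := by
        intro y hy
        refine ⟨cons (hd (L z)) y, ?_, tl_cons _ _⟩
        rw [Metric.mem_closedBall, dist_eq_norm] at hy ⊢
        rw [← cons_hd_tl (L z), sub_eq_add_neg, ← neg_one_smul ℝ (cons _ (tl (L z))), smul_cons,
          cons_add, norm_eq_sqrt_real_inner, inner_cons]
        rw [norm_eq_sqrt_real_inner] at hy
        simpa [← sub_eq_add_neg] using hy
      refine le_trans (le_of_eq ?_) (measureReal_mono hsub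
        (((isCompact_closedBall (L z) (r / 2)).image tl.continuous).measure_lt_top.ne))
      rw [measureReal_def, measureReal_def, Measure.addHaar_closedBall' volume _ (by linarith : 0 ≤ r / 2),
        ENNReal.toReal_mul, ENNReal.toReal_ofReal (by positivity), finrank_euclideanSpace_fin]
    set d := (r / 2) ^ n * volume.real (Metric.closedBall (0 : E n) 1)
    have hd0 : 0 < d := mul_pos (by positivity)
      (ENNReal.toReal_pos (Metric.measure_closedBall_pos volume _ one_pos).ne'
        (isCompact_closedBall _ _).measure_lt_top.ne)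
    refine ⟨0, mem_interior.2 ⟨Metric.ball 0 d, fun x hx u hu => ?_, Metric.isOpen_ball,
      Metric.mem_ball_self hd0⟩⟩
    rw [mem_ball_zero_iff] at hx
    have := real_inner_le_norm x u
    rw [hu, mul_one] at this
    linarith [hlow u hu]
  · rw [inner_neg_left, ← inner_neg_right]
    exact (hx (-u) (by rw [norm_neg, hu])).trans_eq (projArea_neg P hu)

lemma rootVol_one_ge {ι : Type} [Fintype ι] {nrm : ι → E (n + 1)}
    (hb : ∀ h, Bornology.IsBounded (poly nrm h)) {K : Set (E (n + 1))}
    (hKP : K ⊆ poly nrm fun _ => 1) :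
    volume.real K ^ (((n + 1 : ℕ):ℝ)⁻¹) ≤ rootVol nrm fun _ => 1 :=
  rpow_le_rpow measureReal_nonneg
    (measureReal_mono hKP (poly_isCompact hb _).measure_lt_top.ne) (by positivity)

/-- Passing to the limit `δ → 0`. -/
lemma of_approx {K : Set (E (n + 1))} (hK : IsCompact K) {A : ℝ}
    (h : ∀ δ : ℝ, 0 < δ → ∃ P : Set (E (n + 1)), P ⊆ (1 + δ) • K ∧ A ≤ volume.real (projBody P)) :
    A ≤ volume.real (projBody K) := by
  have hlim : Tendsto (fun δ : ℝ => ((1 + δ) ^ n) ^ (n + 1) * volume.real (projBody K)) (𝓝[>] 0)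
      (𝓝 (volume.real (projBody K))) := by
    have hc : Continuous fun δ : ℝ => ((1 + δ) ^ n) ^ (n + 1) * volume.real (projBody K) := by fun_prop
    simpa using (hc.tendsto 0).mono_left nhdsWithin_le_nhds
  refine ge_of_tendsto hlim ?_
  filter_upwards [self_mem_nhdsWithin] with δ hδ
  have hδ0 : (0:ℝ) < δ := hδ
  obtain ⟨P, hP, hA⟩ := h δ hδ
  refine hA.trans ?_
  have hsub : projBody P ⊆ ((1 + δ) ^ n) • projBody K := by
    intro x hx
    rw [mem_smul_set_iff_inv_smul_mem₀ (by positivity)]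
    intro u hu
    rw [real_inner_smul_left, inv_mul_le_iff₀ (by positivity)]
    refine (hx u hu).trans ((projArea_mono (hK.smul _) hP u).trans_eq ?_)
    exact projArea_smul K hu (by linarith)
  refine (measureReal_mono hsub ((projBody_isCompact K).smul _).measure_lt_top.ne).trans_eq ?_
  rw [measureReal_def, Measure.addHaar_smul_of_nonneg volume (by positivity), ENNReal.toReal_mul,
    ENNReal.toReal_ofReal (by positivity), finrank_euclideanSpace_fin]
  rfl

/-- The bound in dimension `n`. -/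
def Bound (n : ℕ) (c : ℝ) : Prop :=
  ∀ K : Set (E n), IsBody K → c * volume.real K ^ (n - 1) ≤ volume.real (projBody K)

lemma symm_step {α β c : ℝ} (hc : 0 ≤ c) (hα : 0 ≤ α) (hβ : 0 ≤ β) (hD : OneD (n + 1) α β)
    (IH : Bound (n + 1) c) {K : Set (E (n + 1 + 1))} (hK : IsBody K) (hsym : ∀ x ∈ K, -x ∈ K) :
    c * (α + β / √((n:ℝ) + 4)) * volume.real K ^ (n + 1) ≤ volume.real (projBody K) := by
  have h0 : (0 : E (n + 1 + 1)) ∈ interior K := by
    refine zero_mem_of_symm hK.convex.interior (fun x hx => ?_) hK.nonempty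
    have hneg : -K = K := by
      ext y; exact ⟨fun hy => by simpa using hsym _ hy, fun hy => hsym y hy⟩
    rw [← hneg]
    exact mem_interior.2 ⟨-interior K, neg_subset_neg.2 interior_subset,
      isOpen_interior.neg, by simpa using hx⟩
  refine of_approx hK.compact fun δ hδ => ?_
  obtain ⟨ι, _, nrm, hb, hKP, hPK⟩ := exists_poly hK.compact hK.convex h0 hδ
  refine ⟨_, hPK, ?_⟩
  obtain ⟨q, hq0, hq1, hq⟩ := exists_supergradient hb
  set P := poly nrm fun _ => 1 with hPdef
  set a := atom nrm q with ha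
  have hPa : ∀ u : E (n + 1 + 1), ‖u‖ = 1 → projArea P u = (∑ i, |⟪u, a i⟫|) / 2 :=
    fun u hu => projArea_poly hb hq1 hq hu
  set V := volume.real K with hV
  have hV0 : 0 < V := hK.volume_pos
  set X := rootVol nrm fun _ => 1 with hX
  set m : ℝ := (((n + 1 : ℕ):ℝ) + 1) with hm
  have hm0 : 0 < m := by positivity
  set ρ := V ^ (((n + 1 + 1 : ℕ):ℝ)⁻¹) with hρ
  have hρ0 : 0 < ρ := rpow_pos_of_pos hV0 _
  have hρn : ρ ^ (n + 1 + 1) = V := rpow_inv_natCast_pow hV0.le (by omega)
  have hXρ : ρ ≤ X := rootVol_one_ge hb hKP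
  set hK' : ι → ℝ := fun i => supp K (nrm i) with hhK
  set σ : ι → ℝ := fun i => √(mom K (nrm i) / V) with hσ
  have hsupp0 : ∀ i, 0 ≤ hK' i := fun i => by
    simpa using le_supp hK.compact (nrm i) (interior_subset h0)
  have s1 : ρ ≤ ∑ i, q i * hK' i := by
    refine le_trans ?_ (hq hK' hsupp0)
    refine rpow_le_rpow measureReal_nonneg (measureReal_mono (fun x hx i => ?_)
      (poly_isCompact hb _).measure_lt_top.ne) (by positivity)
    rw [real_inner_comm]; exact le_supp hK.compact _ hx
  obtain ⟨hEc, hE⟩ := momBody_volume (n := n + 1 + 1) (by omega) hK.compact hK.nonempty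
  have s2 : ρ / √((n:ℝ) + 4) ≤ ∑ i, q i * σ i := by
    refine le_trans ?_ (hq σ fun i => Real.sqrt_nonneg _)
    rw [show ((n + 1 + 1 : ℕ) : ℝ) + 2 = (n:ℝ) + 4 by push_cast; ring] at hE
    have h4 : 0 < √((n:ℝ) + 4) := Real.sqrt_pos.2 (by positivity)
    have h5 : ρ ≤ √((n:ℝ) + 4) * volume.real (momBody K) ^ (((n + 1 + 1 : ℕ):ℝ)⁻¹) := by
      refine (rpow_le_rpow hV0.le hE (by positivity)).trans_eq ?_
      rw [mul_rpow (by positivity) measureReal_nonneg, pow_rpow_inv_natCast h4.le (by omega)]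
    rw [div_le_iff₀' h4]
    refine h5.trans (mul_le_mul_of_nonneg_left ?_ h4.le)
    refine rpow_le_rpow measureReal_nonneg (measureReal_mono (fun x hx i => ?_)
      (poly_isCompact hb _).measure_lt_top.ne) (by positivity)
    rw [real_inner_comm]; exact hx (nrm i)
  have hterm : ∀ i, c * V ^ n * (m * X ^ (n + 1)) * (q i * (α * hK' i + β * σ i)) ≤
      ‖a i‖ * projArea (projBody P) (‖a i‖⁻¹ • a i) := by
    intro i
    have hC0 : 0 ≤ m * X ^ (n + 1) * q i := by
      have := hq0 i; have := hρ0.le.trans hXρ; positivity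
    have hai : a i = (m * X ^ (n + 1) * q i) • nrm i := rfl
    have hsm : supp K (nrm i) = ‖nrm i‖ * supp K (‖nrm i‖⁻¹ • nrm i) := by
      rcases eq_or_ne (nrm i) 0 with h | h
      · have hKne : K.Nonempty := ⟨0, interior_subset h0⟩
        simp [supp, h, hKne.image_const]
      · have e : (fun x : E (n + 1 + 1) => ⟪x, nrm i⟫) '' K =
            ‖nrm i‖ • ((fun x => ⟪x, ‖nrm i‖⁻¹ • nrm i⟫) '' K) := by
          rw [← image_smul, image_image]
          refine image_congr fun x _ => ?_
          rw [real_inner_smul_right, smul_eq_mul, ← mul_assoc,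
            mul_inv_cancel₀ (norm_ne_zero_iff.2 h), one_mul]
        rw [supp, e, Real.sSup_smul_of_nonneg (norm_nonneg _), smul_eq_mul]; rfl
    have hmm : √(mom K (nrm i) / V) = ‖nrm i‖ * √(mom K (‖nrm i‖⁻¹ • nrm i) / V) := by
      rcases eq_or_ne (nrm i) 0 with h | h
      · simp [h, mom]
      · rw [mom_smul, mul_div_assoc, Real.sqrt_mul (sq_nonneg _), Real.sqrt_sq (by positivity),
          ← mul_assoc, mul_inv_cancel₀ (norm_ne_zero_iff.2 h), one_mul]
    rcases eq_or_ne (a i) 0 with ha0 | ha0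
    · rw [ha0, norm_zero, zero_mul]
      rcases smul_eq_zero.1 (hai.symm.trans ha0) with h | h
      · rw [show c * V ^ n * (m * X ^ (n + 1)) * (q i * (α * hK' i + β * σ i)) =
          c * V ^ n * (m * X ^ (n + 1) * q i) * (α * hK' i + β * σ i) by ring, h]
        simp
      · simp [hhK, hσ, hsm, hmm, h]
    · have hn0 : nrm i ≠ 0 := fun h => ha0 (by rw [hai, h, smul_zero])
      have hpos : 0 < m * X ^ (n + 1) * q i :=
        lt_of_le_of_ne hC0 fun h => ha0 (by rw [hai, ← h, zero_smul])
      have hna : ‖a i‖ = m * X ^ (n + 1) * q i * ‖nrm i‖ := by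
        rw [hai, norm_smul, Real.norm_of_nonneg hC0]
      have hdir : ‖a i‖⁻¹ • a i = ‖nrm i‖⁻¹ • nrm i := by
        rw [hna, hai, smul_smul, mul_inv_rev, mul_assoc, inv_mul_cancel₀ hpos.ne', mul_one]
      have hb' := shadow_bound hc hD (fun Q hQ => by simpa using IH Q hQ) hK hsym
        (poly_isCompact hb _) hKP hPa (v := ‖nrm i‖⁻¹ • nrm i) (norm_smul_inv_norm hn0)
      rw [hdir]
      refine le_trans (le_of_eq ?_) (mul_le_mul_of_nonneg_left hb' (norm_nonneg (a i)))
      simp only [hhK, hσ, hsm, hmm, hna]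
      ring
  have hsum := (Finset.sum_le_sum (s := Finset.univ) fun i _ => hterm i).trans
    (sum_atom_projArea_le hPa)
  rw [← Finset.mul_sum, ← hm] at hsum
  have hsplit : (α + β / √((n:ℝ) + 4)) * ρ ≤ ∑ i, q i * (α * hK' i + β * σ i) := by
    have : ∑ i, q i * (α * hK' i + β * σ i) = α * ∑ i, q i * hK' i + β * ∑ i, q i * σ i := by
      rw [Finset.mul_sum, Finset.mul_sum, ← Finset.sum_add_distrib]
      exact Finset.sum_congr rfl fun i _ => by ring
    rw [this, add_mul, div_mul_eq_mul_div, mul_div_assoc]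
    gcongr
  have h1 : c * V ^ n * (m * ρ ^ (n + 1)) * ((α + β / √((n:ℝ) + 4)) * ρ) ≤
      m * volume.real (projBody P) := by
    refine le_trans ?_ hsum
    refine mul_le_mul (mul_le_mul_of_nonneg_left (mul_le_mul_of_nonneg_left
      (pow_le_pow_left₀ hρ0.le hXρ _) hm0.le) (by positivity)) hsplit (by positivity) ?_
    have := hρ0.le.trans hXρ
    positivity
  refine le_of_mul_le_mul_left (le_trans (le_of_eq ?_) h1) hm0
  rw [pow_succ V n]
  nth_rewrite 2 [← hρn]
  ring

/-- Class reduction: symmetric bodies suffice. -/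
lemma class_step {c : ℝ}
    (hsymm : ∀ Z : Set (E (n + 1)), IsBody Z → (∀ x ∈ Z, -x ∈ Z) →
      c * volume.real Z ^ n ≤ volume.real (projBody Z)) (hc : 0 ≤ c) :
    Bound (n + 1) c := by
  intro K hK
  simp only [Nat.add_sub_cancel]
  obtain ⟨z, hz⟩ := hK.nonempty
  set K₀ := (fun x => -z + x) '' K with hK₀
  have hc0 : IsCompact K₀ := hK.compact.image (by fun_prop)
  have hv0 : Convex ℝ K₀ := hK.convex.translate (-z)
  have h00 : (0 : E (n + 1)) ∈ interior K₀ := by
    have := (Homeomorph.addLeft (-z)).image_interior K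
    have hmem : (0 : E (n + 1)) ∈ (Homeomorph.addLeft (-z)) '' interior K :=
      ⟨z, hz, by simp [Homeomorph.addLeft]⟩
    rw [this] at hmem
    exact hmem
  have hvol : volume.real K₀ = volume.real K := by
    rw [hK₀, image_add_left, measureReal_def, measure_preimage_add, ← measureReal_def]
  have hproj : projBody K₀ = projBody K := by
    ext x
    simp only [projBody, mem_ofPred_eq]
    refine forall_congr' fun u => forall_congr' fun hu => ?_
    rw [projArea_vadd K hu (-z)]
  rw [← hvol, ← hproj]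
  refine of_approx hc0 fun δ hδ => ?_
  obtain ⟨ι, _, nrm, hb, hKP, hPK⟩ := exists_poly hc0 hv0 h00 hδ
  refine ⟨_, hPK, ?_⟩
  obtain ⟨q, hq0, hq1, hq⟩ := exists_supergradient hb
  set P := poly nrm fun _ => 1 with hPdef
  have hPb : IsBody P := ⟨poly_isCompact hb _, poly_convex _,
    ⟨0, interior_mono hKP h00⟩⟩
  obtain ⟨hZb, hZs⟩ := projBody_isBody hPb
  set Z := projBody P
  set a := atom nrm q with ha
  have hPa : ∀ u : E (n + 1), ‖u‖ = 1 → projArea P u = (∑ i, |⟪u, a i⟫|) / 2 :=
    fun u hu => projArea_poly hb hq1 hq hu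
  set X := rootVol nrm fun _ => 1 with hX
  have hX0 : 0 ≤ X := rpow_nonneg measureReal_nonneg _
  set h : ι → ℝ := fun i => ‖nrm i‖ * projArea Z (‖nrm i‖⁻¹ • nrm i) with hh
  have h0 : ∀ i, 0 ≤ h i := fun i => mul_nonneg (norm_nonneg _) (projArea_nonneg _ _)
  set W := volume.real (projBody Z) with hW
  have s1 : W ^ (((n + 1 : ℕ):ℝ)⁻¹) ≤ ∑ i, q i * h i := by
    refine le_trans ?_ (hq h h0)
    refine rpow_le_rpow measureReal_nonneg (measureReal_mono (fun x hx i => ?_)
      (poly_isCompact hb _).measure_lt_top.ne) (by positivity)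
    rcases eq_or_ne (nrm i) 0 with hn | hn
    · simp [hh, hn]
    · have hxu := hx (‖nrm i‖⁻¹ • nrm i) (norm_smul_inv_norm hn)
      rw [real_inner_smul_right, inv_mul_le_iff₀ (norm_pos_iff.2 hn)] at hxu
      rw [real_inner_comm]; exact hxu
  have hterm : ∀ i, (((n:ℝ) + 1) * X ^ n) * (q i * h i) =
      ‖a i‖ * projArea Z (‖a i‖⁻¹ • a i) := by
    intro i
    have hai : a i = ((((n:ℝ) + 1) * X ^ n) * q i) • nrm i := rfl
    have hC0 : 0 ≤ (((n:ℝ) + 1) * X ^ n) * q i := by have := hq0 i; positivity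
    have hna : ‖a i‖ = (((n:ℝ) + 1) * X ^ n) * q i * ‖nrm i‖ := by
      rw [hai, norm_smul, Real.norm_of_nonneg hC0]
    rcases eq_or_ne (a i) 0 with ha0 | ha0
    · rw [ha0, norm_zero, zero_mul, ← mul_assoc, hh]
      rw [ha0, norm_zero] at hna
      simp only [← mul_assoc]
      rw [← hna, zero_mul]
    · have hpos : 0 < (((n:ℝ) + 1) * X ^ n) * q i :=
        lt_of_le_of_ne hC0 fun h' => ha0 (by rw [hai, ← h', zero_smul])
      have hn0 : nrm i ≠ 0 := fun h' => ha0 (by rw [hai, h', smul_zero])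
      have hdir : ‖a i‖⁻¹ • a i = ‖nrm i‖⁻¹ • nrm i := by
        rw [hna, hai, smul_smul, mul_inv_rev, mul_assoc, inv_mul_cancel₀ hpos.ne', mul_one]
      rw [hdir, hna, hh]; ring
  have hsum := sum_atom_projArea_le hPa
  rw [← Finset.sum_congr rfl (fun i _ => hterm i), ← Finset.mul_sum] at hsum
  have h1 : X ^ n * W ^ (((n + 1 : ℕ):ℝ)⁻¹) ≤ volume.real Z := by
    have hn1 : (0:ℝ) < (n:ℝ) + 1 := by positivity
    have := (mul_le_mul_of_nonneg_left s1 (by positivity : 0 ≤ ((n:ℝ) + 1) * X ^ n)).trans hsum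
    rw [mul_assoc] at this
    exact le_of_mul_le_mul_left this hn1
  have h2 := pow_le_pow_left₀ (by positivity) h1 (n + 1)
  rw [mul_pow, rpow_inv_natCast_pow measureReal_nonneg (by omega), ← pow_mul] at h2
  have hXn : volume.real K₀ ^ n ≤ X ^ (n * (n + 1)) := by
    rw [mul_comm, pow_mul, rootVol_pow]
    gcongr
    exact (poly_isCompact hb _).measure_lt_top.ne
  have hZpos := hZb.volume_pos
  have h3 : (c * volume.real K₀ ^ n) * volume.real Z ^ n ≤ volume.real Z * volume.real Z ^ n := by
    calc (c * volume.real K₀ ^ n) * volume.real Z ^ n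
        = volume.real K₀ ^ n * (c * volume.real Z ^ n) := by ring
      _ ≤ X ^ (n * (n + 1)) * W := mul_le_mul hXn (hsymm Z hZb hZs) (by positivity) (by positivity)
      _ ≤ _ := h2
      _ = _ := by ring
  exact le_of_mul_le_mul_right h3 (by positivity)

lemma step {α β c : ℝ} (hc : 0 ≤ c) (hα : 0 ≤ α) (hβ : 0 ≤ β) (hD : OneD (n + 1) α β)
    (IH : Bound (n + 1) c) : Bound (n + 1 + 1) (c * (α + β / √((n:ℝ) + 4))) :=
  class_step (fun _ hZ hs => symm_step hc hα hβ hD IH hZ hs) (by positivity)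

lemma bound_one : Bound 1 2 := by
  intro K hK
  have hne : K.Nonempty := hK.nonempty.mono interior_subset
  simp only [Nat.sub_self, pow_zero, mul_one]
  have hball : Metric.closedBall (0 : E 1) 1 ⊆ projBody K := by
    intro x hx u hu
    rw [mem_closedBall_zero_iff] at hx
    have h1 : projArea K u = 1 := by
      obtain ⟨L, hL⟩ := exists_frame hu
      rw [projArea_frame hu L hL, Subsingleton.eq_univ_of_nonempty ((hne.image _).image _)]
      simp [measureReal_def, volume_euclideanSpace_eq_dirac]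
    rw [h1]
    have := real_inner_le_norm x u
    rw [hu, mul_one] at this
    linarith
  refine le_trans (le_of_eq ?_) (measureReal_mono hball (projBody_isCompact K).measure_lt_top.ne)
  rw [measureReal_def, EuclideanSpace.volume_closedBall]
  have hg : Real.Gamma (3 / 2) = √π / 2 := by
    rw [show (3:ℝ) / 2 = 1 / 2 + 1 by norm_num, Real.Gamma_add_one (by norm_num),
      Real.Gamma_one_half_eq]
    ring
  have hπ : (√π) ≠ 0 := (Real.sqrt_pos.2 Real.pi_pos).ne'
  norm_num [hg]
  field_simp
  norm_num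

lemma oneD_one : OneD 1 2 0 := by
  intro f h hh _ _ _ _
  simp

lemma oneD_two : OneD 2 0.879 1.94 := by
  intro f h hh hf hm h0 hpos
  have := Two.two hh hf hm h0
  simp only [Nat.add_one_sub_one, pow_one]
  set V := ∫ t in (0:ℝ)..h, f t ^ 2
  set M := ∫ t in (0:ℝ)..h, t ^ 2 * f t ^ 2
  have hsq : V * √(M / V) = √(V * M) := by
    rw [Real.sqrt_div' _ hpos.le, Real.sqrt_mul hpos.le]
    have := Real.mul_self_sqrt hpos.le
    have := (Real.sqrt_pos.2 hpos).ne'
    field_simp
    rw [Real.sq_sqrt hpos.le]; ring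
  nlinarith

lemma oneD_ge {k : ℕ} (hk : 2 ≤ k) : OneD k 0 3.36 := by
  intro f h hh hf hm h0 hpos
  simpa using AllK.allk hh hk hf hm h0 hpos

/-- The constants. -/
noncomputable def cst : ℕ → ℝ
  | 0 => 0
  | 1 => 2
  | 2 => 4
  | 3 => 4 * (0.879 + 1.94 / √5)
  | (n + 4) => cst (n + 3) * (3.36 / √((n:ℝ) + 6))

lemma cst_nonneg : ∀ n, 0 ≤ cst n
  | 0 | 1 | 2 | 3 => by unfold cst; positivity
  | (n + 4) => by unfold cst; exact mul_nonneg (cst_nonneg _) (by positivity)

/-- `|ΠK| ≥ cst n · |K|^(n-1)`. -/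
theorem bound_all : ∀ n, 1 ≤ n → Bound n (cst n)
  | 0, h => absurd h (by omega)
  | 1, _ => bound_one
  | 2, _ => by
    have := step (n := 0) zero_le_two zero_le_two le_rfl oneD_one bound_one
    norm_num at this
    simpa [cst] using this
  | 3, _ => by
    have := step (n := 1) (cst_nonneg 2) (by norm_num) (by norm_num) oneD_two (bound_all 2 (by omega))
    norm_num at this
    unfold cst
    norm_num
    exact this
  | (n + 4), _ => by
    have := step (n := n + 2) (cst_nonneg _) le_rfl (by norm_num) (oneD_ge (k := n + 3) (by omega))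
      (bound_all (n + 3) (by omega))
    rw [zero_add, show ((n + 2 : ℕ):ℝ) + 4 = (n:ℝ) + 6 by push_cast; ring] at this
    simpa [cst] using this

end Vale.Agent.P237
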