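import Mathlib
import Vale.Agent.P237.Basic

/-!
# P237: geometric Brascamp–Lieb inequality by monotone transport to the Gaussian
-/

open MeasureTheory Set Real Filter Topology
open scoped RealInnerProductSpace

namespace Vale.Agent.P237.BL

/-- Gaussian weight. -/
noncomputable def gau (t : ℝ) : ℝ := exp (-π * t ^ 2)

/-- Gaussian primitive. -/
noncomputable def gauPrim (t : ℝ) : ℝ := ∫ s in (0:ℝ)..t, gau s

/-- Inverse of `gauPrim`. -/
noncomputable def gauInv : ℝ → ℝ := Function.invFun gauPrim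

lemma gau_pos (t : ℝ) : 0 < gau t := exp_pos _

lemma continuous_gau : Continuous gau := by unfold gau; fun_prop

lemma hasStrictDerivAt_gauPrim (t : ℝ) : HasStrictDerivAt gauPrim (gau t) t :=
  intervalIntegral.integral_hasStrictDerivAt_right (continuous_gau.intervalIntegrable _ _)
    (continuous_gau.stronglyMeasurableAtFilter _ _) continuous_gau.continuousAt

lemma gauPrim_strictMono : StrictMono gauPrim := by
  refine strictMono_of_deriv_pos fun t => ?_
  rw [(hasStrictDerivAt_gauPrim t).hasDerivAt.deriv]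
  exact gau_pos t

lemma gauPrim_neg (t : ℝ) : gauPrim (-t) = -gauPrim t := by
  unfold gauPrim
  have := intervalIntegral.integral_comp_neg (f := gau) (a := 0) (b := -t)
  simp only [neg_neg, neg_zero] at this
  rw [intervalIntegral.integral_congr (g := gau) (fun s _ => by simp [gau])] at this
  rw [this, intervalIntegral.integral_symm]

lemma gauPrim_tendsto : Tendsto gauPrim atTop (𝓝 (1 / 2)) := by
  have hi : IntegrableOn gau (Ioi 0) := (integrable_exp_neg_mul_sq Real.pi_pos).integrableOn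
  have := intervalIntegral_tendsto_integral_Ioi 0 hi tendsto_id
  have e : ∫ x in Ioi (0:ℝ), gau x = 1 / 2 := by
    unfold gau; rw [integral_gaussian_Ioi, div_self Real.pi_ne_zero, Real.sqrt_one]
  rw [e] at this
  exact this

lemma gauPrim_surj {y : ℝ} (hy : y ∈ Ioo (-(1/2):ℝ) (1/2)) : ∃ t, gauPrim t = y := by
  obtain ⟨T, hT⟩ := (gauPrim_tendsto.eventually (lt_mem_nhds (max_lt hy.2
    (by linarith [hy.1] : -y < 1/2)))).exists
  obtain ⟨t, ht⟩ := intermediate_value_univ (f := gauPrim) (-T) T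
    (continuous_iff_continuousAt.2 fun t => (hasStrictDerivAt_gauPrim t).hasDerivAt.continuousAt)
    (show y ∈ Icc (gauPrim (-T)) (gauPrim T) from
      ⟨by rw [gauPrim_neg]; linarith [le_max_right y (-y)], by linarith [le_max_left y (-y)]⟩)
  exact ⟨t, ht⟩

lemma gauInv_gauPrim (t : ℝ) : gauInv (gauPrim t) = t :=
  Function.leftInverse_invFun gauPrim_strictMono.injective t

lemma gauPrim_gauInv {y : ℝ} (hy : y ∈ Ioo (-(1/2):ℝ) (1/2)) : gauPrim (gauInv y) = y :=
  Function.invFun_eq (gauPrim_surj hy)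

lemma hasDerivAt_gauInv {y : ℝ} (hy : y ∈ Ioo (-(1/2):ℝ) (1/2)) :
    HasDerivAt gauInv (gau (gauInv y))⁻¹ y := by
  have := (hasStrictDerivAt_gauPrim (gauInv y)).to_local_left_inverse (gau_pos _).ne'
    (Eventually.of_forall gauInv_gauPrim)
  rw [gauPrim_gauInv hy] at this
  exact this.hasDerivAt

/-- Monotone transport of an even density `A` on `(-h,h)` of mass `W` to the Gaussian. -/
noncomputable def transport (A : ℝ → ℝ) (W t : ℝ) : ℝ := gauInv ((∫ s in (0:ℝ)..t, A s) / W)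

/-- Hypotheses on a one-dimensional density. -/
structure Dens (A : ℝ → ℝ) (h W : ℝ) : Prop where
  hpos : 0 < h
  wpos : 0 < W
  cont : ContinuousOn A (Ioo (-h) h)
  pos : ∀ t ∈ Ioo (-h) h, 0 < A t
  int : IntervalIntegrable A volume (-h) h
  right : ∫ s in (0:ℝ)..h, A s = W / 2
  left : ∫ s in (-h)..0, A s = W / 2

variable {A : ℝ → ℝ} {h W : ℝ}

lemma Dens.mem_range (d : Dens A h W) {t : ℝ} (ht : t ∈ Ioo (-h) h) :
    (∫ s in (0:ℝ)..t, A s) / W ∈ Ioo (-(1/2):ℝ) (1/2) := by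
  have hsub : ∀ {a b : ℝ}, a ∈ Icc (-h) h → b ∈ Icc (-h) h → IntervalIntegrable A volume a b :=
    fun ha hb => d.int.mono_set (by
      rw [uIcc_of_le (by linarith [d.hpos] : -h ≤ h)]; exact uIcc_subset_Icc ha hb)
  have m0 : (0:ℝ) ∈ Icc (-h) h := ⟨by linarith [d.hpos], d.hpos.le⟩
  have mh : h ∈ Icc (-h) h := ⟨by linarith [d.hpos], le_rfl⟩
  have mn : -h ∈ Icc (-h) h := ⟨le_rfl, by linarith [d.hpos]⟩
  have mt : t ∈ Icc (-h) h := Ioo_subset_Icc_self ht
  have e1 := intervalIntegral.integral_add_adjacent_intervals (hsub m0 mt) (hsub mt mh)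
  have e2 := intervalIntegral.integral_add_adjacent_intervals (hsub mn mt) (hsub mt m0)
  have p1 : 0 < ∫ s in t..h, A s :=
    intervalIntegral.intervalIntegral_pos_of_pos_on (hsub mt mh)
      (fun x hx => d.pos x ⟨by linarith [ht.1, hx.1], hx.2⟩) ht.2
  have p2 : 0 < ∫ s in (-h)..t, A s :=
    intervalIntegral.intervalIntegral_pos_of_pos_on (hsub mn mt)
      (fun x hx => d.pos x ⟨hx.1, by linarith [ht.2, hx.2]⟩) ht.1
  have e3 : ∫ s in t..0, A s = -∫ s in (0:ℝ)..t, A s := intervalIntegral.integral_symm 0 t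
  have := d.right
  have := d.left
  constructor
  · rw [lt_div_iff₀ d.wpos]; linarith
  · rw [div_lt_iff₀ d.wpos]; linarith

lemma Dens.hasDerivAt (d : Dens A h W) {t : ℝ} (ht : t ∈ Ioo (-h) h) :
    HasDerivAt (transport A W) (A t / W / gau (transport A W t)) t := by
  have hsub : IntervalIntegrable A volume 0 t := d.int.mono_set (by
    rw [uIcc_of_le (by linarith [d.hpos] : -h ≤ h)]
    exact uIcc_subset_Icc ⟨by linarith [d.hpos], d.hpos.le⟩ (Ioo_subset_Icc_self ht))
  have h1 : HasDerivAt (fun u => (∫ s in (0:ℝ)..u, A s) / W) (A t / W) t :=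
    (intervalIntegral.integral_hasDerivAt_right hsub
      (d.cont.stronglyMeasurableAtFilter isOpen_Ioo t ht)
      (d.cont.continuousAt (isOpen_Ioo.mem_nhds ht))).div_const W
  refine HasDerivAt.congr_deriv ((hasDerivAt_gauInv (d.mem_range ht)).comp t h1) ?_
  unfold transport
  rw [div_eq_mul_inv _ (gau _), mul_comm]

lemma Dens.deriv_pos (d : Dens A h W) {t : ℝ} (ht : t ∈ Ioo (-h) h) :
    0 < A t / W / gau (transport A W t) :=
  div_pos (div_pos (d.pos t ht) d.wpos) (gau_pos _)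

lemma Dens.strictMonoOn (d : Dens A h W) : StrictMonoOn (transport A W) (Ioo (-h) h) := by
  refine strictMonoOn_of_deriv_pos (convex_Ioo _ _)
    (fun t ht => (d.hasDerivAt ht).continuousAt.continuousWithinAt) fun t ht => ?_
  rw [interior_Ioo] at ht
  rw [(d.hasDerivAt ht).deriv]
  exact d.deriv_pos ht

variable {m : ℕ} {ι : Type} [Fintype ι]

/-- `Π dᵢ^{cᵢ} ≤ det (Σ cᵢ dᵢ vᵢ⊗vᵢ)`. -/
lemma det_ge (c d : ι → ℝ) (v : ι → E m) (hc : ∀ i, 0 ≤ c i) (hv : ∀ i, ‖v i‖ = 1)
    (hid : ∀ x, ∑ i, c i * ⟪v i, x⟫ ^ 2 = ‖x‖ ^ 2) (hd : ∀ i, 0 < d i) :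
    ∏ i, d i ^ c i ≤
      LinearMap.det (∑ i, (c i * d i) • (innerₛₗ ℝ (v i)).smulRight (v i)) := by
  set M : E m →ₗ[ℝ] E m := ∑ i, (c i * d i) • (innerₛₗ ℝ (v i)).smulRight (v i) with hM
  have happ : ∀ x, M x = ∑ i, (c i * d i) • (⟪v i, x⟫ • v i) := fun x => by simp [hM]
  have hsym : M.IsSymmetric := fun x y => by
    rw [happ, happ, sum_inner, inner_sum]
    refine Finset.sum_congr rfl fun i _ => ?_
    simp only [real_inner_smul_left, real_inner_smul_right, real_inner_comm x (v i)]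
    ring
  have hn : Module.finrank ℝ (E m) = m := finrank_euclideanSpace_fin
  rw [hsym.det_eq_prod_eigenvalues hn]
  set u := hsym.eigenvectorBasis hn
  set p : Fin m → ι → ℝ := fun j i => c i * ⟪v i, u j⟫ ^ 2 with hp
  have hp1 : ∀ j, ∑ i, p j i = 1 := fun j => by simp [hp, hid, u.norm_eq_one]
  have hlam : ∀ j, hsym.eigenvalues hn j = ∑ i, p j i * d i := by
    intro j
    have h1 : ⟪M (u j), u j⟫ = hsym.eigenvalues hn j := by
      rw [hsym.apply_eigenvectorBasis hn j, real_inner_smul_left, real_inner_self_eq_norm_sq,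
        u.norm_eq_one]
      simp
    rw [← h1, happ, sum_inner]
    refine Finset.sum_congr rfl fun i _ => ?_
    simp only [hp, real_inner_smul_left]
    ring
  have hsum : ∀ i, ∑ j, p j i = c i := by
    intro i
    simp only [hp, ← Finset.mul_sum]
    have := u.sum_sq_norm_inner_left (v i)
    simp only [Real.norm_eq_abs, sq_abs] at this
    rw [this, hv, one_pow, mul_one]
  calc ∏ i, d i ^ c i = ∏ i, ∏ j, d i ^ p j i :=
        Finset.prod_congr rfl fun i _ => by rw [← Real.rpow_sum_of_pos (hd i), hsum]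
    _ = ∏ j, ∏ i, d i ^ p j i := Finset.prod_comm
    _ ≤ ∏ j, ∑ i, p j i * d i :=
        Finset.prod_le_prod (fun j _ => Finset.prod_nonneg fun i _ => rpow_nonneg (hd i).le _)
          fun j _ => geom_mean_le_arith_mean_weighted _ _ _
            (fun i _ => mul_nonneg (hc i) (sq_nonneg _)) (hp1 j) fun i _ => (hd i).le
    _ = _ := Finset.prod_congr rfl fun j _ => (hlam j).symm

lemma sum_weights (c : ι → ℝ) (v : ι → E m) (hv : ∀ i, ‖v i‖ = 1)
    (hid : ∀ x, ∑ i, c i * ⟪v i, x⟫ ^ 2 = ‖x‖ ^ 2) : ∑ i, c i = m := by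
  set b := EuclideanSpace.basisFun (Fin m) ℝ
  calc ∑ i, c i = ∑ i, ∑ j, c i * ⟪v i, b j⟫ ^ 2 :=
        Finset.sum_congr rfl fun i _ => by
          rw [← Finset.mul_sum]
          have := b.sum_sq_norm_inner_left (v i)
          simp only [Real.norm_eq_abs, sq_abs] at this
          rw [this, hv, one_pow, mul_one]
    _ = ∑ j : Fin m, ‖b j‖ ^ 2 := by rw [Finset.sum_comm]; simp only [hid]
    _ = m := by simp

/-- Geometric Brascamp–Lieb inequality for even densities of a common mass. -/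
theorem geometric (c : ι → ℝ) (v : ι → E m) (hc : ∀ i, 0 ≤ c i) (hv : ∀ i, ‖v i‖ = 1)
    (hid : ∀ x, ∑ i, c i * ⟪v i, x⟫ ^ 2 = ‖x‖ ^ 2) (A : ι → ℝ → ℝ) (h : ι → ℝ) (W : ℝ)
    (hW : 0 < W) (hA : ∀ i, Dens (A i) (h i) W) (U : Set (E m)) (hU : MeasurableSet U)
    (hUmem : ∀ x ∈ U, ∀ i, ⟪v i, x⟫ ∈ Ioo (-h i) (h i)) :
    ∫⁻ x in U, ENNReal.ofReal (∏ i, A i ⟪v i, x⟫ ^ c i) ≤ ENNReal.ofReal (W ^ m) := by
  set T : ι → ℝ → ℝ := fun i => transport (A i) W with hT
  set d : E m → ι → ℝ := fun x i => A i ⟪v i, x⟫ / W / gau (T i ⟪v i, x⟫) with hd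
  set θ : E m → E m := fun x => ∑ i, (c i * T i ⟪v i, x⟫) • v i with hθ
  set D : E m → E m →L[ℝ] E m := fun x =>
    ∑ i, (c i * d x i) • (innerSL ℝ (v i)).smulRight (v i) with hD
  have hder : ∀ x ∈ U, HasFDerivWithinAt θ (D x) U x := by
    intro x hx
    refine (HasFDerivAt.fun_sum fun i _ => ?_).hasFDerivWithinAt
    have h1 : HasFDerivAt (fun y : E m => ⟪v i, y⟫) (innerSL ℝ (v i)) x :=
      (innerSL ℝ (v i)).hasFDerivAt
    have h2 := ((((hA i).hasDerivAt (hUmem x hx i)).comp_hasFDerivAt x h1).const_mul (c i)).smul_const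
      (v i)
    refine h2.congr_fderiv ?_
    ext y
    simp [hd, hT, smul_smul, mul_assoc]
  have hinj : InjOn θ U := by
    intro x hx y hy hxy
    by_contra hne
    have h0 : ∑ i, c i * (T i ⟪v i, x⟫ - T i ⟪v i, y⟫) * (⟪v i, x⟫ - ⟪v i, y⟫) = 0 := by
      have : ⟪θ x - θ y, x - y⟫ = 0 := by rw [hxy, sub_self, inner_zero_left]
      rw [← this, hθ]
      simp only [← Finset.sum_sub_distrib, ← sub_smul, sum_inner, real_inner_smul_left, inner_sub_right]
      exact Finset.sum_congr rfl fun i _ => by ring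
    have hnn : ∀ i, 0 ≤ c i * (T i ⟪v i, x⟫ - T i ⟪v i, y⟫) * (⟪v i, x⟫ - ⟪v i, y⟫) := by
      intro i
      rw [mul_assoc]
      refine mul_nonneg (hc i) ?_
      rcases lt_trichotomy ⟪v i, x⟫ ⟪v i, y⟫ with hlt | he | hlt
      · exact mul_nonneg_of_nonpos_of_nonpos
          (sub_nonpos.2 ((hA i).strictMonoOn (hUmem x hx i) (hUmem y hy i) hlt).le) (by linarith)
      · simp [he]
      · exact mul_nonneg
          (sub_nonneg.2 ((hA i).strictMonoOn (hUmem y hy i) (hUmem x hx i) hlt).le) (by linarith)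
    have hz : ∀ i, c i * ⟪v i, x - y⟫ ^ 2 = 0 := by
      intro i
      have h1 := (Finset.sum_eq_zero_iff_of_nonneg fun j _ => hnn j).1 h0 i (Finset.mem_univ i)
      rcases mul_eq_zero.1 h1 with h2 | h2
      · rcases mul_eq_zero.1 h2 with h3 | h3
        · simp [h3]
        · have := (hA i).strictMonoOn.injOn (hUmem x hx i) (hUmem y hy i) (sub_eq_zero.1 h3)
          simp [inner_sub_right, this]
      · simp [inner_sub_right, h2]
    have := hid (x - y)
    simp only [hz, Finset.sum_const_zero] at this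
    exact hne (sub_eq_zero.1 (norm_eq_zero.1 (pow_eq_zero_iff two_ne_zero |>.1 this.symm)))
  have hnorm : ∀ x, ‖θ x‖ ^ 2 ≤ ∑ i, c i * T i ⟪v i, x⟫ ^ 2 := by
    intro x
    set s := ∑ i, c i * T i ⟪v i, x⟫ ^ 2
    have e : ‖θ x‖ ^ 2 = ∑ i, c i * T i ⟪v i, x⟫ * ⟪v i, θ x⟫ := by
      rw [← real_inner_self_eq_norm_sq]
      nth_rewrite 1 [hθ]
      simp only [sum_inner, real_inner_smul_left]
    have h2 : ∑ i, c i * T i ⟪v i, x⟫ * ⟪v i, θ x⟫ ≤ (s + ‖θ x‖ ^ 2) / 2 := by
      rw [← hid (θ x), ← Finset.sum_add_distrib, Finset.sum_div]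
      refine Finset.sum_le_sum fun i _ => ?_
      nlinarith [mul_nonneg (hc i) (sq_nonneg (T i ⟪v i, x⟫ - ⟪v i, θ x⟫))]
    linarith
  have key : ∀ x ∈ U, ENNReal.ofReal (∏ i, A i ⟪v i, x⟫ ^ c i) ≤
      ENNReal.ofReal (W ^ m) *
        (ENNReal.ofReal |(D x).det| * ENNReal.ofReal (exp (-π * ‖θ x‖ ^ 2))) := by
    intro x hx
    rw [← ENNReal.ofReal_mul (abs_nonneg _), ← ENNReal.ofReal_mul (by positivity)]
    refine ENNReal.ofReal_le_ofReal ?_
    have hd0 : ∀ i, 0 < d x i := fun i => (hA i).deriv_pos (hUmem x hx i)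
    have e1 : ∀ i, A i ⟪v i, x⟫ ^ c i =
        W ^ c i * (d x i ^ c i * gau (T i ⟪v i, x⟫) ^ c i) := fun i => by
      rw [← Real.mul_rpow (hd0 i).le (gau_pos _).le, ← Real.mul_rpow hW.le
        (mul_nonneg (hd0 i).le (gau_pos _).le)]
      congr 1
      simp only [hd]
      field_simp [(gau_pos (T i ⟪v i, x⟫)).ne']
    simp only [e1, Finset.prod_mul_distrib]
    rw [← Real.rpow_sum_of_pos hW, sum_weights c v hv hid, Real.rpow_natCast]
    refine mul_le_mul_of_nonneg_left (mul_le_mul ?_ ?_ ?_ (abs_nonneg _)) (by positivity)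
    · refine (det_ge c (d x) v hc hv hid hd0).trans (le_of_eq_of_le ?_ (le_abs_self _))
      show _ = LinearMap.det (D x).toLinearMap
      congr 1
      ext y
      simp [hD]
    · simp only [gau, ← Real.exp_mul]
      rw [← exp_sum, exp_le_exp]
      have := mul_le_mul_of_nonneg_left (hnorm x) Real.pi_pos.le
      rw [Finset.mul_sum] at this
      have e : ∑ i, -π * T i ⟪v i, x⟫ ^ 2 * c i = -∑ i, π * (c i * T i ⟪v i, x⟫ ^ 2) := by
        rw [← Finset.sum_neg_distrib]; exact Finset.sum_congr rfl fun i _ => by ring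
      rw [e]
      linarith
    · exact Finset.prod_nonneg fun i _ => rpow_nonneg (gau_pos _).le _
  refine (setLIntegral_mono' hU key).trans ?_
  rw [lintegral_const_mul' _ _ ENNReal.ofReal_ne_top,
    ← lintegral_image_eq_lintegral_abs_det_fderiv_mul volume hU hder hinj
      (fun y => ENNReal.ofReal (exp (-π * ‖y‖ ^ 2)))]
  refine mul_le_of_le_one_right' ((setLIntegral_le_lintegral _ _).trans (le_of_eq ?_))
  have hint : Integrable fun y : E m => exp (-π * ‖y‖ ^ 2) := by
    by_contra hni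
    have := GaussianFourier.integral_rexp_neg_mul_sq_norm (V := E m) Real.pi_pos
    rw [integral_undef hni, div_self Real.pi_ne_zero, one_rpow] at this
    norm_num at this
  rw [← ofReal_integral_eq_lintegral_ofReal hint (.of_forall fun _ => (exp_pos _).le),
    GaussianFourier.integral_rexp_neg_mul_sq_norm Real.pi_pos, div_self Real.pi_ne_zero, one_rpow, ENNReal.ofReal_one]

end Vale.Agent.P237.BL
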