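import Mathlib
import Vale.Agent.P237.Basic

/-!
# P237: the position minimising a weighted sum of lengths
-/

open MeasureTheory Set Real Filter Topology
open scoped RealInnerProductSpace

namespace Vale.Agent.P237

variable {m : ℕ}

lemma abs_det_adjoint (R : E m →L[ℝ] E m) :
    |LinearMap.det (ContinuousLinearMap.adjoint R).toLinearMap| = |LinearMap.det R.toLinearMap| := by
  rw [← ContinuousLinearMap.adjoint_toLinearMap]
  set b := EuclideanSpace.basisFun (Fin m) ℝ
  rw [← LinearMap.det_toMatrix b.toBasis, LinearMap.toMatrix_adjoint b b,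
    Matrix.det_conjTranspose, LinearMap.det_toMatrix, star_trivial]

/-- `det (1 + ε u⊗u) = 1 + ε` for a unit vector `u`. -/
lemma det_stretch {u : E m} (hu : ‖u‖ = 1) (ε : ℝ) :
    LinearMap.det (LinearMap.id + ε • (innerₛₗ ℝ u).smulRight u : E m →ₗ[ℝ] E m) = 1 + ε := by
  obtain ⟨k, rfl⟩ : ∃ k, m = k + 1 := by
    rcases m with _ | k
    · exact absurd (Subsingleton.elim u 0) (by intro h; simp [h] at hu)
    · exact ⟨k, rfl⟩
  obtain ⟨L, hL⟩ := exists_frame hu
  set f : E (k + 1) →ₗ[ℝ] E (k + 1) := LinearMap.id + ε • (innerₛₗ ℝ u).smulRight u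
  rw [← LinearMap.det_conj f L.toLinearEquiv]
  set b := EuclideanSpace.basisFun (Fin (k + 1)) ℝ
  rw [← LinearMap.det_toMatrix b.toBasis]
  have hmat : LinearMap.toMatrix b.toBasis b.toBasis
      ((L.toLinearEquiv : E (k + 1) →ₗ[ℝ] E (k + 1)) ∘ₗ f ∘ₗ
        (L.toLinearEquiv.symm : E (k + 1) →ₗ[ℝ] E (k + 1))) =
      Matrix.diagonal fun i => if i = 0 then 1 + ε else 1 := by
    ext i j
    rw [LinearMap.toMatrix_apply]
    have hfx : ∀ x, L (f (L.symm x)) = x + (ε * x 0) • e0 := by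
      intro x
      simp only [f, LinearMap.add_apply, LinearMap.id_apply, LinearMap.smul_apply,
        LinearMap.smulRight_apply, innerₛₗ_apply_apply, map_add, map_smul, L.apply_symm_apply, hL,
        smul_smul]
      congr 2
      rw [← L.inner_map_map, hL, L.apply_symm_apply, e0, EuclideanSpace.inner_single_left]
      simp
    show b.toBasis.repr (L (f (L.symm (b.toBasis j)))) i = _
    rw [hfx]
    simp only [OrthonormalBasis.coe_toBasis, OrthonormalBasis.coe_toBasis_repr_apply, b,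
      EuclideanSpace.basisFun_apply, EuclideanSpace.basisFun_repr, e0]
    rcases eq_or_ne i j with rfl | hij
    · by_cases hi : i = 0 <;> simp [hi]
    · by_cases hi : i = 0 <;> by_cases hj : j = 0 <;> simp_all [Ne.symm]
  rw [hmat, Matrix.det_diagonal, Fin.prod_univ_succ]
  simp [Fin.succ_ne_zero]

/-- A volume-preserving position in which the weighted directions are isotropic. -/
theorem exists_position {ι : Type} [Fintype ι] (q : ι → ℝ) (hq : ∀ i, 0 ≤ q i) (w : ι → E m)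
    (hspan : ∀ u : E m, u ≠ 0 → 0 < ∑ i, q i * |⟪w i, u⟫|) (hm : 1 ≤ m) :
    ∃ R : E m →L[ℝ] E m, |LinearMap.det R.toLinearMap| = 1 ∧
      (0 < ∑ i, q i * ‖R (w i)‖) ∧
      ∀ u : E m, (m : ℝ) * ∑ i, q i * (⟪u, R (w i)⟫ ^ 2 / ‖R (w i)‖) =
        (∑ i, q i * ‖R (w i)‖) * ‖u‖ ^ 2 := by
  set φ : (E m →L[ℝ] E m) → ℝ := fun R => ∑ i, q i * ‖R (w i)‖ with hφ
  have hφc : Continuous φ := by
    simp only [hφ]
    exact continuous_finsetSum _ fun i _ => continuous_const.mul
      (continuous_norm.comp (ContinuousLinearMap.apply ℝ (E m) (w i)).continuous)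
  have : Nonempty (Fin m) := ⟨⟨0, hm⟩⟩
  obtain ⟨u₀, hu₀, hmin⟩ := (isCompact_sphere (0 : E m) 1).exists_isMinOn
    (f := fun u => ∑ i, q i * |⟪w i, u⟫|)
    ⟨EuclideanSpace.single ⟨0, hm⟩ 1, by simp⟩ (by fun_prop)
  set δ := ∑ i, q i * |⟪w i, u₀⟫|
  have hδ : 0 < δ := hspan u₀ (by intro h; simp [h] at hu₀)
  have hlow : ∀ u, δ * ‖u‖ ≤ ∑ i, q i * |⟪w i, u⟫| := by
    intro u
    rcases eq_or_ne u 0 with rfl | hu
    · simp
    · have := hmin (show ‖u‖⁻¹ • u ∈ Metric.sphere (0 : E m) 1 by rw [mem_sphere_zero_iff_norm]; exact norm_smul_inv_norm (𝕜 := ℝ) hu)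
      simp only [mem_ofPred_eq, real_inner_smul_right, abs_mul, abs_inv, abs_norm] at this
      rw [← le_div_iff₀ (norm_pos_iff.2 hu), Finset.sum_div]
      exact this.trans_eq (Finset.sum_congr rfl fun i _ => by ring)
  have hbound : ∀ R : E m →L[ℝ] E m, δ * ‖R‖ ≤ φ R := by
    intro R
    rw [← ContinuousLinearMap.adjoint.norm_map R, ← le_div_iff₀' hδ]
    refine ContinuousLinearMap.opNorm_le_bound _ (div_nonneg (Finset.sum_nonneg fun i _ => mul_nonneg (hq i) (norm_nonneg _)) hδ.le) fun e => ?_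
    rw [div_mul_eq_mul_div, le_div_iff₀' hδ]
    refine (hlow _).trans ?_
    rw [hφ, Finset.sum_mul]
    refine Finset.sum_le_sum fun i _ => ?_
    rw [mul_assoc]
    refine mul_le_mul_of_nonneg_left ?_ (hq i)
    rw [ContinuousLinearMap.adjoint_inner_right]
    exact abs_real_inner_le_norm _ _
  set 𝒮 : Set (E m →L[ℝ] E m) :=
    {R | |LinearMap.det R.toLinearMap| = 1 ∧ φ R ≤ φ (ContinuousLinearMap.id ℝ (E m))} with h𝒮
  have hcl : IsClosed 𝒮 :=
    (isClosed_eq (continuous_abs.comp ContinuousLinearMap.continuous_det) continuous_const).inter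
      (isClosed_le hφc continuous_const)
  have hbd : Bornology.IsBounded 𝒮 :=
    (Metric.isBounded_closedBall (x := (0 : E m →L[ℝ] E m))
      (r := φ (ContinuousLinearMap.id ℝ (E m)) / δ)).subset fun R hR => by
        rw [mem_closedBall_zero_iff, le_div_iff₀' hδ]; exact (hbound R).trans hR.2
  have : ProperSpace (E m →L[ℝ] E m) := FiniteDimensional.proper ℝ _
  have hid : ContinuousLinearMap.id ℝ (E m) ∈ 𝒮 := ⟨by simp, le_rfl⟩
  obtain ⟨R, hR, hRmin⟩ := (Metric.isCompact_of_isClosed_isBounded hcl hbd).exists_isMinOn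
    ⟨_, hid⟩ hφc.continuousOn
  have hglob : ∀ R' : E m →L[ℝ] E m, |LinearMap.det R'.toLinearMap| = 1 → φ R ≤ φ R' := by
    intro R' h'
    rcases le_total (φ R') (φ (ContinuousLinearMap.id ℝ (E m))) with h | h
    · exact hRmin ⟨h', h⟩
    · exact (hRmin hid).trans h
  have hφ0 : 0 < φ R := by
    refine lt_of_lt_of_le (mul_pos hδ (norm_pos_iff.2 ?_)) (hbound R)
    intro h0
    have := hR.1
    rw [h0, ContinuousLinearMap.toLinearMap_zero, LinearMap.det_zero, finrank_euclideanSpace_fin,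
      zero_pow (by omega), abs_zero] at this
    norm_num at this
  refine ⟨R, hR.1, hφ0, fun u => ?_⟩
  have hinj : ∀ x, R x = 0 → x = 0 := by
    intro x hx
    have hd : IsUnit (LinearMap.det R.toLinearMap) := by
      refine isUnit_iff_ne_zero.2 fun h0 => ?_
      have := hR.1; rw [h0, abs_zero] at this; norm_num at this
    exact (LinearMap.equivOfIsUnitDet hd).injective (by simpa using hx)
  suffices H : ∀ u : E m, ‖u‖ = 1 →
      (m : ℝ) * ∑ i, q i * (⟪u, R (w i)⟫ ^ 2 / ‖R (w i)‖) = φ R by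
    rcases eq_or_ne u 0 with rfl | hu
    · simp
    · have := H _ (norm_smul_inv_norm hu (𝕜 := ℝ))
      simp only [RCLike.ofReal_real_eq_id, id_eq, real_inner_smul_left, mul_pow] at this
      rw [show (∑ i, q i * ((‖u‖⁻¹) ^ 2 * ⟪u, R (w i)⟫ ^ 2 / ‖R (w i)‖)) =
          (‖u‖⁻¹) ^ 2 * ∑ i, q i * (⟪u, R (w i)⟫ ^ 2 / ‖R (w i)‖) by
        rw [Finset.mul_sum]; exact Finset.sum_congr rfl fun i _ => by ring] at this
      show _ = φ R * _
      rw [← this]
      field_simp [norm_ne_zero_iff.2 hu]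
  intro u hu
  -- stretch along `u`
  set Rε : ℝ → E m →L[ℝ] E m := fun ε =>
    ((ContinuousLinearMap.id ℝ (E m)) + ε • (innerSL ℝ u).smulRight u).comp R with hRε
  have hdet : ∀ ε, LinearMap.det (Rε ε).toLinearMap = (1 + ε) * LinearMap.det R.toLinearMap := by
    intro ε
    rw [← det_stretch hu ε, ← LinearMap.det_comp]
    congr 1
  have key : ∀ ε : ℝ, -1 < ε → (1 + ε) ^ ((m:ℝ)⁻¹) * φ R ≤ φ (Rε ε) := by
    intro ε hε
    set s := (1 + ε) ^ ((m:ℝ)⁻¹) with hs
    have hs0 : 0 < s := rpow_pos_of_pos (by linarith) _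
    have h1 := hglob (s⁻¹ • Rε ε) (by
      rw [ContinuousLinearMap.toLinearMap_smul, LinearMap.det_smul, hdet, finrank_euclideanSpace_fin,
        abs_mul, abs_mul, hR.1, mul_one, abs_of_pos (pow_pos (inv_pos.2 hs0) m),
        abs_of_pos (by linarith : 0 < 1 + ε), inv_pow, hs,
        rpow_inv_natCast_pow (by linarith) (by omega), inv_mul_cancel₀ (by linarith)])
    have h2 : φ (s⁻¹ • Rε ε) = s⁻¹ * φ (Rε ε) := by
      simp only [hφ, Finset.mul_sum]
      refine Finset.sum_congr rfl fun i _ => ?_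
      rw [smul_apply, norm_smul, Real.norm_of_nonneg (inv_nonneg.2 hs0.le)]
      ring
    rw [h2, le_inv_mul_iff₀ hs0] at h1
    exact h1
  have hterm : ∀ i, HasDerivAt (fun ε => q i * ‖Rε ε (w i)‖)
      (q i * (⟪u, R (w i)⟫ ^ 2 / ‖R (w i)‖)) 0 := by
    intro i
    rcases eq_or_ne (R (w i)) 0 with h0 | h0
    · have : ∀ ε, q i * ‖Rε ε (w i)‖ = 0 := fun ε => by simp [hRε, h0]
      simp only [this, h0, norm_zero, div_zero, mul_zero]
      exact hasDerivAt_const 0 0
    · refine HasDerivAt.const_mul (q i) ?_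
      set y := R (w i) with hy
      have e : ∀ ε, ‖Rε ε (w i)‖ = √(‖y‖ ^ 2 + ε * (2 * ⟪u, y⟫ ^ 2) + ε ^ 2 * ⟪u, y⟫ ^ 2) := by
        intro ε
        rw [← Real.sqrt_sq (norm_nonneg (Rε ε (w i)))]
        congr 1
        simp only [hRε, ContinuousLinearMap.comp_apply, ContinuousLinearMap.add_apply,
          ContinuousLinearMap.id_apply, ContinuousLinearMap.smul_apply,
          ContinuousLinearMap.smulRight_apply, innerSL_apply_apply, ← hy, smul_smul,
          norm_add_sq_real, norm_smul, hu, mul_one, real_inner_smul_right, Real.norm_eq_abs, sq_abs,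
          real_inner_comm u y]
        ring
      simp only [e]
      have h1 : HasDerivAt (fun ε => ‖y‖ ^ 2 + ε * (2 * ⟪u, y⟫ ^ 2) + ε ^ 2 * ⟪u, y⟫ ^ 2)
          (2 * ⟪u, y⟫ ^ 2) 0 := by
        simpa using (((hasDerivAt_id (0:ℝ)).mul_const (2 * ⟪u, y⟫ ^ 2)).const_add (‖y‖ ^ 2)).fun_add
          ((hasDerivAt_pow 2 (0:ℝ)).mul_const (⟪u, y⟫ ^ 2))
      refine (h1.sqrt (by simp [h0])).congr_deriv ?_
      simp [Real.sqrt_sq (norm_nonneg y)]
      ring
  have hd : HasDerivAt (fun ε => φ (Rε ε) - (1 + ε) ^ ((m:ℝ)⁻¹) * φ R)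
      (∑ i, q i * (⟪u, R (w i)⟫ ^ 2 / ‖R (w i)‖) - (m:ℝ)⁻¹ * φ R) 0 := by
    have h1 := ((hasDerivAt_id (0:ℝ)).const_add 1).rpow_const (p := (m:ℝ)⁻¹) (Or.inl (by norm_num))
    simp only [id_eq, add_zero, one_rpow, mul_one, one_mul] at h1
    exact (HasDerivAt.fun_sum fun i _ => hterm i).fun_sub (h1.mul_const (φ R))
  have hmin0 : IsLocalMin (fun ε => φ (Rε ε) - (1 + ε) ^ ((m:ℝ)⁻¹) * φ R) 0 := by
    filter_upwards [lt_mem_nhds (show (-1:ℝ) < 0 by norm_num)] with ε hε
    have e0 : Rε 0 = R := by ext1 x; simp [hRε]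
    simp only [e0, add_zero, one_rpow, one_mul, sub_self]
    linarith [key ε hε]
  have := hmin0.hasDerivAt_eq_zero hd
  rw [sub_eq_zero.1 this]
  field_simp

end Vale.Agent.P237
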