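import Mathlib
import Vale.Agent.P237.Main
import Vale.Agent.P237.BL
import Vale.Agent.P237.Position

/-!
# P237: the recursion step from the Brascamp–Lieb inequality
-/

open MeasureTheory Set Real Filter Topology
open scoped Pointwise RealInnerProductSpace ENNReal

namespace Vale.Agent.P237

variable {n : ℕ}

lemma measurable_slice_volume {C : Set (E (n + 1))} (hC : MeasurableSet C) :
    Measurable fun t => volume.real (slice C t) :=
  (measurable_measure_prodMk_left (ν := (volume : Measure (E n)))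
    (hC.preimage continuous_cons.measurable)).ennreal_toReal

lemma setLIntegral_hd {C : Set (E (n + 1))} (hC : MeasurableSet C) {φ : ℝ → ℝ≥0∞}
    (hφ : Measurable φ) : ∫⁻ x in C, φ (hd x) = ∫⁻ t, φ t * volume (slice C t) := by
  set T : Set (ℝ × E n) := {p | cons p.1 p.2 ∈ C} with hT
  have hTm : MeasurableSet T := hC.preimage continuous_cons.measurable
  have hpre : (fun x : E (n + 1) => (hd x, tl x)) ⁻¹' T = C := by
    ext x; simp [hT]
  conv_lhs => rw [← hpre]
  rw [measurePreserving_split.setLIntegral_comp_preimage hTm (f := fun p : ℝ × E n => φ p.1)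
      (hφ.comp measurable_fst),
    ← lintegral_indicator hTm, lintegral_prod _ ((show Measurable fun p : ℝ × E n => φ p.1 from
      hφ.comp measurable_fst).indicator hTm).aemeasurable]
  refine lintegral_congr fun t => ?_
  rw [show (fun y => T.indicator (fun p : ℝ × E n => φ p.1) (t, y)) =
      (slice C t).indicator (fun _ => φ t) from by
    funext y; exact (Set.indicator_comp_right (Prod.mk t) (g := fun p : ℝ × E n => φ p.1) (x := y)).symm]
  exact lintegral_indicator_const
    (hC.preimage (continuous_cons.comp (continuous_const.prodMk continuous_id)).measurable) _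

lemma inner_lt_supp {K : Set (E n)} (hK : IsCompact K) {v : E n} (hv : ‖v‖ = 1) {x : E n}
    (hx : x ∈ interior K) : ⟪x, v⟫ < supp K v := by
  obtain ⟨r, hr, hball⟩ := Metric.isOpen_iff.1 isOpen_interior x hx
  have := le_supp hK v (x := x + (r / 2) • v) (interior_subset (hball (by
    rw [Metric.mem_ball, dist_eq_norm, add_sub_cancel_left, norm_smul, hv, mul_one,
      Real.norm_of_nonneg (by positivity)]
    linarith)))
  rw [inner_add_left, real_inner_smul_left, real_inner_self_eq_norm_sq, hv] at this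
  linarith

/-- The slice profile on the whole interval. -/
lemma profile_full {K : Set (E (n + 1 + 1))} (hK : IsBody K) (hsym : ∀ x ∈ K, -x ∈ K)
    {v : E (n + 1 + 1)} (hv : ‖v‖ = 1) (L : E (n + 1 + 1) ≃ₗᵢ[ℝ] E (n + 1 + 1)) (hL : L v = e0) :
    (∀ t, volume.real (slice (L '' K) (-t)) = volume.real (slice (L '' K) t)) ∧
    ContinuousOn (fun t => volume.real (slice (L '' K) t)) (Ioo (-supp K v) (supp K v)) ∧
    (∀ t ∈ Ioo (-supp K v) (supp K v), 0 < volume.real (slice (L '' K) t)) := by
  obtain ⟨hCc, hCv, hCs, h00, hbd, hne⟩ := supp_slice hK hsym L hL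
  obtain ⟨hh0, -, hfanti, -, eV⟩ := profile hK hsym hv L hL
  set h := supp K v
  set C := L '' K
  set f := fun t => volume.real (slice C t) ^ (((n + 1 : ℕ):ℝ)⁻¹) with hf
  have hev : ∀ t, volume.real (slice C (-t)) = volume.real (slice C t) := fun t => by
    rw [slice_neg hCs, measureReal_def, Measure.measure_neg, ← measureReal_def]
  have hsne : ∀ t ∈ Icc (-h) h, (slice C t).Nonempty := by
    intro t ht
    rcases le_total 0 t with h1 | h1
    · exact slice_nonempty_mono hCv hCs hne ⟨h1, ht.2⟩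
    · have := slice_nonempty_mono hCv hCs hne (t := -t) ⟨neg_nonneg.2 h1, by linarith [ht.1]⟩
      rw [slice_neg hCs] at this
      exact Set.nonempty_neg.1 this
  have hconc : ConcaveOn ℝ (Icc (-h) h) f := by
    refine ⟨convex_Icc _ _, fun x hx y hy p q hp hq hpq => ?_⟩
    refine bm (n := n + 1) (by omega) (slice_convex hCv x) (slice_isCompact hCc x) (hsne x hx)
      (slice_convex hCv y) (slice_isCompact hCc y) (hsne y hy) (slice_convex hCv _)
      (slice_isCompact hCc _) hp hq hpq ?_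
    intro z hz z' hz'
    have := hCv hz hz' hp hq hpq
    rw [smul_cons, smul_cons, cons_add] at this
    exact this
  have hpow : ∀ t, f t ^ (n + 1) = volume.real (slice C t) := fun t =>
    rpow_inv_natCast_pow measureReal_nonneg (by omega)
  have hcont : ContinuousOn f (Ioo (-h) h) :=
    (hconc.subset Ioo_subset_Icc_self (convex_Ioo _ _)).continuousOn isOpen_Ioo
  have hf0 : 0 < f 0 := by
    rcases (rpow_nonneg measureReal_nonneg _ : 0 ≤ f 0).eq_or_lt with he | hlt
    · exfalso
      refine hK.volume_pos.ne' ?_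
      rw [eV, intervalIntegral.integral_congr (g := fun _ => (0:ℝ)) fun t ht => ?_]
      · simp
      · rw [uIcc_of_le h00] at ht
        have h1 : f t ≤ 0 := (hfanti ⟨le_rfl, h00⟩ ht ht.1).trans_eq he.symm
        rw [← hpow, le_antisymm h1 (rpow_nonneg measureReal_nonneg _)]
        simp
    · exact hlt
  refine ⟨hev, (hcont.pow (n + 1)).congr fun t _ => (hpow t).symm, fun t ht => ?_⟩
  have habs : |t| < h := abs_lt.2 ht
  have hc2 := hconc.2
  have := hc2 (x := 0) ⟨by linarith, h00⟩ (y := h) ⟨by linarith, le_rfl⟩ (a := 1 - |t| / h)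
    (b := |t| / h) (sub_nonneg.2 ((div_le_one hh0).2 habs.le)) (by positivity) (by ring)
  simp only [smul_eq_mul, mul_zero, zero_add, div_mul_cancel₀ _ hh0.ne'] at this
  have h1 : 0 < (1 - |t| / h) * f 0 := mul_pos (sub_pos.2 ((div_lt_one hh0).2 habs)) hf0
  have h2 : 0 ≤ |t| / h * f h := mul_nonneg (by positivity) (rpow_nonneg measureReal_nonneg _)
  have h3 : f t = f |t| := by
    rcases abs_choice t with he | he <;> simp only [hf, he, hev]
  rw [← hpow, h3]
  exact pow_pos (by linarith) _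

lemma symm_lintegral {g : ℝ → ℝ} {h : ℝ} (hh : 0 ≤ h) (hg : IntervalIntegrable g volume 0 h)
    (h0 : ∀ t, 0 ≤ g t) (hev : ∀ t, g (-t) = g t) :
    IntervalIntegrable g volume (-h) h ∧ (∫ t in (-h)..0, g t) = ∫ t in (0:ℝ)..h, g t ∧
      ∫⁻ t in Ioo (-h) h, ENNReal.ofReal (g t) = ENNReal.ofReal (2 * ∫ t in (0:ℝ)..h, g t) := by
  have i0 : IntervalIntegrable g volume (-h) 0 := by
    have := (IntervalIntegrable.iff_comp_neg).1 hg
    simp only [neg_zero, hev] at this
    exact this.symm
  have e : (∫ t in (-h)..0, g t) = ∫ t in (0:ℝ)..h, g t := by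
    have := intervalIntegral.integral_comp_neg (f := g) (a := 0) (b := h)
    simp only [hev, neg_zero] at this
    exact this.symm
  refine ⟨i0.trans hg, e, ?_⟩
  have hi : IntegrableOn g (Ioc (-h) h) := (i0.trans hg).1
  rw [setLIntegral_congr Ioo_ae_eq_Ioc, ← ofReal_integral_eq_lintegral_ofReal hi (.of_forall h0),
    ← intervalIntegral.integral_of_le (by linarith),
    ← intervalIntegral.integral_add_adjacent_intervals i0 hg, e]
  congr 1; ring

lemma measurePreserving_linearEquiv (W : E n ≃ₗ[ℝ] E n)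
    (h : |LinearMap.det W.toLinearMap| = 1) :
    MeasurePreserving W volume volume := by
  refine ⟨W.toContinuousLinearEquiv.continuous.measurable, ?_⟩
  have hne : LinearMap.det W.toLinearMap ≠ 0 := by
    intro h0; rw [h0, abs_zero] at h; norm_num at h
  have := Measure.map_linearMap_addHaar_eq_smul_addHaar (μ := (volume : Measure (E n))) hne
  rw [abs_inv, h, inv_one, ENNReal.ofReal_one, one_smul] at this
  exact this

/-- Tangent bound used instead of Jensen's inequality. -/
lemma amgm_tangent {ι : Type} [Fintype ι] (w z : ι → ℝ) (hw : ∀ i, 0 ≤ w i) (hw1 : ∑ i, w i = 1)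
    (hz : ∀ i, 0 < z i) {m γ C : ℝ} (hγ : 0 ≤ γ) (hm : 0 < m) (hC : 0 < C) :
    (1 + γ) * C ^ (-γ) ≤ (∑ i, w i * z i ^ (-(γ * m))) +
      γ * C ^ (-γ) / C * ∏ i, z i ^ (m * w i) := by
  have hP : 0 < ∏ i, z i ^ (m * w i) := Finset.prod_pos fun i _ => rpow_pos_of_pos (hz i) _
  set P := ∏ i, z i ^ (m * w i) with hPd
  have h1 : P ^ (-γ) ≤ ∑ i, w i * z i ^ (-(γ * m)) := by
    refine le_of_eq_of_le ?_ (geom_mean_le_arith_mean_weighted Finset.univ w
      (fun i => z i ^ (-(γ * m))) (fun i _ => hw i) hw1 fun i _ => (rpow_pos_of_pos (hz i) _).le)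
    rw [hPd, ← Real.finsetProd_rpow _ _ (fun i _ => (rpow_pos_of_pos (hz i) _).le)]
    refine Finset.prod_congr rfl fun i _ => ?_
    rw [← rpow_mul (hz i).le, ← rpow_mul (hz i).le]
    ring_nf
  have h2 : (1 + γ) * C ^ (-γ) ≤ P ^ (-γ) + γ * C ^ (-γ) / C * P := by
    have hl := Real.log_le_sub_one_of_pos (div_pos hP hC)
    rw [Real.log_div hP.ne' hC.ne'] at hl
    have he := add_one_le_exp (-γ * (Real.log P - Real.log C))
    have h4 : 1 + γ - γ * (P / C) ≤ exp (-γ * (Real.log P - Real.log C)) := by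
      nlinarith [mul_le_mul_of_nonneg_left hl hγ]
    have h5 := mul_le_mul_of_nonneg_left h4 (rpow_pos_of_pos hC (-γ)).le
    rw [rpow_def_of_pos hC (-γ), ← exp_add,
      show Real.log C * -γ + -γ * (Real.log P - Real.log C) = Real.log P * -γ by ring,
      ← rpow_def_of_pos hP, ← rpow_def_of_pos hC] at h5
    linarith [show C ^ (-γ) * (1 + γ - γ * (P / C)) = (1 + γ) * C ^ (-γ) - γ * C ^ (-γ) / C * P by ring]
  linarith

/-- The weighted mean of entropy powers is at least `V^n · V^(1/(n+2))`. -/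
lemma mean_power_bound {ι : Type} [Fintype ι] {K : Set (E (n + 1 + 1))} (hK : IsBody K)
    (hsym : ∀ x ∈ K, -x ∈ K) (v v' : ι → E (n + 1 + 1)) (hv : ∀ i, ‖v i‖ = 1)
    (hv' : ∀ i, ‖v' i‖ = 1) (L : ι → E (n + 1 + 1) ≃ₗᵢ[ℝ] E (n + 1 + 1))
    (hL : ∀ i, L i (v i) = e0) (ρ : ι → ℝ) (hρ : ∀ i, 0 < ρ i)
    (W : E (n + 1 + 1) ≃ₗ[ℝ] E (n + 1 + 1)) (hWdet : |LinearMap.det W.toLinearMap| = 1)
    (hW : ∀ i x, ⟪v i, x⟫ = ρ i * ⟪v' i, W x⟫)
    (c : ι → ℝ) (hc : ∀ i, 0 ≤ c i) (hid : ∀ x, ∑ i, c i * ⟪v' i, x⟫ ^ 2 = ‖x‖ ^ 2) :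
    volume.real K ^ n * volume.real K ^ (((n + 1 + 1 : ℕ):ℝ)⁻¹) ≤
      ∑ i, c i / ((n + 1 + 1 : ℕ):ℝ) *
        ((2 * ∫ t in (0:ℝ)..supp K (v i),
          (volume.real (slice (L i '' K) t) ^ (((n + 1 : ℕ):ℝ)⁻¹)) ^ n) ^ (n + 1) / ρ i) := by
  set V := volume.real K with hVdef
  have hV : 0 < V := hK.volume_pos
  set m : ℝ := ((n + 1 + 1 : ℕ):ℝ) with hm
  have hm0 : 0 < m := by positivity
  set k : ℝ := ((n + 1 : ℕ):ℝ) with hk
  have hk0 : 0 < k := by positivity
  set h : ι → ℝ := fun i => supp K (v i) with hh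
  set A : ι → ℝ → ℝ := fun i t => volume.real (slice (L i '' K) t) with hA
  set A' : ι → ℝ → ℝ := fun i s => ρ i * A i (ρ i * s) with hA'
  have hsum : ∑ i, c i = m := BL.sum_weights c v' hv' hid
  set w : ι → ℝ := fun i => c i / m with hw
  have hw1 : ∑ i, w i = 1 := by simp only [hw, ← Finset.sum_div, hsum, div_self hm0.ne']
  have hw0 : ∀ i, 0 ≤ w i := fun i => div_nonneg (hc i) hm0.le
  set U := interior K with hU
  have hUm : MeasurableSet U := isOpen_interior.measurableSet
  have hmemU : ∀ i, ∀ x ∈ U, ⟪v i, x⟫ ∈ Ioo (-h i) (h i) := by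
    intro i x hx
    refine ⟨?_, by rw [real_inner_comm]; exact inner_lt_supp hK.compact (hv i) hx⟩
    have hnx : -x ∈ interior K :=
      mem_interior.2 ⟨-interior K, fun y hy => by simpa using hsym _ (interior_subset hy),
        isOpen_interior.neg, by simpa using hx⟩
    have := inner_lt_supp hK.compact (hv i) hnx
    rw [inner_neg_left, real_inner_comm] at this
    show -supp K (v i) < _
    linarith
  have hprof := fun i => profile hK hsym (hv i) (L i) (hL i)
  have hfull := fun i => profile_full hK hsym (hv i) (L i) (hL i)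
  have hdens : ∀ i, BL.Dens (A' i) (h i / ρ i) V := by
    intro i
    obtain ⟨hh0, -, -, -, eV⟩ := hprof i
    obtain ⟨hev, hcont, hpos⟩ := hfull i
    obtain ⟨hCc, hCv, hCs, h00, hbd, hne⟩ := supp_slice hK hsym (L i) (hL i)
    obtain ⟨i0, -⟩ := integral_symm hCc hCv hCs h00 hbd hne (φ := fun _ => 1) continuous_const
      fun _ => rfl
    obtain ⟨ii, el, -⟩ := symm_lintegral h00 i0 (fun _ => measureReal_nonneg) hev
    have hmem : ∀ s ∈ Ioo (-(h i / ρ i)) (h i / ρ i), ρ i * s ∈ Ioo (-h i) (h i) := by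
      intro s hs
      have h1 := mul_lt_mul_of_pos_left hs.1 (hρ i)
      have h2 := mul_lt_mul_of_pos_left hs.2 (hρ i)
      rw [mul_neg, mul_div_cancel₀ _ (hρ i).ne'] at h1
      rw [mul_div_cancel₀ _ (hρ i).ne'] at h2
      exact ⟨h1, h2⟩
    refine ⟨div_pos hh0 (hρ i), hV,
      continuousOn_const.mul (hcont.comp (continuous_const.mul continuous_id).continuousOn hmem),
      fun s hs => mul_pos (hρ i) (hpos _ (hmem s hs)), ?_, ?_, ?_⟩
    · have := (ii.comp_mul_left (c := ρ i)).const_mul (ρ i)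
      rw [neg_div] at this
      exact this
    · simp only [hA', intervalIntegral.integral_const_mul]
      rw [intervalIntegral.mul_integral_comp_mul_left, mul_zero, mul_div_cancel₀ _ (hρ i).ne']
      simp only [hVdef, hA, hh]; rw [eV]; ring
    · simp only [hA', intervalIntegral.integral_const_mul]
      rw [intervalIntegral.mul_integral_comp_mul_left, mul_zero, mul_neg,
        mul_div_cancel₀ _ (hρ i).ne']
      simp only [hVdef, hA, hh]; rw [eV, el]; ring
  have hmp := measurePreserving_linearEquiv W hWdet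
  have hWemb : MeasurableEmbedding W :=
    W.toContinuousLinearEquiv.toHomeomorph.toMeasurableEquiv.measurableEmbedding
  have hBL : ∫⁻ x in U, ENNReal.ofReal (∏ i, (ρ i * A i ⟪v i, x⟫) ^ c i) ≤
      ENNReal.ofReal (V ^ (n + 1 + 1)) := by
    have := BL.geometric c v' hc hv' hid A' (fun i => h i / ρ i) V hV hdens (W '' U)
      (W.toContinuousLinearEquiv.toHomeomorph.isOpenMap _ isOpen_interior).measurableSet (by
        rintro _ ⟨x, hx, rfl⟩ i
        have h1 := hmemU i x hx
        rw [hW] at h1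
        constructor
        · rw [← neg_div, div_lt_iff₀ (hρ i)]; linarith [h1.1]
        · rw [lt_div_iff₀ (hρ i)]; linarith [h1.2])
    refine le_trans (le_of_eq ?_) this
    rw [← hmp.setLIntegral_comp_emb hWemb]
    simp only [hA', hW]
  set γ : ℝ := 1 / (m * k) with hγ
  have hγ0 : 0 ≤ γ := by positivity
  set C : ℝ := V ^ (n + 1) with hC
  have hC0 : 0 < C := pow_pos hV _
  set g : ι → ℝ → ℝ := fun i t => (A i t ^ k⁻¹) ^ n with hg
  set J : ι → ℝ := fun i => 2 * ∫ t in (0:ℝ)..h i, g i t with hJ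
  set Q : ι → ℝ := fun i => ρ i ^ (-k⁻¹) * J i with hQ
  have hQint : ∀ i, ∫⁻ x in U, ENNReal.ofReal ((ρ i * A i ⟪v i, x⟫) ^ (-k⁻¹)) ≤
      ENNReal.ofReal (Q i) := by
    intro i
    obtain ⟨hh0, -, hfanti, -, -⟩ := hprof i
    obtain ⟨hev, -, hpos⟩ := hfull i
    have hAm : Measurable (A i) :=
      measurable_slice_volume (hK.compact.image (L i).continuous).measurableSet
    set φ : ℝ → ℝ≥0∞ := (Ioo (-h i) (h i)).indicator
      (fun t => ENNReal.ofReal ((ρ i * A i t) ^ (-k⁻¹))) with hφ
    have hφm : Measurable φ :=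
      (ENNReal.measurable_ofReal.comp ((measurable_const.mul hAm).pow_const _)).indicator
        measurableSet_Ioo
    calc ∫⁻ x in U, ENNReal.ofReal ((ρ i * A i ⟪v i, x⟫) ^ (-k⁻¹))
        = ∫⁻ x in U, φ (hd (L i x)) := by
          refine setLIntegral_congr_fun hUm fun x hx => ?_
          rw [exists_isometry_slice (hL i), ← real_inner_comm x (v i), hφ,
            indicator_of_mem (hmemU i x hx)]
      _ ≤ ∫⁻ x in K, φ (hd (L i x)) := lintegral_mono_set interior_subset
      _ = ∫⁻ y in L i '' K, φ (hd y) :=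
          (L i).measurePreserving.setLIntegral_comp_emb
            (L i).toHomeomorph.toMeasurableEquiv.measurableEmbedding (fun y => φ (hd y)) K
      _ = ∫⁻ t, φ t * volume (slice (L i '' K) t) :=
          setLIntegral_hd (hK.compact.image (L i).continuous).measurableSet hφm
      _ = ∫⁻ t in Ioo (-h i) (h i), ENNReal.ofReal (ρ i ^ (-k⁻¹) * g i t) := by
          rw [← lintegral_indicator measurableSet_Ioo]
          refine lintegral_congr fun t => ?_
          by_cases ht : t ∈ Ioo (-h i) (h i)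
          · rw [hφ, indicator_of_mem ht, indicator_of_mem ht]
            have hfin : volume (slice (L i '' K) t) ≠ ⊤ :=
              (slice_isCompact (hK.compact.image (L i).continuous) t).measure_lt_top.ne
            rw [← ENNReal.ofReal_toReal hfin, ← ENNReal.ofReal_mul
              (rpow_nonneg (mul_nonneg (hρ i).le measureReal_nonneg) _)]
            congr 1
            have hAt : 0 < A i t := hpos t ht
            show (ρ i * A i t) ^ (-k⁻¹) * A i t = ρ i ^ (-k⁻¹) * (A i t ^ k⁻¹) ^ n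
            rw [mul_rpow (hρ i).le hAt.le, mul_assoc, ← rpow_natCast _ n, ← rpow_mul hAt.le]
            congr 1
            rw [← rpow_add_one hAt.ne']
            congr 1
            simp only [hk]; push_cast; field_simp; ring
          · rw [hφ, indicator_of_notMem ht, indicator_of_notMem ht, zero_mul]
      _ ≤ ENNReal.ofReal (Q i) := by
          have ig : IntervalIntegrable (fun t => ρ i ^ (-k⁻¹) * g i t) volume 0 (h i) := by
            refine IntervalIntegrable.const_mul ?_ _
            refine AntitoneOn.intervalIntegrable fun a ha b hb hab => ?_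
            rw [uIcc_of_le hh0.le] at ha hb
            exact pow_le_pow_left₀ (rpow_nonneg measureReal_nonneg _) (hfanti ha hb hab) n
          obtain ⟨-, -, e⟩ := symm_lintegral hh0.le ig
            (fun t => mul_nonneg (rpow_nonneg (hρ i).le _)
              (pow_nonneg (rpow_nonneg measureReal_nonneg _) n))
            (fun t => by simp only [hg, hA, hev])
          rw [e]
          refine le_of_eq ?_
          simp only [hQ, hJ, intervalIntegral.integral_const_mul]
          congr 1; ring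
  have hJ0 : ∀ i, 0 ≤ J i := fun i => by
    obtain ⟨hh0, -⟩ := hprof i
    exact mul_nonneg zero_le_two (intervalIntegral.integral_nonneg hh0.le fun t _ =>
      pow_nonneg (rpow_nonneg measureReal_nonneg _) n)
  have hQ0 : ∀ i, 0 ≤ Q i := fun i => mul_nonneg (rpow_nonneg (hρ i).le _) (hJ0 i)
  have hmain : (1 + γ) * C ^ (-γ) * V ≤ (∑ i, w i * Q i) + γ * C ^ (-γ) / C * V ^ (n + 1 + 1) := by
    have hUV : volume U = ENNReal.ofReal V := by
      rw [hVdef, measureReal_def, ENNReal.ofReal_toReal hK.compact.measure_lt_top.ne]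
      refine le_antisymm (measure_mono interior_subset) ?_
      calc volume K ≤ volume (U ∪ frontier K) := measure_mono fun x hx => by
            by_cases hxi : x ∈ interior K
            · exact Or.inl hxi
            · exact Or.inr ⟨subset_closure hx, hxi⟩
        _ ≤ volume U + volume (frontier K) := measure_union_le _ _
        _ = volume U := by rw [hK.convex.addHaar_frontier volume, add_zero]
    have hmeas : ∀ i, Measurable fun x : E (n + 1 + 1) =>
        ENNReal.ofReal (w i * (ρ i * A i ⟪v i, x⟫) ^ (-k⁻¹)) := fun i =>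
      ENNReal.measurable_ofReal.comp (measurable_const.mul ((measurable_const.mul
        ((measurable_slice_volume (hK.compact.image (L i).continuous).measurableSet).comp
          (Continuous.inner continuous_const continuous_id).measurable)).pow_const _))
    have hpt : ∀ x ∈ U, ENNReal.ofReal ((1 + γ) * C ^ (-γ)) ≤
        (∑ i, ENNReal.ofReal (w i * (ρ i * A i ⟪v i, x⟫) ^ (-k⁻¹))) +
          ENNReal.ofReal (γ * C ^ (-γ) / C) * ENNReal.ofReal (∏ i, (ρ i * A i ⟪v i, x⟫) ^ c i) := by
      intro x hx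
      have hz : ∀ i, 0 < ρ i * A i ⟪v i, x⟫ := fun i =>
        mul_pos (hρ i) ((hfull i).2.2 _ (hmemU i x hx))
      have := amgm_tangent w (fun i => ρ i * A i ⟪v i, x⟫) hw0 hw1 hz hγ0 hm0 hC0
      rw [show -(γ * m) = -k⁻¹ by rw [hγ]; field_simp] at this
      simp only [hw, mul_div_cancel₀ _ hm0.ne'] at this
      have hnn : ∀ i, 0 ≤ w i * (ρ i * A i ⟪v i, x⟫) ^ (-k⁻¹) := fun i =>
        mul_nonneg (hw0 i) (rpow_pos_of_pos (hz i) _).le
      rw [← ENNReal.ofReal_sum_of_nonneg fun i _ => hnn i, ← ENNReal.ofReal_mul (by positivity),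
        ← ENNReal.ofReal_add (Finset.sum_nonneg fun i _ => hnn i)
          (mul_nonneg (by positivity) (Finset.prod_nonneg fun i _ => (rpow_pos_of_pos (hz i) _).le))]
      exact ENNReal.ofReal_le_ofReal this
    have hint := setLIntegral_mono' (μ := volume) hUm hpt
    rw [setLIntegral_const, hUV, lintegral_add_left (Finset.measurable_sum _ fun i _ => hmeas i),
      lintegral_finsetSum _ fun i _ => hmeas i, lintegral_const_mul' _ _ ENNReal.ofReal_ne_top,
      ← ENNReal.ofReal_mul (by positivity)] at hint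
    have h1 : ∑ i, ∫⁻ x in U, ENNReal.ofReal (w i * (ρ i * A i ⟪v i, x⟫) ^ (-k⁻¹)) ≤
        ENNReal.ofReal (∑ i, w i * Q i) := by
      rw [ENNReal.ofReal_sum_of_nonneg fun i _ => mul_nonneg (hw0 i) (hQ0 i)]
      refine Finset.sum_le_sum fun i _ => ?_
      simp only [ENNReal.ofReal_mul (hw0 i)]
      rw [lintegral_const_mul' _ _ ENNReal.ofReal_ne_top]
      exact mul_le_mul' le_rfl (hQint i)
    have h2 : ENNReal.ofReal ((1 + γ) * C ^ (-γ) * V) ≤
        ENNReal.ofReal ((∑ i, w i * Q i) + γ * C ^ (-γ) / C * V ^ (n + 1 + 1)) := by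
      rw [ENNReal.ofReal_add (Finset.sum_nonneg fun i _ => mul_nonneg (hw0 i) (hQ0 i))
        (by positivity), ENNReal.ofReal_mul (p := γ * C ^ (-γ) / C) (by positivity)]
      exact hint.trans (add_le_add h1 (mul_le_mul' le_rfl hBL))
    exact (ENNReal.ofReal_le_ofReal_iff (add_nonneg
      (Finset.sum_nonneg fun i _ => mul_nonneg (hw0 i) (hQ0 i)) (by positivity))).1 h2
  have hR : C ^ (-γ) * V ≤ ∑ i, w i * Q i := by
    have : γ * C ^ (-γ) / C * V ^ (n + 1 + 1) = γ * C ^ (-γ) * V := by
      rw [pow_succ V (n + 1), ← hC]; field_simp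
    linarith
  have hpow := pow_le_pow_left₀ (by positivity) hR (n + 1)
  refine le_trans ?_ ((hpow.trans (pow_arith_mean_le_arith_mean_pow Finset.univ w Q
    (fun i _ => hw0 i) hw1 (fun i _ => hQ0 i) (n + 1))).trans_eq ?_)
  · refine le_of_eq ?_
    rw [mul_pow, ← rpow_natCast (C ^ (-γ)), ← rpow_mul hC0.le, hC, ← rpow_natCast V (n + 1),
      ← rpow_natCast V n, ← rpow_mul hV.le, ← rpow_add hV, ← rpow_add hV]
    congr 1
    simp only [hγ, hm, hk]
    push_cast
    field_simp
    ring
  · refine Finset.sum_congr rfl fun i _ => ?_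
    simp only [hQ, hJ, hg, hA, hh, hw, hk]
    rw [mul_pow _ (2 * _), ← rpow_natCast (ρ i ^ _) (n + 1), ← rpow_mul (hρ i).le, neg_mul,
      inv_mul_cancel₀ (by positivity), rpow_neg_one, div_eq_mul_inv _ (ρ i), mul_comm ((ρ i)⁻¹)]

lemma symm_step_bl {c : ℝ} (hc : 0 ≤ c) (IH : Bound (n + 1) c) {K : Set (E (n + 1 + 1))}
    (hK : IsBody K) (hsym : ∀ x ∈ K, -x ∈ K) :
    c * volume.real (Metric.closedBall (0 : E (n + 1 + 1)) 1) ^ (((n + 1 + 1 : ℕ):ℝ)⁻¹) *
      volume.real K ^ (n + 1) ≤ volume.real (projBody K) := by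
  have h0 : (0 : E (n + 1 + 1)) ∈ interior K := by
    refine zero_mem_of_symm hK.convex.interior (fun x hx => ?_) hK.nonempty
    exact mem_interior.2 ⟨-interior K, fun y hy => by simpa using hsym _ (interior_subset hy),
      isOpen_interior.neg, by simpa using hx⟩
  refine of_approx hK.compact fun δ hδ => ?_
  obtain ⟨ι, _, nrm, hb, hKP, hPK⟩ := exists_poly hK.compact hK.convex h0 hδ
  refine ⟨_, hPK, ?_⟩
  classical
  obtain ⟨q, hq0, hq1, hq⟩ := exists_supergradient hb
  set P := poly nrm fun _ => 1 with hPdef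
  have hPb : IsBody P := ⟨poly_isCompact hb _, poly_convex _, ⟨0, interior_mono hKP h0⟩⟩
  set a := atom nrm q with ha
  have hPa : ∀ u : E (n + 1 + 1), ‖u‖ = 1 → projArea P u = (∑ i, |⟪u, a i⟫|) / 2 :=
    fun u hu => projArea_poly hb hq1 hq hu
  set V := volume.real K with hV
  have hV0 : 0 < V := hK.volume_pos
  set X := rootVol nrm fun _ => 1 with hX
  set m : ℝ := ((n + 1 + 1 : ℕ):ℝ) with hm
  have hm0 : 0 < m := by positivity
  set ρV := V ^ (m⁻¹) with hρV
  have hρ0 : 0 < ρV := rpow_pos_of_pos hV0 _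
  have hρn : ρV ^ (n + 1 + 1) = V := rpow_inv_natCast_pow hV0.le (by omega)
  have hXρ : ρV ≤ X := rootVol_one_ge hb hKP
  -- only the nonzero normals matter
  let I := {i : ι // nrm i ≠ 0}
  have hsub : ∀ F : ι → ℝ, (∀ i, nrm i = 0 → F i = 0) → ∑ i, F i = ∑ j : I, F j := by
    intro F hF
    rw [← Finset.sum_subtype (Finset.univ.filter fun i => nrm i ≠ 0) (by simp)]
    exact (Finset.sum_filter_of_ne (s := Finset.univ) (p := fun i => nrm i ≠ 0)
      fun i _ hi h' => hi (hF i h')).symm
  have hspan : ∀ u : E (n + 1 + 1), u ≠ 0 → 0 < ∑ j : I, q j * |⟪nrm j, u⟫| := by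
    intro u hu
    rw [← hsub (fun i => q i * |⟪nrm i, u⟫|) (fun i hi => by simp [hi])]
    have hu1 : ‖‖u‖⁻¹ • u‖ = 1 := norm_smul_inv_norm (𝕜 := ℝ) hu
    have hpos : 0 < projArea P (‖u‖⁻¹ • u) := by
      obtain ⟨z, hz⟩ := (projBody_isBody hPb).1.nonempty
      obtain ⟨hZb, hZs⟩ := projBody_isBody hPb
      have hz0 : (0 : E (n + 1 + 1)) ∈ interior (projBody P) :=
        zero_mem_of_symm hZb.convex.interior (fun x hx =>
          mem_interior.2 ⟨-interior (projBody P), fun y hy => by simpa using hZs _ (interior_subset hy),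
            isOpen_interior.neg, by simpa using hx⟩) ⟨z, hz⟩
      obtain ⟨r, hr, hball⟩ := Metric.isOpen_iff.1 isOpen_interior 0 hz0
      have h1 := interior_subset (hball (show (r / 2) • (‖u‖⁻¹ • u) ∈ Metric.ball 0 r by
        rw [mem_ball_zero_iff, norm_smul, hu1, mul_one,
          Real.norm_of_nonneg (by positivity)]
        linarith)) (‖u‖⁻¹ • u) hu1
      rw [real_inner_smul_left, real_inner_self_eq_norm_sq, hu1] at h1
      linarith
    rw [hPa _ hu1] at hpos
    by_contra hle
    have hz : ∑ i, q i * |⟪nrm i, u⟫| = 0 := le_antisymm (not_lt.1 hle)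
      (Finset.sum_nonneg fun i _ => mul_nonneg (hq0 i) (abs_nonneg _))
    have : ∑ i, |⟪‖u‖⁻¹ • u, a i⟫| = 0 := by
      refine Finset.sum_eq_zero fun i _ => ?_
      have := (Finset.sum_eq_zero_iff_of_nonneg fun j _ => mul_nonneg (hq0 j) (abs_nonneg _)).1 hz i
        (Finset.mem_univ i)
      rw [ha, atom, real_inner_smul_left, real_inner_smul_right, real_inner_comm (nrm i) u]
      rcases mul_eq_zero.1 this with h | h
      · simp [h]
      · simp [abs_eq_zero.1 h]
    rw [this] at hpos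
    linarith
  obtain ⟨R, hRdet, hφ0, hiso⟩ := exists_position (fun j : I => q j) (fun j => hq0 j)
    (fun j => nrm j) hspan (by omega)
  set φ := ∑ j : I, q j * ‖R (nrm j)‖ with hφ
  -- the isoperimetric bound `φ ≥ κ^(1/m)`
  set S := ContinuousLinearMap.adjoint R with hS
  have hSdet : |LinearMap.det S.toLinearMap| = 1 := by rw [hS, abs_det_adjoint, hRdet]
  have hφκ : volume.real (Metric.closedBall (0 : E (n + 1 + 1)) 1) ^ m⁻¹ ≤ φ := by
    rw [hφ, ← hsub (fun i => q i * ‖R (nrm i)‖) (fun i hi => by simp [hi])]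
    refine le_trans ?_ (hq (fun i => ‖R (nrm i)‖) fun i => norm_nonneg _)
    refine rpow_le_rpow measureReal_nonneg ?_ (by positivity)
    refine le_trans (le_of_eq ?_) (measureReal_mono (s₁ := S '' Metric.closedBall 0 1) ?_
      (poly_isCompact hb _).measure_lt_top.ne)
    · show _ = (volume (S.toLinearMap '' Metric.closedBall 0 1)).toReal
      rw [Measure.addHaar_image_linearMap, hSdet, ENNReal.ofReal_one, one_mul]
      rfl
    · rintro _ ⟨z, hz, rfl⟩ i
      rw [hS, ContinuousLinearMap.adjoint_inner_right]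
      refine (real_inner_le_norm _ _).trans (mul_le_of_le_one_right (norm_nonneg _) ?_)
      simpa using hz
  have hunit : IsUnit (LinearMap.det S.toLinearMap) := by
    refine isUnit_iff_ne_zero.2 fun h0' => ?_
    rw [h0', abs_zero] at hSdet; norm_num at hSdet
  set W := (LinearMap.equivOfIsUnitDet hunit).symm with hW
  have hSW : ∀ x, S (W x) = x := fun x => by
    have := (LinearMap.equivOfIsUnitDet hunit).apply_symm_apply x
    rw [LinearMap.equivOfIsUnitDet_apply] at this
    exact this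
  have hWS : ∀ x, W (S x) = x := fun x => by
    have := (LinearMap.equivOfIsUnitDet hunit).symm_apply_apply x
    rw [LinearMap.equivOfIsUnitDet_apply] at this
    exact this
  have hWdet : |LinearMap.det W.toLinearMap| = 1 := by
    have h1 : LinearMap.det W.toLinearMap * LinearMap.det S.toLinearMap = 1 := by
      rw [← LinearMap.det_comp]
      have : W.toLinearMap ∘ₗ S.toLinearMap = LinearMap.id := by
        ext x : 1
        exact hWS x
      rw [this, LinearMap.det_id]
    have h2 := congrArg abs h1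
    rwa [abs_mul, hSdet, mul_one, abs_one] at h2
  have hRne : ∀ j : I, R (nrm j) ≠ 0 := by
    intro j h'
    have : ∀ z, ⟪nrm j, S z⟫ = 0 := fun z => by
      rw [hS, ContinuousLinearMap.adjoint_inner_right, h', inner_zero_left]
    refine j.2 (inner_self_eq_zero (𝕜 := ℝ).1 ?_)
    have e : S (W (nrm j)) = nrm j := hSW _
    nth_rewrite 2 [← e]
    exact this _
  set v : I → E (n + 1 + 1) := fun j => ‖nrm j‖⁻¹ • nrm j with hv
  set v' : I → E (n + 1 + 1) := fun j => ‖R (nrm j)‖⁻¹ • R (nrm j) with hv'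
  set ρ : I → ℝ := fun j => ‖R (nrm j)‖ / ‖nrm j‖ with hρ
  have hn0 : ∀ j : I, 0 < ‖nrm j‖ := fun j => norm_pos_iff.2 j.2
  have hR0 : ∀ j : I, 0 < ‖R (nrm j)‖ := fun j => norm_pos_iff.2 (hRne j)
  have hWi : ∀ j x, ⟪v j, x⟫ = ρ j * ⟪v' j, W x⟫ := by
    intro j x
    have e : S (W x) = x := hSW x
    have h1 : ⟪R (nrm j), W x⟫ = ⟪nrm j, x⟫ := by
      rw [← ContinuousLinearMap.adjoint_inner_right, ← hS, e]
    simp only [hv, hv', hρ, real_inner_smul_left, h1]
    have := (hR0 j).ne'
    field_simp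
  set cw : I → ℝ := fun j => m * (q j * ‖R (nrm j)‖) / φ with hcw
  have hid : ∀ x, ∑ j, cw j * ⟪v' j, x⟫ ^ 2 = ‖x‖ ^ 2 := by
    intro x
    have := hiso x
    rw [show ‖x‖ ^ 2 = (m * ∑ j : I, q j * (⟪x, R (nrm j)⟫ ^ 2 / ‖R (nrm j)‖)) / φ by
      rw [eq_div_iff hφ0.ne']; linarith]
    rw [Finset.mul_sum, Finset.sum_div]
    refine Finset.sum_congr rfl fun j _ => ?_
    simp only [hcw, hv', real_inner_smul_left, real_inner_comm x (R (nrm j))]
    have := (hR0 j).ne'
    field_simp
  have hLex : ∀ j, ∃ L : E (n + 1 + 1) ≃ₗᵢ[ℝ] E (n + 1 + 1), L (v j) = e0 := fun j =>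
    exists_frame (norm_smul_inv_norm (𝕜 := ℝ) j.2)
  choose L hL using hLex
  have hmean := mean_power_bound hK hsym v v' (fun j => norm_smul_inv_norm (𝕜 := ℝ) j.2)
    (fun j => norm_smul_inv_norm (𝕜 := ℝ) (hRne j)) L hL ρ (fun j => div_pos (hR0 j) (hn0 j)) W hWdet hWi cw
    (fun j => div_nonneg (mul_nonneg hm0.le (mul_nonneg (hq0 j) (norm_nonneg _))) hφ0.le) hid
  have hX0 : 0 ≤ X := hρ0.le.trans hXρ
  set N : I → ℝ := fun j => (2 * ∫ t in (0:ℝ)..supp K (v j),
    (volume.real (slice (L j '' K) t) ^ (((n + 1 : ℕ):ℝ)⁻¹)) ^ n) ^ (n + 1) with hN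
  have hterm : ∀ j : I, m * X ^ (n + 1) * c * φ * (cw j / m * (N j / ρ j)) ≤
      ‖a j‖ * projArea (projBody P) (‖a j‖⁻¹ • a j) := by
    intro j
    have hai : a j = (m * X ^ (n + 1) * q j) • nrm j := by
      rw [ha, atom]; congr 1; simp [hm, hX]
    have hC0 : 0 ≤ m * X ^ (n + 1) * q j := by have := hq0 j; positivity
    have hlhs : m * X ^ (n + 1) * c * φ * (cw j / m * (N j / ρ j)) =
        m * X ^ (n + 1) * q j * ‖nrm j‖ * (c * N j) := by
      simp only [hcw, hρ]
      have := (hR0 j).ne'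
      have := (hn0 j).ne'
      have := hφ0.ne'
      field_simp
    rw [hlhs]
    rcases hC0.eq_or_lt with he | hlt
    · rw [← he]; simp [hai, ← he]
    · have hna : ‖a j‖ = m * X ^ (n + 1) * q j * ‖nrm j‖ := by
        rw [hai, norm_smul, Real.norm_of_nonneg hC0]
      have hdir : ‖a j‖⁻¹ • a j = v j := by
        rw [hna, hai, smul_smul, mul_inv_rev, mul_assoc, inv_mul_cancel₀ hlt.ne', mul_one]
      rw [hdir, hna]
      refine mul_le_mul_of_nonneg_left ?_ (by positivity)
      exact shadow_core hc (fun Q hQ => by simpa using IH Q hQ) hK hsym (poly_isCompact hb _) hKP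
        hPa (norm_smul_inv_norm (𝕜 := ℝ) j.2) (L j) (hL j)
  have hsum : m * X ^ (n + 1) * c * φ * (∑ j, cw j / m * (N j / ρ j)) ≤
      (((n + 1 : ℕ):ℝ) + 1) * volume.real (projBody P) := by
    rw [Finset.mul_sum]
    refine (Finset.sum_le_sum fun j _ => hterm j).trans ?_
    rw [← hsub (fun i => ‖a i‖ * projArea (projBody P) (‖a i‖⁻¹ • a i))
      (fun i hi => by simp [ha, atom, hi])]
    exact sum_atom_projArea_le hPa
  rw [show (((n + 1 : ℕ):ℝ) + 1) = m by simp [hm]] at hsum
  refine le_of_mul_le_mul_left (le_trans ?_ hsum) hm0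
  have h1 : m * ρV ^ (n + 1) * c * volume.real (Metric.closedBall (0 : E (n + 1 + 1)) 1) ^ m⁻¹ *
      (V ^ n * ρV) ≤ m * X ^ (n + 1) * c * φ * ∑ j, cw j / m * (N j / ρ j) := by
    gcongr
  refine le_trans (le_of_eq ?_) h1
  rw [pow_succ V n]
  nth_rewrite 2 [← hρn]
  ring

/-- Step of the recursion. -/
theorem step_bl {c : ℝ} (hc : 0 ≤ c) (IH : Bound (n + 1) c) :
    Bound (n + 1 + 1)
      (c * volume.real (Metric.closedBall (0 : E (n + 1 + 1)) 1) ^ (((n + 1 + 1 : ℕ):ℝ)⁻¹)) :=
  class_step (fun _ hZ hs => symm_step_bl hc IH hZ hs) (mul_nonneg hc (rpow_nonneg measureReal_nonneg _))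

end Vale.Agent.P237
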