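import Mathlib
import Vale.Agent.P237.Main

/-!
# P237: comparison with the conjectured constant `κ_{n-1}^n κ_n^{2-n}`
-/

open MeasureTheory Set Real Filter Topology

namespace Vale.Agent.P237

/-- Volume of the unit ball. -/
noncomputable def kap (n : ℕ) : ℝ := volume.real (Metric.closedBall (0 : E n) 1)

lemma kap_eq (n : ℕ) : kap n = √π ^ n / Gamma ((n:ℝ) / 2 + 1) := by
  unfold kap
  rcases n.eq_zero_or_pos with h | h
  · subst h
    rw [Subsingleton.eq_univ_of_nonempty ⟨0, Metric.mem_closedBall_self zero_le_one⟩]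
    simp [measureReal_def, volume_euclideanSpace_eq_dirac]
  · have : Nonempty (Fin n) := ⟨⟨0, h⟩⟩
    rw [measureReal_def, EuclideanSpace.volume_closedBall]
    have : (0:ℝ) < Gamma ((n:ℝ) / 2 + 1) := Gamma_pos_of_pos (by positivity)
    simp [ENNReal.toReal_ofReal (show 0 ≤ √π ^ n / Gamma ((n:ℝ) / 2 + 1) by positivity)]

lemma kap_pos (n : ℕ) : 0 < kap n := by
  rw [kap_eq]
  have : (0:ℝ) < Gamma ((n:ℝ) / 2 + 1) := Gamma_pos_of_pos (by positivity)
  positivity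

lemma kap_rec (n : ℕ) : kap (n + 2) = kap n * (2 * π / ((n:ℝ) + 2)) := by
  have hg : (0:ℝ) < Gamma ((n:ℝ) / 2 + 1) := Gamma_pos_of_pos (by positivity)
  rw [kap_eq, kap_eq, show ((n + 2 : ℕ):ℝ) / 2 + 1 = ((n:ℝ) / 2 + 1) + 1 by push_cast; ring,
    Gamma_add_one (by positivity), pow_add, Real.sq_sqrt Real.pi_pos.le]
  field_simp

lemma kap_logconcave (n : ℕ) : kap n * kap (n + 2) ≤ kap (n + 1) ^ 2 := by
  have h1 : (0:ℝ) < Gamma ((n:ℝ) / 2 + 1) := Gamma_pos_of_pos (by positivity)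
  have h2 : (0:ℝ) < Gamma ((n:ℝ) / 2 + 2) := Gamma_pos_of_pos (by positivity)
  have h3 : (0:ℝ) < Gamma ((n:ℝ) / 2 + 3 / 2) := Gamma_pos_of_pos (by positivity)
  have hc := convexOn_log_Gamma.2
  have := hc (show (n:ℝ) / 2 + 1 ∈ Ioi (0:ℝ) from by simp; positivity)
    (show (n:ℝ) / 2 + 2 ∈ Ioi (0:ℝ) from by simp; positivity) (a := 1/2) (b := 1/2)
    (by norm_num) (by norm_num) (by norm_num)
  simp only [smul_eq_mul, Function.comp] at this
  rw [show (1/2:ℝ) * ((n:ℝ) / 2 + 1) + 1/2 * ((n:ℝ) / 2 + 2) = (n:ℝ) / 2 + 3/2 by ring] at this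
  have hg : Gamma ((n:ℝ) / 2 + 3/2) ^ 2 ≤ Gamma ((n:ℝ) / 2 + 1) * Gamma ((n:ℝ) / 2 + 2) := by
    rw [← Real.log_le_log_iff (by positivity) (by positivity), Real.log_pow,
      Real.log_mul h1.ne' h2.ne']
    push_cast
    linarith
  rw [kap_eq, kap_eq, kap_eq,
    show ((n + 2 : ℕ):ℝ) / 2 + 1 = (n:ℝ) / 2 + 2 by push_cast; ring,
    show ((n + 1 : ℕ):ℝ) / 2 + 1 = (n:ℝ) / 2 + 3/2 by push_cast; ring, div_pow, ← pow_mul,
    div_mul_div_comm, ← pow_add]
  rw [show n + (n + 2) = (n + 1) * 2 by ring]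
  exact div_le_div_of_nonneg_left (by positivity) (by positivity) hg

/-- `(κ_{m+1}/κ_m)²`. -/
noncomputable def rr (m : ℕ) : ℝ := (kap (m + 1) / kap m) ^ 2

lemma rr_le_two_pi (m : ℕ) : rr m * ((m:ℝ) + 1) ≤ 2 * π := by
  rcases m.eq_zero_or_pos with h | h
  · subst h
    have e1 : kap 1 = 2 := by
      rw [kap_eq, show ((1:ℕ):ℝ) / 2 + 1 = 1 / 2 + 1 by norm_num, Gamma_add_one (by norm_num),
        Real.Gamma_one_half_eq]
      have := (Real.sqrt_pos.2 Real.pi_pos).ne'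
      field_simp
    have e0 : kap 0 = 1 := by rw [kap_eq]; simp
    simp only [rr, zero_add, e1, e0]
    have := Real.pi_gt_three
    norm_num; linarith
  obtain ⟨k, rfl⟩ : ∃ k, m = k + 1 := ⟨m - 1, by omega⟩
  have hl := kap_logconcave k
  have hr := kap_rec k
  have p1 := kap_pos k
  have p2 := kap_pos (k + 1)
  have p3 := kap_pos (k + 1 + 1)
  rw [rr, div_pow, div_mul_eq_mul_div, div_le_iff₀ (by positivity)]
  calc kap (k + 1 + 1) ^ 2 * (((k + 1 : ℕ):ℝ) + 1)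
      = kap k * kap (k + 2) * (2 * π) := by
        show kap (k + 2) ^ 2 * _ = _
        rw [sq, mul_assoc]
        nth_rewrite 2 [hr]
        push_cast; field_simp; ring
    _ ≤ kap (k + 1) ^ 2 * (2 * π) := mul_le_mul_of_nonneg_right hl (by positivity)
    _ = _ := by ring

lemma rr_succ (m : ℕ) : rr (m + 2) = rr m * (((m:ℝ) + 2) / ((m:ℝ) + 3)) ^ 2 := by
  have p0 := kap_pos m
  have p1 := kap_pos (m + 1)
  rw [rr, rr, show m + 2 + 1 = m + 1 + 2 by ring, kap_rec (m + 1), kap_rec m]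
  push_cast
  have := Real.pi_pos
  field_simp
  ring

/-- `(κ_{m+1}/κ_m)² ≤ 2π/(m + 3/2)`. -/
lemma rr_bound (m : ℕ) : rr m * ((m:ℝ) + 3/2) ≤ 2 * π := by
  have hmono : ∀ j : ℕ, rr m * ((m:ℝ) + 3/2) ≤ rr (m + 2 * j) * (((m + 2 * j : ℕ):ℝ) + 3/2) := by
    intro j
    induction j with
    | zero => simp
    | succ j ih =>
      refine ih.trans ?_
      rw [show m + 2 * (j + 1) = m + 2 * j + 2 by ring, rr_succ]
      set x : ℝ := ((m + 2 * j : ℕ):ℝ)
      rw [Nat.cast_add (m + 2 * j) 2, Nat.cast_two, mul_assoc]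
      refine mul_le_mul_of_nonneg_left ?_ (sq_nonneg _)
      have hx : 0 ≤ x := Nat.cast_nonneg _
      rw [div_pow, div_mul_eq_mul_div, le_div_iff₀ (by positivity)]
      nlinarith [sq_nonneg x]
  have hlim : Tendsto (fun j : ℕ => 2 * π * (1 + 1 / ((j:ℝ) + 1))) atTop (𝓝 (2 * π * (1 + 0))) :=
    (tendsto_one_div_add_atTop_nhds_zero_nat.const_add 1).const_mul _
  rw [add_zero, mul_one] at hlim
  refine ge_of_tendsto' hlim fun j => (hmono j).trans ?_
  set M := m + 2 * j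
  have hb := rr_le_two_pi M
  have hM : (j:ℝ) ≤ (M:ℝ) := by exact_mod_cast (by omega : j ≤ M)
  have hp : 0 < (j:ℝ) + 1 := by positivity
  have h0 : 0 ≤ rr M := sq_nonneg _
  rw [show 2 * π * (1 + 1 / ((j:ℝ) + 1)) = 2 * π + 2 * π / ((j:ℝ) + 1) by ring]
  have h2 : rr M ≤ 2 * π / ((j:ℝ) + 1) := by
    rw [le_div_iff₀ hp]
    exact le_trans (mul_le_mul_of_nonneg_left (by linarith) h0) hb
  linarith

/-- The conjectured constant. -/
noncomputable def petty (n : ℕ) : ℝ := kap (n - 1) ^ n / kap n ^ (n - 2)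

lemma petty_pos (n : ℕ) : 0 < petty n := div_pos (pow_pos (kap_pos _) _) (pow_pos (kap_pos _) _)

/-- `(C_{n+1}/C_n)² (n+2) ≤ 2πe`. -/
lemma petty_step {n : ℕ} (hn : 3 ≤ n) :
    (petty (n + 1) / petty n) ^ 2 * ((n:ℝ) + 2) ≤ 2 * π * exp 1 := by
  obtain ⟨k, rfl⟩ : ∃ k, n = k + 2 := ⟨n - 2, by omega⟩
  have p1 := kap_pos (k + 1)
  have p2 := kap_pos (k + 2)
  have hk : kap (k + 3) = kap (k + 1) * (2 * π / ((k:ℝ) + 3)) := by
    rw [show k + 3 = k + 1 + 2 by ring, kap_rec]; push_cast; ring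
  have hr := rr_bound (k + 1)
  set r2 := rr (k + 1) with hr2
  have h0 : 0 ≤ r2 := sq_nonneg _
  have e : (petty (k + 2 + 1) / petty (k + 2)) ^ 2 =
      r2 * (r2 * (((k:ℝ) + 3) / (2 * π))) ^ (2 * (k + 1)) := by
    simp only [petty, Nat.add_sub_cancel, show k + 2 + 1 - 2 = k + 1 by omega,
      show k + 2 - 1 = k + 1 by omega]
    rw [show k + 2 + 1 = k + 3 by ring, hk, hr2, rr, show k + 1 + 1 = k + 2 by ring]
    set a := kap (k + 1)
    set b := kap (k + 2)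
    set c := ((k:ℝ) + 3) / (2 * π) with hc
    have hc0 : 0 < c := by positivity
    rw [show a * (2 * π / ((k:ℝ) + 3)) = a / c by rw [hc]; field_simp, div_pow a c,
      pow_mul, show ((b / a) ^ 2 * c) ^ 2 = ((b / a) ^ 2) ^ 2 * c ^ 2 by ring,
      mul_pow (((b / a) ^ 2) ^ 2), pow_succ a (k + 1), pow_add b (k + 1) 2, pow_add b k 1]
    simp only [div_pow, mul_pow, ← pow_mul]
    field_simp
    ring
  rw [e]
  set x := (k:ℝ) + 5/2 with hx
  have hx0 : 0 < x := by positivity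
  have hr' : r2 * x ≤ 2 * π := by rw [hx]; push_cast at hr; linarith
  have hstep : r2 * (((k:ℝ) + 3) / (2 * π)) ≤ 1 + 1 / (2 * x) := by
    rw [← mul_div_assoc, div_le_iff₀ (by positivity)]
    calc r2 * ((k:ℝ) + 3) = r2 * x * (1 + 1 / (2 * x)) := by rw [hx]; field_simp; ring
      _ ≤ 2 * π * (1 + 1 / (2 * x)) := mul_le_mul_of_nonneg_right hr' (by positivity)
      _ = _ := by ring
  have hexp : (1 + 1 / (2 * x)) ^ (2 * (k + 1)) ≤ exp 1 * (2 * x / (2 * x + 3)) := by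
    calc (1 + 1 / (2 * x)) ^ (2 * (k + 1)) ≤ exp (1 / (2 * x)) ^ (2 * (k + 1)) := by
          gcongr; linarith [add_one_le_exp (1 / (2 * x))]
      _ = exp 1 * exp (-(3 / (2 * x))) := by
          rw [← exp_nat_mul, ← exp_add]; congr 1
          push_cast; rw [hx]; field_simp; ring
      _ ≤ _ := by
          refine mul_le_mul_of_nonneg_left ?_ (exp_pos 1).le
          rw [exp_neg, show 2 * x / (2 * x + 3) = (1 + 3 / (2 * x))⁻¹ by field_simp]
          exact inv_anti₀ (by positivity) (by linarith [add_one_le_exp (3 / (2 * x))])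
  calc r2 * (r2 * (((k:ℝ) + 3) / (2 * π))) ^ (2 * (k + 1)) * (((k + 2 : ℕ):ℝ) + 2)
      ≤ r2 * (exp 1 * (2 * x / (2 * x + 3))) * (((k + 2 : ℕ):ℝ) + 2) := by
        gcongr
        exact (pow_le_pow_left₀ (by positivity) hstep _).trans hexp
    _ = r2 * x * exp 1 := by rw [hx]; push_cast; field_simp; ring
    _ ≤ _ := mul_le_mul_of_nonneg_right hr' (exp_pos 1).le

lemma petty_three : petty 3 = 3 * π ^ 2 / 4 := by
  have e2 : kap 2 = π := by rw [kap_eq]; norm_num [Real.Gamma_two, Real.sq_sqrt Real.pi_pos.le]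
  have e1 : kap 1 = 2 := by
    rw [kap_eq, show ((1:ℕ):ℝ) / 2 + 1 = 1 / 2 + 1 by norm_num, Gamma_add_one (by norm_num),
      Real.Gamma_one_half_eq]
    have := (Real.sqrt_pos.2 Real.pi_pos).ne'
    field_simp
  have e3 : kap 3 = 2 * (2 * π / 3) := by rw [kap_rec 1, e1]; norm_num
  simp only [petty, show (3:ℕ) - 1 = 2 by rfl, show (3:ℕ) - 2 = 1 by rfl, e2, e3, pow_one]
  field_simp
  ring

lemma cst_three : 6.98 ≤ cst 3 := by
  have h : √5 ≤ 2.2361 := by rw [Real.sqrt_le_iff]; norm_num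
  have h0 : 0 < √(5:ℝ) := by positivity
  have : 1.94 / 2.2361 ≤ 1.94 / √5 := by gcongr
  unfold cst
  norm_num at this ⊢
  linarith

/-- `cst n / C_n ≥ 3.9 · 0.813^n / √(n+2)`. -/
lemma cst_ge : ∀ n : ℕ, 3 ≤ n → 3.9 * 0.813 ^ n / √((n:ℝ) + 2) * petty n ≤ cst n := by
  intro n hn
  induction n, hn using Nat.le_induction with
  | base =>
    refine le_trans ?_ cst_three
    rw [petty_three]
    have hπ : π ^ 2 ≤ 9.8697 := by
      have := Real.pi_lt_d4
      nlinarith [Real.pi_pos]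
    have h : 2.236 ≤ √((3:ℕ) + 2 : ℝ) := by
      rw [Real.le_sqrt (by norm_num) (by norm_num)]; norm_num
    calc 3.9 * 0.813 ^ 3 / √((3:ℕ) + 2 : ℝ) * (3 * π ^ 2 / 4)
        ≤ 3.9 * 0.813 ^ 3 / 2.236 * (3 * 9.8697 / 4) := by gcongr
      _ ≤ 6.98 := by norm_num
  | succ n hn ih =>
    have hc : cst (n + 1) = cst n * (3.36 / √((n:ℝ) + 3)) := by
      obtain ⟨k, rfl⟩ : ∃ k, n = k + 3 := ⟨n - 3, by omega⟩
      show cst (k + 3) * (3.36 / √((k:ℝ) + 6)) = _
      push_cast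
      rw [show (k:ℝ) + 3 + 3 = (k:ℝ) + 6 by ring]
    rw [hc]
    set D := petty (n + 1) / petty n with hD
    have hD0 : 0 < D := div_pos (petty_pos _) (petty_pos _)
    have hs : D * √((n:ℝ) + 2) * 0.813 ≤ 3.36 := by
      have h1 := petty_step hn
      rw [← hD] at h1
      have he : exp 1 ≤ 2.7182818286 := exp_one_lt_d9.le
      have hπ : π ≤ 3.141593 := Real.pi_lt_d6.le
      have h2 : (D * √((n:ℝ) + 2) * 0.813) ^ 2 ≤ 3.36 ^ 2 := by
        rw [mul_pow, mul_pow, Real.sq_sqrt (by positivity)]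
        calc D ^ 2 * ((n:ℝ) + 2) * 0.813 ^ 2 ≤ 2 * π * exp 1 * 0.813 ^ 2 := by gcongr
          _ ≤ 2 * 3.141593 * 2.7182818286 * 0.813 ^ 2 := by gcongr
          _ ≤ _ := by norm_num
      exact (pow_le_pow_iff_left₀ (by positivity) (by norm_num) two_ne_zero).1 h2
    have hcast : (((n + 1 : ℕ):ℝ) + 2) = (n:ℝ) + 3 := by push_cast; ring
    rw [hcast, show petty (n + 1) = D * petty n from (div_mul_cancel₀ _ (petty_pos n).ne').symm]
    have s2 : 0 < √((n:ℝ) + 2) := by positivity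
    have s3 : 0 < √((n:ℝ) + 3) := by positivity
    calc 3.9 * 0.813 ^ (n + 1) / √((n:ℝ) + 3) * (D * petty n)
        = 3.9 * 0.813 ^ n / √((n:ℝ) + 2) * petty n * ((D * √((n:ℝ) + 2) * 0.813) / √((n:ℝ) + 3)) := by
          field_simp; ring
      _ ≤ cst n * (3.36 / √((n:ℝ) + 3)) := by
          gcongr
          · exact cst_nonneg n

lemma four_fifths_le (n : ℕ) : (4/5:ℝ) ^ n ≤ 3.9 * 0.813 ^ n / √((n:ℝ) + 2) := by
  rw [le_div_iff₀ (by positivity)]
  have key : √((n:ℝ) + 2) ≤ 3.9 * (1.01625:ℝ) ^ n := by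
    rw [Real.sqrt_le_iff]
    refine ⟨by positivity, ?_⟩
    set c : ℝ := 0.03198 with hc
    have hl : exp (c / 2) ≤ 1.01625 := by
      refine (Real.exp_bound_div_one_sub_of_interval (x := c / 2) (by norm_num [hc])
        (by norm_num [hc])).trans ?_
      norm_num [hc]
    have h1 : exp (c * n) ≤ ((1.01625:ℝ) ^ n) ^ 2 := by
      rw [← pow_mul, show c * (n:ℝ) = ((n * 2 : ℕ):ℝ) * (c / 2) by push_cast; ring, exp_nat_mul]
      exact pow_le_pow_left₀ (exp_pos _).le hl _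
    have h2 : c * ((n:ℝ) + 2) * exp (1 - 2 * c) ≤ exp (c * n) := by
      rw [show c * (n:ℝ) = (c * ((n:ℝ) + 2) - 1) + (1 - 2 * c) by ring, exp_add]
      gcongr
      linarith [add_one_le_exp (c * ((n:ℝ) + 2) - 1)]
    have h3 : 2.54 ≤ exp (1 - 2 * c) := by
      rw [sub_eq_add_neg, exp_add]
      have := exp_one_gt_d9
      have h4 := add_one_le_exp (-(2 * c))
      have h5 : 2.7182818283 * (-(2 * c) + 1) ≤ exp 1 * exp (-(2 * c)) :=
        mul_le_mul this.le h4 (by norm_num [hc]) (exp_pos 1).le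
      refine le_trans ?_ h5
      norm_num [hc]
    have h6 : c * ((n:ℝ) + 2) * 2.54 ≤ exp (c * n) := le_trans (by gcongr) h2
    rw [mul_pow]
    calc (n:ℝ) + 2 ≤ 3.9 ^ 2 * (c * ((n:ℝ) + 2) * 2.54) := by
          have : (0:ℝ) ≤ n := Nat.cast_nonneg n
          rw [hc]; norm_num; linarith
      _ ≤ 3.9 ^ 2 * ((1.01625:ℝ) ^ n) ^ 2 := by gcongr; exact h6.trans h1
  calc (4/5:ℝ) ^ n * √((n:ℝ) + 2) ≤ (4/5:ℝ) ^ n * (3.9 * (1.01625:ℝ) ^ n) := by gcongr
    _ = _ := by rw [mul_left_comm, ← mul_pow]; norm_num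

/-- Petty's conjectured inequality up to the factor `(4/5)^n`. -/
theorem petty_approx {n : ℕ} (hn : 3 ≤ n) {K : Set (E n)} (hK : IsBody K) :
    (4/5:ℝ) ^ n * petty n * volume.real K ^ (n - 1) ≤ volume.real (projBody K) := by
  refine le_trans ?_ (bound_all n (by omega) K hK)
  gcongr
  exact le_trans (mul_le_mul_of_nonneg_right (four_fifths_le n) (petty_pos n).le) (cst_ge n hn)

theorem bound_three {K : Set (E 3)} (hK : IsBody K) :
    6.98 * volume.real K ^ 2 ≤ volume.real (projBody K) :=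
  le_trans (mul_le_mul_of_nonneg_right cst_three (sq_nonneg _)) (bound_all 3 (by omega) K hK)

end Vale.Agent.P237
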