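import Mathlib
import Vale.Agent.P237.Const
import Vale.Agent.P237.EntropyStep

/-!
# P237: Petty's inequality up to a subexponential factor
-/

open MeasureTheory Set Real

namespace Vale.Agent.P237

/-- `2 log κ_n + n log n - n log (2πe) + log n`. -/
noncomputable def lkap (n : ℕ) : ℝ :=
  2 * log (kap n) + ((n:ℝ) + 1) * log n - (n:ℝ) * (log (2 * π) + 1)

lemma lkap_ge : ∀ n : ℕ, 1 ≤ n → -1.46 ≤ lkap n
  | 0 => fun h => absurd h (by omega)
  | 1 => fun _ => by
    have e1 : kap 1 = 2 := by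
      rw [kap_eq, show ((1:ℕ):ℝ) / 2 + 1 = 1 / 2 + 1 by norm_num, Gamma_add_one (by norm_num),
        Real.Gamma_one_half_eq]
      have := (Real.sqrt_pos.2 Real.pi_pos).ne'
      field_simp
    have h1 : log (π / 2) ≤ 0.46 := by
      rw [log_le_iff_le_exp (by positivity)]
      have h := quadratic_le_exp_of_nonneg (show (0:ℝ) ≤ 0.23 by norm_num)
      rw [show (0.46:ℝ) = 0.23 + 0.23 by norm_num, exp_add]
      nlinarith [Real.pi_lt_d4]
    rw [log_div Real.pi_pos.ne' two_ne_zero] at h1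
    simp only [lkap, e1, Nat.cast_one, log_one, log_mul two_ne_zero Real.pi_pos.ne']
    linarith
  | 2 => fun _ => by
    have e2 : kap 2 = π := by rw [kap_eq]; norm_num [Real.Gamma_two, Real.sq_sqrt Real.pi_pos.le]
    simp only [lkap, e2, Nat.cast_ofNat, log_mul two_ne_zero Real.pi_pos.ne']
    have := log_two_gt_d9
    linarith
  | n + 3 => fun _ => by
    have ih := lkap_ge (n + 1) (by omega)
    refine le_trans ih ?_
    set x : ℝ := ((n + 1 : ℕ):ℝ) with hx
    have hx0 : 0 < x := by positivity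
    have e : ((n + 3 : ℕ):ℝ) = x + 2 := by rw [hx]; push_cast; ring
    have hk : kap (n + 3) = kap (n + 1) * (2 * π / (x + 2)) := by
      rw [show n + 3 = n + 1 + 2 from rfl, kap_rec]
    simp only [lkap, e, hk, ← hx]
    rw [log_mul (kap_pos _).ne' (by positivity), log_div (by positivity) (by positivity)]
    have h := le_log_one_add_of_nonneg (show 0 ≤ 2 / x by positivity)
    rw [show 1 + 2 / x = (x + 2) / x by field_simp,
      log_div (by positivity) hx0.ne',
      show 2 * (2 / x) / (2 / x + 2) = 2 / (x + 1) by field_simp; ring, div_le_iff₀ (by positivity)] at h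
    nlinarith

/-- The constants given by the Brascamp–Lieb recursion. -/
noncomputable def cst2 : ℕ → ℝ
  | n + 4 => cst2 (n + 3) * kap (n + 4) ^ (((n + 4 : ℕ):ℝ)⁻¹)
  | n => cst n

lemma cst2_nonneg : ∀ n, 0 ≤ cst2 n
  | n + 4 => mul_nonneg (cst2_nonneg (n + 3)) (rpow_nonneg (kap_pos _).le _)
  | 0 | 1 | 2 | 3 => cst_nonneg _

theorem bound_all2 : ∀ n, 1 ≤ n → Bound n (cst2 n)
  | 0, h => absurd h (by omega)
  | 1, h => bound_all 1 h
  | 2, h => bound_all 2 h
  | 3, h => bound_all 3 h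
  | n + 4, _ => step_bl (n := n + 2) (cst2_nonneg (n + 3)) (bound_all2 (n + 3) (by omega))

/-- `exp (-(2/5) log² n) · C_n`. -/
noncomputable def low (n : ℕ) : ℝ := exp (-(2 / 5) * log n ^ 2) * petty n

lemma low_pos (n : ℕ) : 0 < low n := mul_pos (exp_pos _) (petty_pos n)

lemma low_three : low 3 ≤ 6.98 := by
  have h1 : exp (-(2 / 5) * log ((3:ℕ):ℝ) ^ 2) ≤ 1 / (1 + 2/5) := by
    rw [neg_mul, exp_neg, one_div]
    refine inv_anti₀ (by norm_num) ?_
    have h3 : 1 ≤ log ((3:ℕ):ℝ) := by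
      rw [le_log_iff_exp_le (by norm_num)]
      exact le_trans exp_one_lt_d9.le (by norm_num)
    have := add_one_le_exp (2 / 5 * log ((3:ℕ):ℝ) ^ 2)
    generalize log ((3:ℕ):ℝ) = L at h3 this ⊢
    refine le_trans ?_ this
    nlinarith
  rw [low, petty_three]
  calc _ ≤ 1 / (1 + 2/5) * (3 * π ^ 2 / 4) := by gcongr
    _ ≤ _ := by nlinarith [Real.pi_lt_d4, Real.pi_pos]

lemma low_four : low 4 ≤ cst2 4 := by
  have e3 : kap 3 = 4 * π / 3 := by
    rw [kap_rec 1, show kap 1 = 2 by
      rw [kap_eq, show ((1:ℕ):ℝ) / 2 + 1 = 1 / 2 + 1 by norm_num, Gamma_add_one (by norm_num),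
        Real.Gamma_one_half_eq]
      have := (Real.sqrt_pos.2 Real.pi_pos).ne'
      field_simp]
    push_cast; ring
  have e4 : kap 4 = π ^ 2 / 2 := by
    rw [kap_rec 2, show kap 2 = π by
      rw [kap_eq]; norm_num [Real.Gamma_two, Real.sq_sqrt Real.pi_pos.le]]
    push_cast; ring
  have hp : petty 4 ≤ 12.65 := by
    simp only [petty, show (4:ℕ) - 1 = 3 by rfl, show (4:ℕ) - 2 = 2 by rfl, e3, e4]
    rw [show (4 * π / 3) ^ 4 / (π ^ 2 / 2) ^ 2 = 1024 / 81 by field_simp; ring]
    norm_num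
  have h1 : exp (-(2 / 5) * log ((4:ℕ):ℝ) ^ 2) ≤ 1 / (1 + 0.75) := by
    rw [neg_mul, exp_neg, one_div]
    refine inv_anti₀ (by norm_num) ?_
    have h4 : 1.386 ≤ log ((4:ℕ):ℝ) := by
      rw [show ((4:ℕ):ℝ) = 2 * 2 by norm_num, log_mul two_ne_zero two_ne_zero]
      linarith [log_two_gt_d9]
    nlinarith [add_one_le_exp (2 / 5 * log ((4:ℕ):ℝ) ^ 2)]
  have hk : 1.4 ≤ kap 4 ^ (((4 : ℕ):ℝ)⁻¹) := by
    refine (le_rpow_inv_iff_of_pos (by norm_num) (kap_pos 4).le (by norm_num)).2 ?_
    rw [rpow_natCast, e4]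
    nlinarith [Real.pi_gt_three]
  calc low 4 ≤ 1 / (1 + 0.75) * 12.65 := mul_le_mul h1 hp (petty_pos 4).le (by norm_num)
    _ ≤ 6.98 * 1.4 := by norm_num
    _ ≤ cst2 4 := mul_le_mul cst_three hk (by norm_num) (cst_nonneg 3)

lemma low_step {j : ℕ} : low (j + 5) ≤ low (j + 4) * kap (j + 5) ^ (((j + 5 : ℕ):ℝ)⁻¹) := by
  set n : ℝ := ((j + 5 : ℕ):ℝ) with hn
  have hn5 : (5:ℝ) ≤ n := by rw [hn]; push_cast; linarith [j.cast_nonneg (α := ℝ)]
  have e : ((j + 4 : ℕ):ℝ) = n - 1 := by rw [hn]; push_cast; ring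
  have p1 := petty_pos (j + 4)
  have p2 := petty_pos (j + 5)
  have hD := petty_step (n := j + 4) (by omega)
  rw [show j + 4 + 1 = j + 5 from rfl, e] at hD
  have hDl := log_le_log (mul_pos (pow_pos (div_pos p2 p1) 2) (by linarith)) hD
  rw [log_mul (by positivity) (by linarith), log_pow, log_div p2.ne' p1.ne',
    log_mul (by positivity) (exp_pos 1).ne', log_exp, show n - 1 + 2 = n + 1 by ring] at hDl
  have hk := lkap_ge (j + 5) (by omega)
  simp only [lkap, ← hn] at hk
  have h1 := one_sub_inv_le_log_of_pos (show 0 < (n + 1) / n by positivity)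
  rw [log_div (by linarith) (by linarith), inv_div] at h1
  have h2 := one_sub_inv_le_log_of_pos (show 0 < n / (n - 1) from div_pos (by linarith) (by linarith))
  rw [log_div (by linarith) (by linarith), inv_div] at h2
  have h3 := log_le_sub_one_of_pos (show 0 < n / (n - 1) from div_pos (by linarith) (by linarith))
  rw [log_div (by linarith) (by linarith)] at h3
  have hL : 1.586 ≤ log n := by
    refine le_trans ?_ (log_le_log (by norm_num) hn5)
    have h54 := one_sub_inv_le_log_of_pos (show (0:ℝ) < 5/4 by norm_num)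
    rw [show (5:ℝ) = 2 * 2 * (5/4) by norm_num, log_mul (by norm_num) (by norm_num),
      log_mul two_ne_zero two_ne_zero]
    linarith [log_two_gt_d9]
  have a1 : 5 / 6 ≤ n * (log (n + 1) - log n) := by
    refine le_trans ?_ (mul_le_mul_of_nonneg_left h1 (by linarith))
    rw [show n * (1 - n / (n + 1)) = 1 - 1 / (n + 1) by field_simp; ring]
    have : 1 / (n + 1) ≤ 1 / 6 := one_div_le_one_div_of_le (by norm_num) (by linarith)
    linarith
  have a2 : 1 ≤ n * (log n - log (n - 1)) := by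
    refine le_trans (le_of_eq ?_) (mul_le_mul_of_nonneg_left h2 (by linarith))
    field_simp; ring
  have a3 : log n - 1 / 4 ≤ log (n - 1) := by
    have : n / (n - 1) - 1 ≤ 1 / 4 := by
      rw [sub_le_iff_le_add, div_le_iff₀ (by linarith)]; linarith
    linarith
  rw [← log_le_log_iff (low_pos _) (mul_pos (low_pos _) (rpow_pos_of_pos (kap_pos _) _)),
    log_mul (low_pos _).ne' (rpow_pos_of_pos (kap_pos _) _).ne', log_rpow (kap_pos _), low, low,
    log_mul (exp_pos _).ne' p2.ne', log_mul (exp_pos _).ne' p1.ne', log_exp, log_exp, ← hn, e]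
  have key : n * (log (petty (j + 5)) - log (petty (j + 4))) - log (kap (j + 5)) ≤
      2 / 5 * (n * (log n ^ 2 - log (n - 1) ^ 2)) := by
    have a4 : log n + log (n - 1) ≤ n * (log n - log (n - 1)) * (log n + log (n - 1)) :=
      le_mul_of_one_le_left (by linarith) a2
    have a5 : n * (log n ^ 2 - log (n - 1) ^ 2) =
        n * (log n - log (n - 1)) * (log n + log (n - 1)) := by ring
    have hD' := mul_le_mul_of_nonneg_left hDl (show 0 ≤ n by linarith)
    push_cast at hD'
    linarith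
  have key' := div_le_div_of_nonneg_right key (show 0 ≤ n by linarith)
  rw [mul_div_assoc, mul_div_cancel_left₀ _ (by linarith : n ≠ 0), sub_div,
    mul_div_cancel_left₀ _ (by linarith : n ≠ 0)] at key'
  rw [inv_mul_eq_div]
  linarith

lemma low_le : ∀ n, 3 ≤ n → low n ≤ cst2 n
  | 0, h | 1, h | 2, h => absurd h (by omega)
  | 3, _ => le_trans low_three cst_three
  | 4, _ => low_four
  | j + 5, _ => low_step.trans
      (mul_le_mul_of_nonneg_right (low_le (j + 4) (by omega)) (rpow_nonneg (kap_pos _).le _))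

/-- Petty's conjectured inequality up to a subexponential factor. -/
theorem petty_subexp {n : ℕ} (hn : 3 ≤ n) {K : Set (E n)} (hK : IsBody K) :
    exp (-(2 / 5) * log n ^ 2) * petty n * volume.real K ^ (n - 1) ≤ volume.real (projBody K) :=
  le_trans (mul_le_mul_of_nonneg_right (low_le n hn) (pow_nonneg measureReal_nonneg _))
    (bound_all2 n (by omega) K hK)

end Vale.Agent.P237
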